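import Crest.Agent.EG.StepLem

set_option autoImplicit false

namespace Crest.Agent.EG
open Finset

variable {V : Type} [DecidableEq V]

set_option linter.unusedSectionVars false

/-- the set of vertices available at the junction `i` (`p` enters, `q` leaves, hub `hb`) -/
def Sst (M : ℕ) (U : Finset (Sym2 V)) (p q : V) (hb : Hub V) : Finset V :=
  if p = q then {p} else (hb.1 \ Sat M U hb) ∪ {p, q}

theorem arc_steps_append (x : V) (R1 R2 : Rt V) :
    steps x (R1 ++ R2) = steps x R1 ++ steps (endV x R1) R2 := by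
  induction R1 generalizing x with
  | nil => simp [steps, endV]
  | cons a R1 ih => obtain ⟨o, y⟩ := a; simp [steps, endV, ih]

theorem arc_endV_append (x : V) (R1 R2 : Rt V) :
    endV x (R1 ++ R2) = endV (endV x R1) R2 := by
  induction R1 generalizing x with
  | nil => simp [endV]
  | cons a R1 ih => obtain ⟨o, y⟩ := a; simp [endV, ih]

theorem arc_rtV_append (x : V) (R1 R2 : Rt V) :
    rtV x (R1 ++ R2) = rtV x R1 ++ R2.map Prod.snd := by
  simp [rtV]

/-- route piece of junction `i` -/
def arcJ (p q : ℕ → V) (hb : ℕ → Hub V) (i : ℕ) : Rt V :=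
  (if p i = q i then [] else [(some (hb i), q i)]) ++ [(none, p (i + 1))]

/-- steps of junction `i` -/
def arcSJ (p q : ℕ → V) (hb : ℕ → Hub V) (i : ℕ) : List (V × Option (Hub V) × V) :=
  (if p i = q i then [] else [(p i, some (hb i), q i)]) ++ [(q i, none, p (i + 1))]

/-- vertices of junction `i` -/
def arcVJ (p q : ℕ → V) (i : ℕ) : List V := if p i = q i then [p i] else [p i, q i]

def arcMid (p q : ℕ → V) (hb : ℕ → Hub V) (j : ℕ) : Rt V :=
  (List.range j).flatMap (fun i => arcJ p q hb (i + 1))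

def arcC (p q : ℕ → V) (hb : ℕ → Hub V) (n : ℕ) (z : V) : Rt V :=
  (if z = p n then [] else [(some (hb n), z)]) ++ (if z = q 0 then [] else [(some (hb 0), q 0)])

theorem arcMid_succ (p q : ℕ → V) (hb : ℕ → Hub V) (j : ℕ) :
    arcMid p q hb (j + 1) = arcMid p q hb j ++ arcJ p q hb (j + 1) := by
  simp [arcMid, List.range_succ, List.flatMap_append]

theorem arcJ_endV (p q : ℕ → V) (hb : ℕ → Hub V) (i : ℕ) (x : V) :
    endV x (arcJ p q hb i) = p (i + 1) := by
  unfold arcJ; split_ifs <;> simp [endV]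

theorem arcJ_steps (p q : ℕ → V) (hb : ℕ → Hub V) (i : ℕ) :
    steps (p i) (arcJ p q hb i) = arcSJ p q hb i := by
  unfold arcJ arcSJ; split_ifs with h <;> simp [steps, h]

theorem arcMid_endV (p q : ℕ → V) (hb : ℕ → Hub V) (j : ℕ) :
    endV (p 1) (arcMid p q hb j) = p (j + 1) := by
  induction j with
  | zero => simp [arcMid, endV]
  | succ j ih => rw [arcMid_succ, arc_endV_append, arcJ_endV]

theorem arcMid_steps (p q : ℕ → V) (hb : ℕ → Hub V) (j : ℕ) :
    steps (p 1) (arcMid p q hb j) = (List.range j).flatMap (fun i => arcSJ p q hb (i + 1)) := by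
  induction j with
  | zero => simp [arcMid, steps]
  | succ j ih =>
    rw [arcMid_succ, arc_steps_append, ih, arcMid_endV, arcJ_steps]
    simp [List.range_succ, List.flatMap_append]

theorem arcMid_rtV (p q : ℕ → V) (hb : ℕ → Hub V) (j : ℕ) :
    rtV (p 1) (arcMid p q hb j) = (List.range j).flatMap (fun i => arcVJ p q (i + 1)) ++ [p (j + 1)] := by
  induction j with
  | zero => simp [arcMid, rtV]
  | succ j ih =>
    rw [arcMid_succ, arc_rtV_append, ih]
    simp only [List.range_succ, List.flatMap_append, List.append_assoc, List.flatMap_cons, List.flatMap_nil,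
      List.append_nil]
    congr 1
    unfold arcJ arcVJ
    split_ifs <;> simp

theorem arcMid_length (p q : ℕ → V) (hb : ℕ → Hub V) (j : ℕ) :
    j ≤ (arcMid p q hb j).length := by
  induction j with
  | zero => simp
  | succ j ih =>
    rw [arcMid_succ, List.length_append]
    have : 1 ≤ (arcJ p q hb (j + 1)).length := by unfold arcJ; split_ifs <;> simp
    omega

theorem arcC_endV (p q : ℕ → V) (hb : ℕ → Hub V) (n : ℕ) (z : V) :
    endV (p n) (arcC p q hb n z) = q 0 := by
  unfold arcC
  by_cases h1 : z = p n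
  · by_cases h2 : z = q 0
    · rw [if_pos h1, if_pos h2]; simp only [List.append_nil, endV]; rw [← h1, h2]
    · rw [if_pos h1, if_neg h2]; simp [endV]
  · by_cases h2 : z = q 0
    · rw [if_neg h1, if_pos h2]; simp only [List.append_nil, endV]; exact h2
    · rw [if_neg h1, if_neg h2]; simp [endV]

theorem arcC_steps (p q : ℕ → V) (hb : ℕ → Hub V) (n : ℕ) (z : V) :
    steps (p n) (arcC p q hb n z) = (if z = p n then [] else [(p n, some (hb n), z)]) ++
      (if z = q 0 then [] else [(z, some (hb 0), q 0)]) := by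
  unfold arcC
  by_cases h1 : z = p n
  · by_cases h2 : z = q 0
    · rw [if_pos h1, if_pos h2, if_pos h1, if_pos h2]; simp [steps]
    · rw [if_pos h1, if_neg h2, if_pos h1, if_neg h2]; simp [steps, h1]
  · by_cases h2 : z = q 0
    · rw [if_neg h1, if_pos h2, if_neg h1, if_pos h2]; simp [steps]
    · rw [if_neg h1, if_neg h2, if_neg h1, if_neg h2]; simp [steps]

def arcR (p q : ℕ → V) (hb : ℕ → Hub V) (n : ℕ) (z : V) : Rt V :=
  arcMid p q hb (n - 1) ++ arcC p q hb n z

theorem arcR_endV (p q : ℕ → V) (hb : ℕ → Hub V) (n : ℕ) (hn : 1 ≤ n) (z : V) :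
    endV (p 1) (arcR p q hb n z) = q 0 := by
  unfold arcR
  rw [arc_endV_append, arcMid_endV, Nat.sub_add_cancel hn, arcC_endV]

theorem arcR_steps (p q : ℕ → V) (hb : ℕ → Hub V) (n : ℕ) (hn : 1 ≤ n) (z : V) :
    steps (p 1) (arcR p q hb n z) = (List.range (n - 1)).flatMap (fun i => arcSJ p q hb (i + 1)) ++
      ((if z = p n then [] else [(p n, some (hb n), z)]) ++
      (if z = q 0 then [] else [(z, some (hb 0), q 0)])) := by
  unfold arcR
  rw [arc_steps_append, arcMid_steps, arcMid_endV, Nat.sub_add_cancel hn, arcC_steps]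

theorem arcR_rtV (p q : ℕ → V) (hb : ℕ → Hub V) (n : ℕ) (hn : 1 ≤ n) (z : V) :
    rtV (p 1) (arcR p q hb n z) = (List.range (n - 1)).flatMap (fun i => arcVJ p q (i + 1)) ++ ([p n] ++
      ((if z = p n then [] else [z]) ++ (if z = q 0 then [] else [q 0]))) := by
  unfold arcR
  rw [arc_rtV_append, arcMid_rtV, Nat.sub_add_cancel hn, List.append_assoc]
  congr 2
  unfold arcC
  split_ifs <;> simp

/-- membership in the steps -/
theorem arcR_mem (p q : ℕ → V) (hb : ℕ → Hub V) (n : ℕ) (hn : 1 ≤ n) (z : V) (st : V × Option (Hub V) × V) :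
    st ∈ steps (p 1) (arcR p q hb n z) ↔
      (∃ i, 0 < i ∧ i < n ∧ p i ≠ q i ∧ st = (p i, some (hb i), q i)) ∨
      (∃ i, 0 < i ∧ i < n ∧ st = (q i, none, p (i + 1))) ∨
      (z ≠ p n ∧ st = (p n, some (hb n), z)) ∨ (z ≠ q 0 ∧ st = (z, some (hb 0), q 0)) := by
  rw [arcR_steps p q hb n hn z]
  simp only [List.mem_append, List.mem_flatMap, List.mem_range]
  constructor
  · rintro (⟨i, hi, hst⟩ | hst | hst)
    · unfold arcSJ at hst
      rw [List.mem_append] at hst
      rcases hst with hst | hst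
      · by_cases h : p (i + 1) = q (i + 1)
        · rw [if_pos h] at hst; simp at hst
        · rw [if_neg h] at hst
          left; exact ⟨i + 1, by omega, by omega, h, by simpa using hst⟩
      · right; left; exact ⟨i + 1, by omega, by omega, by simpa using hst⟩
    · by_cases h : z = p n
      · rw [if_pos h] at hst; simp at hst
      · rw [if_neg h] at hst; right; right; left; exact ⟨h, by simpa using hst⟩
    · by_cases h : z = q 0
      · rw [if_pos h] at hst; simp at hst
      · rw [if_neg h] at hst; right; right; right; exact ⟨h, by simpa using hst⟩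
  · rintro (⟨i, h0, hi, hne, rfl⟩ | ⟨i, h0, hi, rfl⟩ | ⟨hne, rfl⟩ | ⟨hne, rfl⟩)
    · left
      refine ⟨i - 1, by omega, ?_⟩
      rw [Nat.sub_add_cancel h0]
      unfold arcSJ; rw [if_neg hne]; simp
    · left
      refine ⟨i - 1, by omega, ?_⟩
      rw [Nat.sub_add_cancel h0]
      unfold arcSJ; simp
    · right; left; rw [if_neg hne]; simp
    · right; right; rw [if_neg hne]; simp

theorem arc_sum (m : ℕ) (f : ℕ → ℕ) : ((List.range m).map f).sum = ∑ i ∈ range m, f i := by
  induction m with
  | zero => simp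
  | succ m ih => rw [List.range_succ, List.map_append, List.sum_append, ih, Finset.sum_range_succ]; simp

/-- counting steps -/
theorem arcR_countP (p q : ℕ → V) (hb : ℕ → Hub V) (n : ℕ) (hn : 1 ≤ n) (z : V)
    (P : V × Option (Hub V) × V → Bool) :
    (steps (p 1) (arcR p q hb n z)).countP P =
      ∑ i ∈ range (n - 1), ((if p (i+1) = q (i+1) then 0 else if P (p (i+1), some (hb (i+1)), q (i+1)) then 1 else 0) +
        (if P (q (i+1), none, p (i+1+1)) then 1 else 0)) +
      ((if z = p n then 0 else if P (p n, some (hb n), z) then 1 else 0) +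
       (if z = q 0 then 0 else if P (z, some (hb 0), q 0) then 1 else 0)) := by
  rw [arcR_steps p q hb n hn z, List.countP_append, List.countP_append, List.countP_flatMap]
  congr 1
  · rw [arc_sum]
    apply Finset.sum_congr rfl
    intro i _
    simp only [Function.comp, arcSJ, List.countP_append]
    congr 1
    · split_ifs <;> simp_all
    · split_ifs <;> simp_all
  · congr 1 <;> split_ifs <;> simp_all


theorem arc_sum1 (n : ℕ) (hn : 1 ≤ n) (b : ℕ → ℕ) :
    ∑ i ∈ range (n + 1), b i = ∑ i ∈ range (n - 1), b (i + 1) + (b n + b 0) := by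
  obtain ⟨m, rfl⟩ : ∃ m, n = m + 1 := ⟨n - 1, by omega⟩
  rw [Finset.sum_range_succ, Finset.sum_range_succ']
  simp only [Nat.add_sub_cancel]
  ring

theorem arc_sum2 (n : ℕ) (hn : 1 ≤ n) (b : ℕ → ℕ) :
    ∑ i ∈ range (n - 1), b (i + 1 + 1) ≤ ∑ i ∈ range (n + 1), b i := by
  obtain ⟨m, rfl⟩ : ∃ m, n = m + 1 := ⟨n - 1, by omega⟩
  rw [Finset.sum_range_succ', Finset.sum_range_succ']
  simp only [Nat.add_sub_cancel]
  omega

/-- (H3) ARC LEMMA.  Junctions `0..n`, entering vertex `p i`, leaving vertex `q i` (same class), `F`-edges `s(q i, p (i+1))` (`i < n`),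
closing vertex `z` at the junctions `0` and `n`.  `K` contains the edges of the arc, an edge at `p 0` and an edge at `q n`.
PROOF.  Apply `stepLem` (with `N = 3 * N0`) to the route: start `p 1`; for `i = 1, …, n-1`: `(some (hb i), q i)` if `p i ≠ q i`, then
`(none, p (i+1))`; at the end `(some (hb n), z)` if `z ≠ p n`, `(some (hb 0), q 0)` if `z ≠ q 0`.  Last vertex `q 0`, closing edge
`s(q 0, p 1)`.
Nodup: the `π`-classes of the junctions `1..n-1, 0` and (if `π (p 0) ≠ π (p n)`) `n` are different (`h3`), `z` is no `p i, q i` for `0<i<n`.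
(In the case `p n = p 0`, `q n = q 0`, `z = p 0` there is no step at `n`, and the step at `0` is `p 0 → q 0`.)
`z` may be one of `p 0, q 0, p n, q n`; if `z = q 0` the step at `0` is missing, if `z = p n` the one at `n` is missing.
If `z ≠ q 0` then `p 0 ≠ q 0` (since `z ∈ Sst 0`) and `z ∈ hb 0`; same for `n`.
Labels: `hb i` for different junctions (of different classes) are different hubs (equal hubs `h`: `p i, p j ∈ L h` have equal `π`).
`h1`: a hub label occurs at most once, at a junction `i` with an end `q i` (`i < n`) or `p i` (`i > 0`) in `L (hb i)` with `dg K ≥ 1`.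
`h2`: ends of the steps: `p i` (`i>0`) has the edge `s(q (i-1), p i) ∈ K`, `q i` (`i<n`) the edge `s(q i, p (i+1)) ∈ K`; `z ∈ Sst 0`: either
`z ∉ Sat` (then the term `1` pays) or `z = p 0`, `dg K z ≥ 1` by `hK0`; same at `n` with `q n`, `hKn`; both hubs at `z` are different.
(if the term `[z ∈ L h] dg K z` is used: `p 0 ∈ L (hb 0)`, `q n ∈ L (hb n)`.)
`hc`: a hub step with label `hb i` has `reach ⊆ Sst i`, an `F`-step from `q j` to `p (j+1)` has `reach ⊆ Sst j ∪ Sst (j+1)`; so at most `3 N0`
steps meet `(hb i).1 \ Sat ⊆ Sst i`. -/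
theorem arcLem {M k T : ℕ} {S : Finset V} {F0 : Finset (Sym2 V)} {H : List (Hub V)}
    {L : Hub V → Finset V} {π : V → V} (cs : CS M k T S F0 H L π) {Fc U : Finset (Sym2 V)}
    (inv : Inv M F0 H L Fc U) (N0 : ℕ) (hN : 400 * M ^ 2 * (3 * N0 + 1) ≤ k)
    (n : ℕ) (hn : 3 ≤ n) (p q : ℕ → V) (hb : ℕ → Hub V) (z : V)
    (h0 : ∀ i < n, s(q i, p (i + 1)) ∈ Fc)
    (h2 : ∀ i ≤ n, p i ≠ q i → hb i ∈ H ∧ p i ∈ L (hb i) ∧ q i ∈ L (hb i))
    (hpq : ∀ i ≤ n, π (p i) = π (q i))
    (h3 : ∀ i j, i < j → j ≤ n → (i ≠ 0 ∨ j ≠ n) → π (p i) ≠ π (p j))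
    (hz : z ∈ Sst M U (p 0) (q 0) (hb 0) ∧ z ∈ Sst M U (p n) (q n) (hb n))
    (hz' : ∀ i, 0 < i → i < n → z ≠ p i ∧ z ≠ q i)
    (h5 : π (p 0) ≠ π (p n) ∨ (p n = p 0 ∧ q n = q 0 ∧ z = p 0))
    (K : Finset (Sym2 V)) (hK : K ⊆ Fc) (hKe : ∀ i < n, s(q i, p (i + 1)) ∈ K)
    (hK0 : 1 ≤ dg K (p 0)) (hKn : 1 ≤ dg K (q n))
    (hconf : ∀ i ≤ n, p i ≠ q i → ((range (n + 1)).filter (fun j =>
      ¬ Disjoint (Sst M U (p i) (q i) (hb i)) (Sst M U (p j) (q j) (hb j)))).card ≤ N0) :
    ∃ X : Finset (Sym2 V), X ⊆ hubE H \ U ∧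
      IsCyc (X ∪ (range n).image (fun i => s(q i, p (i + 1)))) ∧ Inv M F0 H L (Fc \ K) (U ∪ X) := by
  classical
  have hn1 : 1 ≤ n := by omega
  have cls : ∀ i j, i ≤ n → j ≤ n → i ≠ j → ¬ (i = 0 ∧ j = n) → ¬ (i = n ∧ j = 0) →
      π (p i) ≠ π (p j) := by
    intro i j hi hj hij h0n hn0
    rcases lt_or_gt_of_ne hij with h | h
    · exact h3 i j h hj (by omega)
    · exact (h3 j i h hi (by omega)).symm
  have act0 : z ≠ q 0 → p 0 ≠ q 0 := by
    intro hzq hpq0
    have := hz.1; unfold Sst at this; rw [if_pos hpq0] at this; simp at this; exact hzq (this.trans hpq0)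
  have actn : z ≠ p n → p n ≠ q n := by
    intro hzp hpqn
    have := hz.2; unfold Sst at this; rw [if_pos hpqn] at this; simp at this; exact hzp this
  have z0 : z ≠ q 0 → z = p 0 ∨ (z ∈ (hb 0).1 ∧ z ∉ Sat M U (hb 0)) := by
    intro hzq
    have := hz.1; unfold Sst at this; rw [if_neg (act0 hzq)] at this
    simp only [Finset.mem_union, Finset.mem_sdiff, Finset.mem_insert, Finset.mem_singleton] at this
    rcases this with h | h | h
    · right; exact h
    · left; exact h
    · exact absurd h hzq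
  have zn : z ≠ p n → z = q n ∨ (z ∈ (hb n).1 ∧ z ∉ Sat M U (hb n)) := by
    intro hzp
    have := hz.2; unfold Sst at this; rw [if_neg (actn hzp)] at this
    simp only [Finset.mem_union, Finset.mem_sdiff, Finset.mem_insert, Finset.mem_singleton] at this
    rcases this with h | h | h
    · right; exact h
    · exact absurd h hzp
    · left; exact h
  -- degrees in K
  have dgK : ∀ (e : Sym2 V) (v : V), e ∈ K → v ∈ e → 1 ≤ dg K v := by
    intro e v he hv
    unfold dg
    exact Finset.card_pos.mpr ⟨e, Finset.mem_filter.mpr ⟨he, hv⟩⟩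
  have dgq : ∀ i, i < n → 1 ≤ dg K (q i) := fun i hi => dgK _ _ (hKe i hi) (Sym2.mem_mk_left _ _)
  have dgp : ∀ i, 0 < i → i ≤ n → 1 ≤ dg K (p i) := by
    intro i hi hin
    have := hKe (i - 1) (by omega)
    rw [Nat.sub_add_cancel hi] at this
    exact dgK _ _ this (Sym2.mem_mk_right _ _)
  -- active indices
  let act : ℕ → Prop := fun i => (0 < i ∧ i < n ∧ p i ≠ q i) ∨ (i = n ∧ z ≠ p n) ∨ (i = 0 ∧ z ≠ q 0)
  have hact : ∀ i, act i → i ≤ n ∧ p i ≠ q i := by
    rintro i (⟨h, h', h''⟩ | ⟨rfl, h⟩ | ⟨rfl, h⟩)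
    · exact ⟨by omega, h''⟩
    · exact ⟨le_rfl, actn h⟩
    · exact ⟨by omega, act0 h⟩
  have huniq : ∀ i j, act i → act j → hb i = hb j → i = j := by
    intro i j hi hj hij
    by_contra hne
    obtain ⟨hin, hip⟩ := hact i hi
    obtain ⟨hjn, hjp⟩ := hact j hj
    obtain ⟨hiH, hiL, -⟩ := h2 i hin hip
    obtain ⟨hjH, hjL, -⟩ := h2 j hjn hjp
    rw [← hij] at hjL
    have hpi := cs.pi_eq _ hiH _ hiL _ hjL
    by_cases hc1 : i = 0 ∧ j = n
    · obtain ⟨rfl, rfl⟩ := hc1
      rcases h5 with h5 | ⟨h5a, h5b, h5c⟩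
      · exact h5 hpi
      · rcases hj with hj | hj | hj
        · omega
        · exact hj.2 (h5c.trans h5a.symm)
        · omega
    · by_cases hc2 : i = n ∧ j = 0
      · obtain ⟨rfl, rfl⟩ := hc2
        rcases h5 with h5 | ⟨h5a, h5b, h5c⟩
        · exact h5 hpi.symm
        · rcases hi with hi | hi | hi
          · omega
          · exact hi.2 (h5c.trans h5a.symm)
          · omega
      · exact cls i j hin hjn hne hc1 hc2 hpi
  have hcount : ∀ h : Hub V, (steps (p 1) (arcR p q hb n z)).countP (fun st => decide (st.2.1 = some h)) =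
      ((range (n + 1)).filter (fun i => act i ∧ hb i = h)).card := by
    intro h
    rw [arcR_countP p q hb n hn1 z, Finset.card_filter, arc_sum1 n hn1]
    congr 1
    · apply Finset.sum_congr rfl
      intro i hi
      rw [Finset.mem_range] at hi
      have e1 : (act (i + 1) ↔ p (i + 1) ≠ q (i + 1)) := by
        constructor
        · rintro (⟨h, h', h''⟩ | ⟨h, h'⟩ | ⟨h, h'⟩)
          · exact h''
          · omega
          · omega
        · intro h; exact Or.inl ⟨by omega, by omega, h⟩
      by_cases hp : p (i + 1) = q (i + 1) <;> by_cases hh : hb (i + 1) = h <;> simp [hp, hh, e1]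
    · congr 1
      · have e1 : (act n ↔ z ≠ p n) := by
          constructor
          · rintro (⟨h, h', h''⟩ | ⟨h, h'⟩ | ⟨h, h'⟩)
            · omega
            · exact h'
            · omega
          · intro h; exact Or.inr (Or.inl ⟨rfl, h⟩)
        by_cases hp : z = p n <;> by_cases hh : hb n = h <;> simp [hp, hh, e1]
      · have e1 : (act 0 ↔ z ≠ q 0) := by
          constructor
          · rintro (⟨h, h', h''⟩ | ⟨h, h'⟩ | ⟨h, h'⟩)
            · omega
            · omega
            · exact h'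
          · intro h; exact Or.inr (Or.inr ⟨rfl, h⟩)
        by_cases hp : z = q 0 <;> by_cases hh : hb 0 = h <;> simp [hp, hh, e1]
  have hcount1 : ∀ h : Hub V, (steps (p 1) (arcR p q hb n z)).countP (fun st => decide (st.2.1 = some h)) ≤ 1 := by
    intro h
    rw [hcount h, Finset.card_le_one]
    intro i hi j hj
    rw [Finset.mem_filter] at hi hj
    exact huniq i j hi.2.1 hj.2.1 (hi.2.2.trans hj.2.2.symm)
  have hmemstep := arcR_mem p q hb n hn1 z
  -- facts on hub steps
  have hstep : ∀ st ∈ steps (p 1) (arcR p q hb n z), ∀ h, st.2.1 = some h →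
      (∃ i, act i ∧ hb i = h) ∧ h ∈ H ∧ st.1 ∈ h.1 ∧ st.2.2 ∈ h.1 ∧
      (∃ v ∈ L h, 1 ≤ dg K v) ∧
      (∀ w, (w = st.1 ∨ w = st.2.2) → (w ∈ L h ∧ 1 ≤ dg K w) ∨ w ∉ Sat M U h) := by
    intro st hst h hh
    rcases (hmemstep st).mp hst with ⟨i, hi0, hin, hpqi, rfl⟩ | ⟨i, hi0, hin, rfl⟩ | ⟨hzp, rfl⟩ | ⟨hzq, rfl⟩
    · simp only [Option.some.injEq] at hh
      subst hh
      obtain ⟨hH, hLp, hLq⟩ := h2 i hin.le hpqi
      refine ⟨⟨i, Or.inl ⟨hi0, hin, hpqi⟩, rfl⟩, hH, cs.sub _ hH hLp, cs.sub _ hH hLq, ⟨_, hLp, dgp i hi0 hin.le⟩, ?_⟩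
      rintro w (rfl | rfl)
      · exact Or.inl ⟨hLp, dgp i hi0 hin.le⟩
      · exact Or.inl ⟨hLq, dgq i hin⟩
    · simp at hh
    · simp only [Option.some.injEq] at hh
      subst hh
      obtain ⟨hH, hLp, hLq⟩ := h2 n le_rfl (actn hzp)
      have hzm : z ∈ (hb n).1 := by
        rcases zn hzp with h | h
        · rw [h]; exact cs.sub _ hH hLq
        · exact h.1
      refine ⟨⟨n, Or.inr (Or.inl ⟨rfl, hzp⟩), rfl⟩, hH, cs.sub _ hH hLp, hzm, ⟨_, hLp, dgp n (by omega) le_rfl⟩, ?_⟩
      rintro w (rfl | rfl)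
      · exact Or.inl ⟨hLp, dgp n (by omega) le_rfl⟩
      · rcases zn hzp with h | h
        · left; rw [h]; exact ⟨hLq, hKn⟩
        · exact Or.inr h.2
    · simp only [Option.some.injEq] at hh
      subst hh
      obtain ⟨hH, hLp, hLq⟩ := h2 0 (by omega) (act0 hzq)
      have hzm : z ∈ (hb 0).1 := by
        rcases z0 hzq with h | h
        · rw [h]; exact cs.sub _ hH hLp
        · exact h.1
      refine ⟨⟨0, Or.inr (Or.inr ⟨rfl, hzq⟩), rfl⟩, hH, hzm, cs.sub _ hH hLq, ⟨_, hLq, dgq 0 (by omega)⟩, ?_⟩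
      rintro w (rfl | rfl)
      · rcases z0 hzq with h | h
        · left; rw [h]; exact ⟨hLp, hK0⟩
        · exact Or.inr h.2
      · exact Or.inl ⟨hLq, dgq 0 (by omega)⟩
  have hFE : insert s(endV (p 1) (arcR p q hb n z), p 1) (FE (steps (p 1) (arcR p q hb n z))) =
      (range n).image (fun i => s(q i, p (i + 1))) := by
    rw [arcR_endV p q hb n hn1 z]
    ext e
    simp only [Finset.mem_insert, FE, List.mem_toFinset, List.mem_map, List.mem_filter, decide_eq_true_eq,
      Finset.mem_image, Finset.mem_range]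
    constructor
    · rintro (rfl | ⟨st, ⟨hst, hnone⟩, rfl⟩)
      · exact ⟨0, by omega, rfl⟩
      · rcases (hmemstep st).mp hst with ⟨i, hi0, hin, hpqi, rfl⟩ | ⟨i, hi0, hin, rfl⟩ | ⟨hzp, rfl⟩ | ⟨hzq, rfl⟩
        · simp at hnone
        · exact ⟨i, hin, rfl⟩
        · simp at hnone
        · simp at hnone
    · rintro ⟨i, hi, rfl⟩
      rcases Nat.eq_zero_or_pos i with rfl | hi0
      · left; rfl
      · right
        exact ⟨(q i, none, p (i + 1)), ⟨(hmemstep _).mpr (Or.inr (Or.inl ⟨i, hi0, hi, rfl⟩)), rfl⟩, rfl⟩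
  -- nodup
  have hnd : (rtV (p 1) (arcR p q hb n z)).Nodup := by
    rw [arcR_rtV p q hb n hn1 z, List.nodup_append]
    have hVJ : ∀ i, ∀ w ∈ arcVJ p q i, w = p i ∨ w = q i := by
      intro i w hw
      unfold arcVJ at hw
      split_ifs at hw <;> simp at hw <;> tauto
    have hVJpi : ∀ i ≤ n, ∀ w ∈ arcVJ p q i, π w = π (p i) := by
      intro i hi w hw
      rcases hVJ i w hw with rfl | rfl
      · rfl
      · exact (hpq i hi).symm
    have hq0 : ∀ i, 0 < i → i < n → ∀ w ∈ arcVJ p q i, w ≠ q 0 := by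
      intro i hi0 hin w hw heq
      have h1 := hVJpi i hin.le w hw
      rw [heq, ← hpq 0 (by omega)] at h1
      exact h3 0 i hi0 hin.le (Or.inr (by omega)) h1
    have hpn : ∀ i, 0 < i → i < n → ∀ w ∈ arcVJ p q i, w ≠ p n := by
      intro i hi0 hin w hw heq
      have h1 := hVJpi i hin.le w hw
      rw [heq] at h1
      exact h3 i n hin le_rfl (Or.inl (by omega)) h1.symm
    have hzz : ∀ i, 0 < i → i < n → ∀ w ∈ arcVJ p q i, w ≠ z := by
      intro i hi0 hin w hw heq
      rcases hVJ i w hw with rfl | rfl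
      · exact (hz' i hi0 hin).1 heq.symm
      · exact (hz' i hi0 hin).2 heq.symm
    refine ⟨?_, ?_, ?_⟩
    · rw [List.nodup_flatMap]
      refine ⟨?_, ?_⟩
      · intro i _
        unfold arcVJ
        split_ifs with h
        · simp
        · simp [h]
      · apply List.Pairwise.imp_of_mem _ (List.pairwise_lt_range (n := n - 1))
        intro i j hi hj hij
        rw [List.mem_range] at hi hj
        intro w hw1 hw2
        have e1 := hVJpi (i + 1) (by omega) w hw1
        have e2 := hVJpi (j + 1) (by omega) w hw2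
        exact h3 (i + 1) (j + 1) (by omega) (by omega) (Or.inl (by omega)) (e1.symm.trans e2)
    · by_cases h1 : z = p n
      · rw [if_pos h1]
        by_cases h2' : z = q 0
        · rw [if_pos h2']; simp
        · rw [if_neg h2']
          have : p n ≠ q 0 := fun h => h2' (h1.trans h)
          simp [this]
      · rw [if_neg h1]
        by_cases h2' : z = q 0
        · rw [if_pos h2']
          simp [Ne.symm h1]
        · rw [if_neg h2']
          have hne : p n ≠ q 0 := by
            intro h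
            rcases h5 with h5 | ⟨h5a, h5b, h5c⟩
            · apply h5; rw [h, ← hpq 0 (by omega)]
            · exact h1 (h5c.trans h5a.symm)
          simp [Ne.symm h1, h2', hne]
    · intro w hw1 w' hw2 heq
      subst heq
      rw [List.mem_flatMap] at hw1
      obtain ⟨i, hi, hw1⟩ := hw1
      rw [List.mem_range] at hi
      simp only [List.mem_append] at hw2
      rcases hw2 with hw2 | hw2 | hw2
      · simp at hw2
        exact hpn (i + 1) (by omega) (by omega) w hw1 hw2
      · split_ifs at hw2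
        · simp at hw2
        · simp at hw2
          exact hzz (i + 1) (by omega) (by omega) w hw1 hw2
      · split_ifs at hw2
        · simp at hw2
        · simp at hw2
          exact hq0 (i + 1) (by omega) (by omega) w hw1 hw2
  have hv : ∀ st ∈ steps (p 1) (arcR p q hb n z), VR Fc H st := by
    intro st hst
    refine ⟨?_, ?_⟩
    · intro hnone
      rcases (hmemstep st).mp hst with ⟨i, hi0, hin, hpqi, rfl⟩ | ⟨i, hi0, hin, rfl⟩ | ⟨hzp, rfl⟩ | ⟨hzq, rfl⟩
      · simp at hnone
      · exact h0 i hin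
      · simp at hnone
      · simp at hnone
    · intro h hh
      have := hstep st hst h hh
      exact ⟨this.2.1, this.2.2.1, this.2.2.2.1⟩
  have hc : ∀ h, (∃ st ∈ steps (p 1) (arcR p q hb n z), st.2.1 = some h) →
      (steps (p 1) (arcR p q hb n z)).countP
        (fun st => decide (¬ Disjoint (reach M U st) (h.1 \ Sat M U h))) ≤ 3 * N0 := by
    rintro h ⟨st, hst, hh⟩
    obtain ⟨⟨i0, hi0, hbi0⟩, -⟩ := hstep st hst h hh
    obtain ⟨hi0n, hi0p⟩ := hact i0 hi0
    have hB := hconf i0 hi0n hi0p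
    have hsub : h.1 \ Sat M U h ⊆ Sst M U (p i0) (q i0) (hb i0) := by
      unfold Sst; rw [if_neg hi0p, hbi0]; exact Finset.subset_union_left
    let b : ℕ → ℕ := fun j => if ¬ Disjoint (Sst M U (p i0) (q i0) (hb i0)) (Sst M U (p j) (q j) (hb j)) then 1 else 0
    have hbsum : ∑ j ∈ range (n + 1), b j ≤ N0 := by
      rw [← Finset.card_filter]; exact hB
    have hb1 : ∀ j A, A ⊆ Sst M U (p j) (q j) (hb j) → (¬ Disjoint A (h.1 \ Sat M U h)) → b j = 1 := by
      intro j A hA hd
      have : ¬ Disjoint (Sst M U (p i0) (q i0) (hb i0)) (Sst M U (p j) (q j) (hb j)) := by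
        intro hd'
        exact hd (Finset.disjoint_of_subset_left hA (Finset.disjoint_of_subset_right hsub hd'.symm))
      simp only [b]; rw [if_pos this]
    have hpin : ∀ j, p j ∈ Sst M U (p j) (q j) (hb j) := by
      intro j; unfold Sst; split_ifs <;> simp
    have hqin : ∀ j, q j ∈ Sst M U (p j) (q j) (hb j) := by
      intro j; unfold Sst; split_ifs with h
      · simp [h]
      · simp
    have hhub : ∀ j, p j ≠ q j → ∀ x y, x ∈ Sst M U (p j) (q j) (hb j) → y ∈ Sst M U (p j) (q j) (hb j) →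
        reach M U (x, some (hb j), y) ⊆ Sst M U (p j) (q j) (hb j) := by
      intro j hj x y hx hy w hw
      unfold reach at hw
      simp only [Finset.mem_union, Finset.mem_insert, Finset.mem_singleton] at hw
      rcases hw with hw | rfl | rfl
      · unfold Sst; rw [if_neg hj]; exact Finset.mem_union_left _ hw
      · exact hx
      · exact hy
    rw [arcR_countP p q hb n hn1 z]
    have hterm : ∀ i ∈ range (n - 1), ((if p (i+1) = q (i+1) then 0 else
          if decide (¬ Disjoint (reach M U (p (i+1), some (hb (i+1)), q (i+1))) (h.1 \ Sat M U h)) = true then 1 else 0) +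
        (if decide (¬ Disjoint (reach M U (q (i+1), none, p (i+1+1))) (h.1 \ Sat M U h)) = true then 1 else 0)) ≤
        2 * b (i + 1) + b (i + 1 + 1) := by
      intro i _
      have t1 : (if p (i+1) = q (i+1) then 0 else
          if decide (¬ Disjoint (reach M U (p (i+1), some (hb (i+1)), q (i+1))) (h.1 \ Sat M U h)) = true then 1 else 0) ≤
          b (i + 1) := by
        split_ifs with a1 a2
        · exact Nat.zero_le _
        · rw [hb1 (i+1) _ (hhub (i+1) a1 _ _ (hpin _) (hqin _)) (by simpa using a2)]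
        · exact Nat.zero_le _
      have t2 : (if decide (¬ Disjoint (reach M U (q (i+1), none, p (i+1+1))) (h.1 \ Sat M U h)) = true then 1 else 0) ≤
          b (i + 1) + b (i + 1 + 1) := by
        split_ifs with a2
        · rw [decide_eq_true_eq, Finset.not_disjoint_iff] at a2
          obtain ⟨w, hw1, hw2⟩ := a2
          unfold reach at hw1
          simp only [Finset.mem_union, Finset.mem_insert, Finset.mem_singleton, Finset.notMem_empty, false_or] at hw1
          rcases hw1 with rfl | rfl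
          · rw [hb1 (i+1) {q (i+1)} (by simpa using hqin _) (by simpa using hw2)]; omega
          · rw [hb1 (i+1+1) {p (i+1+1)} (by simpa using hpin _) (by simpa using hw2)]; omega
        · exact Nat.zero_le _
      omega
    have hn' : (if z = p n then 0 else if decide (¬ Disjoint (reach M U (p n, some (hb n), z)) (h.1 \ Sat M U h)) = true then 1 else 0) ≤ b n := by
      split_ifs with a1 a2
      · exact Nat.zero_le _
      · rw [hb1 n _ (hhub n (actn a1) _ _ (hpin _) hz.2) (by simpa using a2)]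
      · exact Nat.zero_le _
    have h0' : (if z = q 0 then 0 else if decide (¬ Disjoint (reach M U (z, some (hb 0), q 0)) (h.1 \ Sat M U h)) = true then 1 else 0) ≤ b 0 := by
      split_ifs with a1 a2
      · exact Nat.zero_le _
      · rw [hb1 0 _ (hhub 0 (act0 a1) _ _ hz.1 (hqin _)) (by simpa using a2)]
      · exact Nat.zero_le _
    have e1 := arc_sum1 n hn1 b
    have e2 := arc_sum2 n hn1 b
    have e3 := Finset.sum_le_sum hterm
    rw [Finset.sum_add_distrib (f := fun i => 2 * b (i+1)), ← Finset.mul_sum] at e3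
    omega
  obtain ⟨X, hX, hcyc, hinv⟩ := stepLem cs inv (3 * N0) hN (p 1) (arcR p q hb n z) hnd hv hc
    (by
      left
      have := arcMid_length p q hb (n - 1)
      unfold arcR; rw [List.length_append]; omega)
    K hK
    (by
      rw [hFE]
      intro e he
      rw [Finset.mem_image] at he
      obtain ⟨i, hi, rfl⟩ := he
      exact hKe i (Finset.mem_range.mp hi))
    (by
      intro h hh
      by_cases hcz : (steps (p 1) (arcR p q hb n z)).countP (fun st => decide (st.2.1 = some h)) = 0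
      · rw [hcz]; exact Nat.zero_le _
      · obtain ⟨st, hst, hst'⟩ := List.countP_pos_iff.mp (Nat.pos_of_ne_zero hcz)
        obtain ⟨-, -, -, -, ⟨v, hv1, hv2⟩, -⟩ := hstep st hst h (by simpa using hst')
        calc _ ≤ 1 := hcount1 h
          _ ≤ dg K v := hv2
          _ ≤ _ := Finset.single_le_sum (f := fun z => dg K z) (fun _ _ => Nat.zero_le _) hv1)
    (by
      intro h hh w hw
      by_cases hcz : (steps (p 1) (arcR p q hb n z)).countP (fun st => decide (st.2.1 = some h ∧ (st.1 = w ∨ st.2.2 = w))) = 0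
      · rw [hcz]; exact Nat.zero_le _
      · obtain ⟨st, hst, hst'⟩ := List.countP_pos_iff.mp (Nat.pos_of_ne_zero hcz)
        rw [decide_eq_true_eq] at hst'
        obtain ⟨-, -, -, -, -, hw'⟩ := hstep st hst h hst'.1
        have hle : (steps (p 1) (arcR p q hb n z)).countP (fun st => decide (st.2.1 = some h ∧ (st.1 = w ∨ st.2.2 = w))) ≤ 1 := by
          refine le_trans (List.countP_mono_left ?_) (hcount1 h)
          intro st _ hst
          rw [decide_eq_true_eq] at hst ⊢
          exact hst.1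
        rcases hw' w (hst'.2.imp Eq.symm Eq.symm) with ⟨ha, hb'⟩ | ha
        · rw [if_pos ha]; omega
        · rw [if_neg ha]; omega)
  refine ⟨X, hX, ?_, hinv⟩
  rwa [hFE] at hcyc

end Crest.Agent.EG
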