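import Crest.Agent.EG.Defs

/-!
# Module H (contraction): definitions.
`H` hubs, `L h ⊆ h.1` the class of the hub `h`, `π` the contraction map, `F0` the initial set of `F`-edges, `Fc` the current one,
`U` the set of used hub edges.
-/

set_option autoImplicit false

namespace Crest.Agent.EG
open Finset

variable {V : Type} [DecidableEq V]

/-- the contraction set-up -/
structure CS (M k T : ℕ) (S : Finset V) (F0 : Finset (Sym2 V)) (H : List (Hub V))
    (L : Hub V → Finset V) (π : V → V) : Prop where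
  hM : 1 ≤ M
  hub : HubSys M k S H
  supp : Supp F0 S
  disj : Disjoint F0 (hubE H)
  sub : ∀ h ∈ H, L h ⊆ h.1
  ldisj : ∀ h ∈ H, ∀ h' ∈ H, h ≠ h' → Disjoint (L h) (L h')
  deg : ∀ h ∈ H, ∀ v ∈ L h, dg F0 v ≤ T
  pi_eq : ∀ h ∈ H, ∀ v ∈ L h, ∀ v' ∈ L h, π v = π v'
  pi_inj : ∀ v v', π v = π v' → v = v' ∨ ∃ h ∈ H, v ∈ L h ∧ v' ∈ L h
  hT : 10 ^ 6 * M ^ 3 * (T + 1) ≤ k

/-- saturation threshold -/
def sg (M : ℕ) (h : Hub V) : ℕ := h.1.card / (16 * M)

/-- saturated vertices of a hub -/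
def Sat (M : ℕ) (U : Finset (Sym2 V)) (h : Hub V) : Finset V :=
  h.1.filter (fun z => sg M h ≤ dg (U ∩ h.2) z)

/-- the invariant -/
structure Inv (M : ℕ) (F0 : Finset (Sym2 V)) (H : List (Hub V)) (L : Hub V → Finset V)
    (Fc U : Finset (Sym2 V)) : Prop where
  sub : Fc ⊆ F0
  usub : U ⊆ hubE H
  cnt : ∀ h ∈ H, (U ∩ h.2).card + 8 * M * ∑ z ∈ L h, dg Fc z ≤ 8 * M * ∑ z ∈ L h, dg F0 z
  use : ∀ h ∈ H, ∀ z ∈ h.1, dg (U ∩ h.2) z + (if z ∈ L h then dg Fc z else 0) ≤
    sg M h + 1 + (if z ∈ L h then dg F0 z else 0)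

/-- a route is a start vertex `x` and a list of (label, next vertex); label `none` = `F`-edge, `some h` = link through `h` -/
abbrev Rt (V : Type) := List (Option (Hub V) × V)

instance instDecidableEqRt : DecidableEq (Rt V) := instDecidableEqList

/-- the steps (source, label, target) of a route -/
def steps : V → Rt V → List (V × Option (Hub V) × V)
  | _, [] => []
  | x, (o, y) :: R => (x, o, y) :: steps y R

/-- the last vertex of a route -/
def endV : V → Rt V → V
  | x, [] => x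
  | _, (_, y) :: R => endV y R

/-- the vertices of a route -/
def rtV (x : V) (R : Rt V) : List V := x :: R.map Prod.snd

/-- validity of a step -/
def VR (Fc : Finset (Sym2 V)) (H : List (Hub V)) (st : V × Option (Hub V) × V) : Prop :=
  (st.2.1 = none → s(st.1, st.2.2) ∈ Fc) ∧
    ∀ h, st.2.1 = some h → h ∈ H ∧ st.1 ∈ h.1 ∧ st.2.2 ∈ h.1

/-- the vertices which the link of a step may use -/
def reach (M : ℕ) (U : Finset (Sym2 V)) (st : V × Option (Hub V) × V) : Finset V :=
  (match st.2.1 with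
    | none => ∅
    | some h => h.1 \ Sat M U h) ∪ {st.1, st.2.2}

/-- the `F`-edges of a list of steps -/
def FE (sts : List (V × Option (Hub V) × V)) : Finset (Sym2 V) :=
  ((sts.filter (fun st => st.2.1 = none)).map (fun st => s(st.1, st.2.2))).toFinset

/-- the contracted graph -/
def ctr (π : V → V) (Fc : Finset (Sym2 V)) : Finset (Sym2 V) :=
  (Fc.image (Sym2.map π)).filter (fun e => ¬ e.IsDiag)

theorem dg_mono_CDefs {A B : Finset (Sym2 V)} (h : A ⊆ B) (v : V) : dg A v ≤ dg B v :=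
  Finset.card_le_card (Finset.filter_subset_filter _ h)

theorem sum_dg_le_CDefs (A : Finset (Sym2 V)) (W : Finset V) : ∑ z ∈ W, dg A z ≤ 2 * A.card := by
  unfold dg
  have h1 : ∑ z ∈ W, (A.filter (fun e => z ∈ e)).card = ∑ e ∈ A, (W.filter (fun z => z ∈ e)).card := by
    simp only [Finset.card_filter]
    exact Finset.sum_comm
  rw [h1]
  calc ∑ e ∈ A, (W.filter (fun z => z ∈ e)).card ≤ ∑ _e ∈ A, 2 := by
        apply Finset.sum_le_sum
        intro e _
        induction e with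
        | _ a b =>
          calc (W.filter (fun z => z ∈ s(a, b))).card ≤ ({a, b} : Finset V).card := by
                apply Finset.card_le_card
                intro z hz
                rw [Finset.mem_filter, Sym2.mem_iff] at hz
                simpa using hz.2
            _ ≤ 2 := Finset.card_le_two
    _ = 2 * A.card := by rw [Finset.sum_const, smul_eq_mul, mul_comm]

/-- the invariant gives the degree bound for `link` -/
theorem Inv.deg {M k T : ℕ} {S : Finset V} {F0 : Finset (Sym2 V)} {H : List (Hub V)}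
    {L : Hub V → Finset V} {π : V → V} (cs : CS M k T S F0 H L π) {Fc U : Finset (Sym2 V)}
    (inv : Inv M F0 H L Fc U) : ∀ h ∈ H, ∀ z ∈ h.1, 8 * M * dg (U ∩ h.2) z ≤ h.1.card := by
  intro h hh z hz
  have h1 := inv.use h hh z hz
  have hM := cs.hM
  have hk : k ≤ h.1.card := (cs.hub.1 h hh).2.2.1
  have hT := cs.hT
  have h2 : dg (U ∩ h.2) z ≤ sg M h + 1 + T := by
    by_cases hzL : z ∈ L h
    · rw [if_pos hzL, if_pos hzL] at h1
      have := cs.deg h hh z hzL
      omega
    · rw [if_neg hzL, if_neg hzL] at h1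
      omega
  have h3 : 16 * M * sg M h ≤ h.1.card := by
    unfold sg; exact Nat.mul_div_le _ _
  have h4 : 16 * M * (T + 1) ≤ h.1.card := by
    calc 16 * M * (T + 1) ≤ 10 ^ 6 * M ^ 3 * (T + 1) := by
          apply Nat.mul_le_mul_right
          have : M ≤ M ^ 3 := by
            calc M = M ^ 1 := (pow_one M).symm
              _ ≤ M ^ 3 := Nat.pow_le_pow_right hM (by norm_num)
          nlinarith
      _ ≤ k := hT
      _ ≤ _ := hk
  have h5 : 8 * M * dg (U ∩ h.2) z ≤ 8 * M * (sg M h + 1 + T) := Nat.mul_le_mul_left _ h2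
  have h6 : 2 * (8 * M * (sg M h + 1 + T)) = 16 * M * sg M h + 16 * M * (T + 1) := by ring
  omega

/-- few saturated vertices.  PROOF.  `σ = sg M h = ⌊|h.1|/(16M)⌋ ≥ |h.1|/(32M)` (`|h.1| ≥ k ≥ 10^6 M^3`),
`σ |Sat| ≤ ∑_{z∈h.1} dg (U ∩ h.2) z ≤ 2 |U ∩ h.2| ≤ 16 M ∑_{z∈L h} dg F0 z ≤ 16 M |h.1| T`; so `|Sat| ≤ 512 M^2 T`. -/
theorem Inv.sat {M k T : ℕ} {S : Finset V} {F0 : Finset (Sym2 V)} {H : List (Hub V)}
    {L : Hub V → Finset V} {π : V → V} (cs : CS M k T S F0 H L π) {Fc U : Finset (Sym2 V)}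
    (inv : Inv M F0 H L Fc U) : ∀ h ∈ H, 16 * M * (Sat M U h).card ≤ h.1.card := by
  intro h hh
  have hM := cs.hM
  have hk : k ≤ h.1.card := (cs.hub.1 h hh).2.2.1
  have hT := cs.hT
  set n := h.1.card with hn
  set s := (Sat M U h).card with hs
  -- sum of degrees
  have h1 : sg M h * s ≤ 2 * (U ∩ h.2).card := by
    calc sg M h * s = ∑ _z ∈ Sat M U h, sg M h := by
          rw [Finset.sum_const, smul_eq_mul, mul_comm]
      _ ≤ ∑ z ∈ Sat M U h, dg (U ∩ h.2) z := by
          apply Finset.sum_le_sum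
          intro z hz
          exact (Finset.mem_filter.mp hz).2
      _ ≤ _ := sum_dg_le_CDefs _ _
  have h2 : (U ∩ h.2).card ≤ 8 * M * (n * T) := by
    have h3 := inv.cnt h hh
    have h4 : ∑ z ∈ L h, dg F0 z ≤ n * T := by
      calc ∑ z ∈ L h, dg F0 z ≤ ∑ _z ∈ L h, T := Finset.sum_le_sum (fun z hz => cs.deg h hh z hz)
        _ = (L h).card * T := by rw [Finset.sum_const, smul_eq_mul]
        _ ≤ n * T := Nat.mul_le_mul_right _ (Finset.card_le_card (cs.sub h hh))
    have h5 := Nat.mul_le_mul_left (8 * M) h4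
    omega
  have hM3 : 1 ≤ M ^ 3 := Nat.one_le_pow _ _ hM
  have hMM : M ≤ M ^ 3 := by
    calc M = M ^ 1 := (pow_one M).symm
      _ ≤ M ^ 3 := Nat.pow_le_pow_right hM (by norm_num)
  have hn1 : 32 * M ≤ n := by
    have : 10 ^ 6 * M ^ 3 ≤ 10 ^ 6 * M ^ 3 * (T + 1) := Nat.le_mul_of_pos_right _ (by omega)
    omega
  have h6 : n ≤ 32 * M * sg M h := by
    unfold sg
    have h7 := Nat.div_add_mod n (16 * M)
    have h8 : n % (16 * M) < 16 * M := Nat.mod_lt _ (by omega)
    rw [← hn]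
    have h9 : 32 * M * (n / (16 * M)) = 2 * (16 * M * (n / (16 * M))) := by ring
    omega
  -- n * s ≤ 32 M sg s ≤ 64 M |U| ≤ 512 M^2 n T
  have h7 : n * s ≤ n * (512 * M ^ 2 * T) := by
    calc n * s ≤ 32 * M * sg M h * s := Nat.mul_le_mul_right _ h6
      _ = 32 * M * (sg M h * s) := by ring
      _ ≤ 32 * M * (2 * (U ∩ h.2).card) := Nat.mul_le_mul_left _ h1
      _ ≤ 32 * M * (2 * (8 * M * (n * T))) := Nat.mul_le_mul_left _ (Nat.mul_le_mul_left _ h2)
      _ = n * (512 * M ^ 2 * T) := by ring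
  have h8 : s ≤ 512 * M ^ 2 * T := Nat.le_of_mul_le_mul_left h7 (by omega)
  calc 16 * M * s ≤ 16 * M * (512 * M ^ 2 * T) := Nat.mul_le_mul_left _ h8
    _ = 8192 * M ^ 3 * T := by ring
    _ ≤ 10 ^ 6 * M ^ 3 * (T + 1) := by
        apply Nat.mul_le_mul
        · exact Nat.mul_le_mul_right _ (by norm_num)
        · omega
    _ ≤ k := hT
    _ ≤ n := hk

/-- initial state -/
theorem Inv.init {M k T : ℕ} {S : Finset V} {F0 : Finset (Sym2 V)} {H : List (Hub V)}
    {L : Hub V → Finset V} {π : V → V} (cs : CS M k T S F0 H L π) : Inv M F0 H L F0 ∅ := by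
  have _ := cs.hM
  refine ⟨Finset.Subset.refl _, Finset.empty_subset _, ?_, ?_⟩
  · intro h _; simp
  · intro h _ z _
    simp only [Finset.empty_inter, dg, Finset.filter_empty, Finset.card_empty, zero_add]
    omega

/-- discarding `F`-edges -/
theorem Inv.mono {M : ℕ} {F0 : Finset (Sym2 V)} {H : List (Hub V)}
    {L : Hub V → Finset V} {Fc Fc' U : Finset (Sym2 V)}
    (inv : Inv M F0 H L Fc U) (h : Fc' ⊆ Fc) : Inv M F0 H L Fc' U := by
  refine ⟨h.trans inv.sub, inv.usub, ?_, ?_⟩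
  · intro g hg
    refine le_trans ?_ (inv.cnt g hg)
    apply Nat.add_le_add_left
    apply Nat.mul_le_mul_left
    exact Finset.sum_le_sum (fun z _ => dg_mono_CDefs h z)
  · intro g hg z hz
    refine le_trans ?_ (inv.use g hg z hz)
    apply Nat.add_le_add_left
    split_ifs
    · exact dg_mono_CDefs h z
    · exact le_rfl

end Crest.Agent.EG
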