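import Mathlib

set_option autoImplicit false

namespace Crest.Agent.EG
open Finset

/-- (H8a) GREEDY COLOURING.  PROOF.  `Finset.induction_on`, the new element gets a colour not used by its `≤ Δ` conflicting elements. -/
theorem greedyCol {α : Type} [DecidableEq α] (I : Finset α) (conf : α → α → Prop) [DecidableRel conf]
    (hs : ∀ a b, conf a b → conf b a) (Δ : ℕ)
    (hΔ : ∀ a ∈ I, (I.filter (fun b => b ≠ a ∧ conf a b)).card ≤ Δ) :
    ∃ col : α → Fin (Δ + 1), ∀ a ∈ I, ∀ b ∈ I, a ≠ b → conf a b → col a ≠ col b := by
  have key : ∀ s : Finset α, s ⊆ I →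
      ∃ col : α → Fin (Δ + 1), ∀ a ∈ s, ∀ b ∈ s, a ≠ b → conf a b → col a ≠ col b := by
    intro s
    induction s using Finset.induction_on with
    | empty => intro _; exact ⟨fun _ => 0, by simp⟩
    | insert a s ha ih =>
      intro hsub
      obtain ⟨col, hcol⟩ := ih fun x hx => hsub (mem_insert_of_mem hx)
      have haI : a ∈ I := hsub (mem_insert_self a s)
      have h1 : ((s.filter (fun b => conf a b)).image col).card < (univ : Finset (Fin (Δ + 1))).card := by
        rw [card_univ, Fintype.card_fin]
        refine lt_of_le_of_lt (card_image_le.trans ?_) (Nat.lt_succ_self Δ)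
        refine le_trans (card_le_card ?_) (hΔ a haI)
        intro b hb
        rw [mem_filter] at hb ⊢
        refine ⟨hsub (mem_insert_of_mem hb.1), ?_, hb.2⟩
        rintro rfl
        exact ha hb.1
      obtain ⟨c, -, hc⟩ := Finset.exists_mem_notMem_of_card_lt_card h1
      have hc' : ∀ b ∈ s, conf a b → col b ≠ c := by
        intro b hb hab h
        exact hc (mem_image.2 ⟨b, mem_filter.2 ⟨hb, hab⟩, h⟩)
      refine ⟨Function.update col a c, ?_⟩
      intro x hx y hy hxy hconf
      rcases mem_insert.1 hx with hxa | hx'
      · rcases mem_insert.1 hy with hya | hy'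
        · exact absurd (hxa.trans hya.symm) hxy
        · have hya : y ≠ a := fun h => ha (h ▸ hy')
          rw [hxa, Function.update_self, Function.update_of_ne hya]
          exact fun h => hc' y hy' (hxa ▸ hconf) h.symm
      · have hxa : x ≠ a := fun h => ha (h ▸ hx')
        rcases mem_insert.1 hy with hya | hy'
        · rw [hya, Function.update_self, Function.update_of_ne hxa]
          exact hc' x hx' (hs _ _ (hya ▸ hconf))
        · have hya : y ≠ a := fun h => ha (h ▸ hy')
          rw [Function.update_of_ne hxa, Function.update_of_ne hya]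
          exact hcol x hx' y hy' hxy hconf
  exact key I (subset_refl _)

/-- cut a list into pieces of length at most `t0` -/
theorem cutList {α : Type} (t0 : ℕ) (ht : 1 ≤ t0) : ∀ (n : ℕ) (l : List α), l.length ≤ n →
    ∃ Q : List (List α), t0 * Q.length ≤ l.length + t0 ∧ (∀ q ∈ Q, q ≠ [] ∧ q.length ≤ t0 ∧ q.Sublist l) ∧
      Q.flatten = l := by
  intro n
  induction n with
  | zero =>
    intro l hl
    have : l = [] := List.length_eq_zero_iff.1 (by omega)
    subst this
    exact ⟨[], by simp, by simp, rfl⟩
  | succ n ih =>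
    intro l hl
    by_cases h0 : l = []
    · subst h0
      exact ⟨[], by simp, by simp, rfl⟩
    by_cases h1 : l.length ≤ t0
    · exact ⟨[l], by simp, by simpa using ⟨h0, h1⟩, by simp⟩
    · push Not at h1
      obtain ⟨Q, hQ1, hQ2, hQ3⟩ := ih (l.drop t0) (by rw [List.length_drop]; omega)
      refine ⟨l.take t0 :: Q, ?_, ?_, ?_⟩
      · rw [List.length_cons, mul_add, mul_one]
        rw [List.length_drop] at hQ1
        omega
      · intro q hq
        rcases List.mem_cons.1 hq with rfl | hq
        · refine ⟨?_, ?_, List.take_sublist _ _⟩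
          · intro h
            have := congrArg List.length h
            rw [List.length_take, List.length_nil] at this
            omega
          · rw [List.length_take]
            exact min_le_left _ _
        · obtain ⟨h2, h3, h4⟩ := hQ2 q hq
          exact ⟨h2, h3, h4.trans (List.drop_sublist _ _)⟩
      · rw [List.flatten_cons, hQ3, List.take_append_drop]

/-- (H8b) CHUNKS.  PROOF.  Colour classes of `greedyCol` (`Δ+1` of them), each cut into lists of length `t0` and one shorter one
(`List.toChunks`/ induction): class of size `s` gives `⌈s/t0⌉ ≤ s/t0 + 1` chunks, `t0 * #chunks ≤ s + t0` for each class. -/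
theorem chunks {α : Type} [DecidableEq α] (I : Finset α) (conf : α → α → Prop) [DecidableRel conf]
    (hs : ∀ a b, conf a b → conf b a) (Δ t0 : ℕ) (ht : 1 ≤ t0)
    (hΔ : ∀ a ∈ I, (I.filter (fun b => b ≠ a ∧ conf a b)).card ≤ Δ) :
    ∃ Q : List (List α), t0 * Q.length ≤ t0 * (Δ + 1) + I.card ∧
      (∀ q ∈ Q, q ≠ [] ∧ q.length ≤ t0 ∧ q.Pairwise (fun a b => ¬ conf a b)) ∧ Q.flatten.Nodup ∧
      ∀ a, a ∈ Q.flatten ↔ a ∈ I := by
  obtain ⟨col, hcol⟩ := greedyCol I conf hs Δ hΔ
  have hex : ∀ c : Fin (Δ + 1), ∃ Q : List (List α),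
      t0 * Q.length ≤ (I.filter (fun a => col a = c)).card + t0 ∧
      (∀ q ∈ Q, q ≠ [] ∧ q.length ≤ t0 ∧ q.Sublist (I.filter (fun a => col a = c)).toList) ∧
      Q.flatten = (I.filter (fun a => col a = c)).toList := by
    intro c
    obtain ⟨Q, h1, h2, h3⟩ := cutList t0 ht _ (I.filter (fun a => col a = c)).toList le_rfl
    exact ⟨Q, by rwa [Finset.length_toList] at h1, h2, h3⟩
  choose Q hQ1 hQ2 hQ3 using hex
  have hflat : ((List.finRange (Δ + 1)).flatMap Q).flatten =
      (List.finRange (Δ + 1)).flatMap (fun c => (I.filter (fun a => col a = c)).toList) := by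
    have key : ∀ l : List (Fin (Δ + 1)), (l.flatMap Q).flatten =
        l.flatMap (fun c => (I.filter (fun a => col a = c)).toList) := by
      intro l
      induction l with
      | nil => rfl
      | cons c l ih => rw [List.flatMap_cons, List.flatMap_cons, List.flatten_append, ih, hQ3]
    exact key _
  refine ⟨(List.finRange (Δ + 1)).flatMap Q, ?_, ?_, ?_, ?_⟩
  · have key : ∀ l : List (Fin (Δ + 1)), t0 * (l.flatMap Q).length ≤
        t0 * l.length + (l.map fun c => (I.filter (fun a => col a = c)).card).sum := by
      intro l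
      induction l with
      | nil => simp
      | cons c l ih =>
        rw [List.flatMap_cons, List.length_append, List.length_cons, List.map_cons, List.sum_cons,
          mul_add, mul_add]
        have := hQ1 c
        omega
    have h1 := key (List.finRange (Δ + 1))
    rw [List.length_finRange] at h1
    have h2 : ((List.finRange (Δ + 1)).map fun c => (I.filter (fun a => col a = c)).card).sum = I.card := by
      rw [← List.ofFn_eq_map, List.sum_ofFn]
      exact (card_eq_sum_card_fiberwise (s := I) (f := col) (t := univ) (fun x _ => mem_coe.2 (mem_univ _))).symm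
    rw [h2] at h1
    exact h1
  · intro q hq
    rw [List.mem_flatMap] at hq
    obtain ⟨c, -, hq⟩ := hq
    obtain ⟨h1, h2, h3⟩ := hQ2 c q hq
    refine ⟨h1, h2, ?_⟩
    have hmem : ∀ a ∈ q, a ∈ I ∧ col a = c := by
      intro a ha
      have := h3.subset ha
      rw [Finset.mem_toList, mem_filter] at this
      exact this
    have hnd : q.Nodup := (Finset.nodup_toList _).sublist h3
    refine List.Pairwise.imp_of_mem ?_ hnd
    intro a b ha hb hab hconf
    exact hcol a (hmem a ha).1 b (hmem b hb).1 hab hconf (by rw [(hmem a ha).2, (hmem b hb).2])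
  · rw [hflat, List.nodup_flatMap]
    refine ⟨fun c _ => Finset.nodup_toList _, ?_⟩
    refine List.Pairwise.imp ?_ (List.nodup_finRange (Δ + 1))
    intro c c' hcc
    rw [Function.onFun, List.disjoint_left]
    intro a ha ha'
    rw [Finset.mem_toList, mem_filter] at ha ha'
    exact hcc (ha.2.symm.trans ha'.2)
  · intro a
    rw [hflat, List.mem_flatMap]
    constructor
    · rintro ⟨c, -, h⟩
      rw [Finset.mem_toList, mem_filter] at h
      exact h.1
    · intro h
      exact ⟨col a, List.mem_finRange _, by rw [Finset.mem_toList, mem_filter]; exact ⟨h, rfl⟩⟩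

/-- (H8c) PAIRING UP.  PROOF.  Induction on `|A|` (remove two elements). -/
theorem pairUp {α : Type} [DecidableEq α] (A : Finset α) :
    ∃ Q : List (α × α), (Q.flatMap (fun p => [p.1, p.2])).Nodup ∧ (∀ p ∈ Q, p.1 ∈ A ∧ p.2 ∈ A) ∧
      (A.filter (fun a => a ∉ Q.flatMap (fun p => [p.1, p.2]))).card ≤ 1 := by
  induction h : A.card using Nat.strong_induction_on generalizing A with
  | _ n ih =>
    by_cases h1 : A.card ≤ 1
    · exact ⟨[], by simp, by simp, (card_le_card (filter_subset _ _)).trans h1⟩
    · push Not at h1
      obtain ⟨a, ha, b, hb, hab⟩ := Finset.one_lt_card.1 h1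
      obtain ⟨Q, hQ1, hQ2, hQ3⟩ := ih ((A.erase a).erase b).card (by
        rw [← h]
        exact card_lt_card (lt_of_le_of_lt (erase_subset _ _) (erase_ssubset ha))) ((A.erase a).erase b) rfl
      have hmem : ∀ x ∈ Q.flatMap (fun p => [p.1, p.2]), x ∈ (A.erase a).erase b := by
        intro x hx
        rw [List.mem_flatMap] at hx
        obtain ⟨p, hp, hx⟩ := hx
        simp only [List.mem_cons, List.not_mem_nil, or_false] at hx
        rcases hx with rfl | rfl
        · exact (hQ2 p hp).1
        · exact (hQ2 p hp).2
      refine ⟨(a, b) :: Q, ?_, ?_, ?_⟩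
      · rw [List.flatMap_cons]
        show (a :: b :: Q.flatMap (fun p => [p.1, p.2])).Nodup
        rw [List.nodup_cons, List.nodup_cons]
        refine ⟨?_, ?_, hQ1⟩
        · intro hx
          rcases List.mem_cons.1 hx with hx | hx
          · exact hab hx
          · have := hmem a hx
            simp at this
        · intro hx
          have := hmem b hx
          simp at this
      · intro p hp
        rcases List.mem_cons.1 hp with rfl | hp
        · exact ⟨ha, hb⟩
        · have := hQ2 p hp
          exact ⟨mem_of_mem_erase (mem_of_mem_erase this.1), mem_of_mem_erase (mem_of_mem_erase this.2)⟩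
      · refine le_trans (card_le_card ?_) hQ3
        intro x hx
        rw [mem_filter] at hx ⊢
        have h2 : x ∉ (a :: b :: Q.flatMap (fun p => [p.1, p.2])) := hx.2
        rw [List.mem_cons, List.mem_cons] at h2
        push Not at h2
        exact ⟨mem_erase.2 ⟨h2.2.1, mem_erase.2 ⟨h2.1, hx.1⟩⟩, h2.2.2⟩

end Crest.Agent.EG
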