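import Crest.Agent.EG.Defs

set_option autoImplicit false

namespace Crest.Agent.EG
open Finset

variable {V : Type} [DecidableEq V]

/-- outer neighbourhood of `A` inside `S \ D`, edges in `E \ U` -/
private def lkN (E U : Finset (Sym2 V)) (S D A : Finset V) : Finset V :=
  S.filter (fun y => y ∉ D ∧ y ∉ A ∧ ∃ x ∈ A, s(x, y) ∈ E \ U)

/-- balls -/
private def lkB (E U : Finset (Sym2 V)) (S D : Finset V) (a : V) : ℕ → Finset V
  | 0 => {a}
  | i + 1 => lkB E U S D a i ∪ lkN E U S D (lkB E U S D a i)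

/-- the graph -/
private def lkG (E U : Finset (Sym2 V)) (S D : Finset V) : SimpleGraph V where
  Adj x y := x ≠ y ∧ s(x, y) ∈ E \ U ∧ (x ∈ S ∧ x ∉ D) ∧ (y ∈ S ∧ y ∉ D)
  symm := ⟨fun x y h => ⟨h.1.symm, by rw [Sym2.eq_swap]; exact h.2.1, h.2.2.2, h.2.2.1⟩⟩
  loopless := ⟨fun x h => h.1 rfl⟩

private theorem lk_pairsU (U : Finset (Sym2 V)) (A T : Finset V) :
    ((A ×ˢ T).filter (fun p => s(p.1, p.2) ∈ U)).card ≤ ∑ x ∈ A, dg U x := by
  rw [Finset.card_filter, Finset.sum_product]
  refine Finset.sum_le_sum fun x _ => ?_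
  rw [← Finset.card_filter]
  unfold dg
  refine Finset.card_le_card_of_injOn (fun y => s(x, y)) ?_ ?_
  · intro y hy
    simp only [Finset.coe_filter, Set.mem_setOf_eq] at hy ⊢
    exact ⟨hy.2, Sym2.mem_mk_left x y⟩
  · intro y _ z _ h
    exact Sym2.congr_right.mp h

private theorem lk_growth (M : ℕ) (E U : Finset (Sym2 V)) (S D : Finset V)
    (hCD : CD M E S) (hU : ∀ z ∈ S, 8 * M * dg U z ≤ S.card)
    (hD : 8 * M * (D ∩ S).card ≤ S.card) (A : Finset V) (hAS : A ⊆ S) (hA0 : A.Nonempty)
    (hA2 : 2 * A.card ≤ S.card) : S.card ≤ 4 * M * (lkN E U S D A).card := by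
  have h1 := hCD A hAS
  have hsd : (S \ A).card = S.card - A.card := Finset.card_sdiff_of_subset hAS
  have hsub : (A ×ˢ (S \ A)).filter (fun p => s(p.1, p.2) ∈ E) ⊆
      ((A ×ˢ (D ∩ S)) ∪ (A ×ˢ (S \ A)).filter (fun p => s(p.1, p.2) ∈ U)) ∪
        (A ×ˢ lkN E U S D A) := by
    intro p hp
    simp only [Finset.mem_filter, Finset.mem_product, Finset.mem_sdiff] at hp
    obtain ⟨⟨hpA, hpS, hpA'⟩, hpE⟩ := hp
    simp only [Finset.mem_union, Finset.mem_product, Finset.mem_filter, Finset.mem_inter,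
      Finset.mem_sdiff]
    by_cases hD' : p.2 ∈ D
    · exact Or.inl (Or.inl ⟨hpA, hD', hpS⟩)
    by_cases hU' : s(p.1, p.2) ∈ U
    · exact Or.inl (Or.inr ⟨⟨hpA, hpS, hpA'⟩, hU'⟩)
    · refine Or.inr ⟨hpA, ?_⟩
      simp only [lkN, Finset.mem_filter, Finset.mem_sdiff]
      exact ⟨hpS, hD', hpA', p.1, hpA, hpE, hU'⟩
  have h2 : eb E A (S \ A) ≤
      A.card * (D ∩ S).card + ∑ x ∈ A, dg U x + A.card * (lkN E U S D A).card := by
    unfold eb
    refine (Finset.card_le_card hsub).trans ?_
    refine (Finset.card_union_le _ _).trans ?_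
    have := Finset.card_union_le (A ×ˢ (D ∩ S))
      ((A ×ˢ (S \ A)).filter (fun p => s(p.1, p.2) ∈ U))
    have h3 := lk_pairsU U A (S \ A)
    rw [Finset.card_product] at this
    rw [Finset.card_product]
    omega
  have h4 : 8 * M * ∑ x ∈ A, dg U x ≤ A.card * S.card := by
    rw [Finset.mul_sum]
    calc ∑ x ∈ A, 8 * M * dg U x ≤ ∑ _x ∈ A, S.card :=
          Finset.sum_le_sum fun x hx => hU x (hAS hx)
      _ = A.card * S.card := by rw [Finset.sum_const, smul_eq_mul]
  have hα : 0 < A.card := hA0.card_pos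
  set α := A.card
  set k := S.card
  set d := (D ∩ S).card
  set u := ∑ x ∈ A, dg U x
  set ν := (lkN E U S D A).card
  set e := eb E A (S \ A)
  have h5 : k ≤ 2 * (S \ A).card := by omega
  have h6 : α * k ≤ 2 * (M * e) := by
    calc α * k ≤ α * (2 * (S \ A).card) := Nat.mul_le_mul_left _ h5
      _ = 2 * (α * (S \ A).card) := by ring
      _ ≤ 2 * (M * e) := Nat.mul_le_mul_left _ h1
  have h7 : 8 * (M * e) ≤ α * k + α * k + 8 * M * (α * ν) := by
    calc 8 * (M * e) ≤ 8 * (M * (α * d + u + α * ν)) :=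
          Nat.mul_le_mul_left _ (Nat.mul_le_mul_left _ h2)
      _ = α * (8 * M * d) + 8 * M * u + 8 * M * (α * ν) := by ring
      _ ≤ α * k + α * k + 8 * M * (α * ν) := by
        have := Nat.mul_le_mul_left α hD
        omega
  have h8 : 2 * (α * k) ≤ 8 * M * (α * ν) := by omega
  have h9 : α * (2 * k) ≤ α * (8 * M * ν) := by
    calc α * (2 * k) = 2 * (α * k) := by ring
      _ ≤ 8 * M * (α * ν) := h8
      _ = α * (8 * M * ν) := by ring
  have h10 := Nat.le_of_mul_le_mul_left h9 hα
  have : 8 * M * ν = 2 * (4 * M * ν) := by ring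
  omega

private theorem lkB_sub (E U : Finset (Sym2 V)) (S D : Finset V) (a : V) (ha : a ∈ S)
    (haD : a ∉ D) (i : ℕ) : ∀ y ∈ lkB E U S D a i, y ∈ S ∧ y ∉ D := by
  induction i with
  | zero => intro y hy; simp only [lkB, Finset.mem_singleton] at hy; subst hy; exact ⟨ha, haD⟩
  | succ i ih =>
    intro y hy
    simp only [lkB, Finset.mem_union] at hy
    rcases hy with hy | hy
    · exact ih y hy
    · simp only [lkN, Finset.mem_filter] at hy
      exact ⟨hy.1, hy.2.1⟩

private theorem lkB_nonempty (E U : Finset (Sym2 V)) (S D : Finset V) (a : V) (i : ℕ) :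
    a ∈ lkB E U S D a i := by
  induction i with
  | zero => simp [lkB]
  | succ i ih => simp only [lkB, Finset.mem_union]; exact Or.inl ih

private theorem lkB_walk (E U : Finset (Sym2 V)) (S D : Finset V) (a : V) (ha : a ∈ S)
    (haD : a ∉ D) (i : ℕ) : ∀ y ∈ lkB E U S D a i,
      ∃ w : (lkG E U S D).Walk a y, w.length ≤ i := by
  induction i with
  | zero =>
    intro y hy
    simp only [lkB, Finset.mem_singleton] at hy
    subst hy
    exact ⟨SimpleGraph.Walk.nil, le_refl _⟩
  | succ i ih =>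
    intro y hy
    simp only [lkB, Finset.mem_union] at hy
    rcases hy with hy | hy
    · obtain ⟨w, hw⟩ := ih y hy
      exact ⟨w, by omega⟩
    · simp only [lkN, Finset.mem_filter] at hy
      obtain ⟨hyS, hyD, hyB, x, hx, hxy⟩ := hy
      obtain ⟨w, hw⟩ := ih x hx
      have hxS := lkB_sub E U S D a ha haD i x hx
      have hne : x ≠ y := by
        intro h; subst h; exact hyB hx
      have hadj : (lkG E U S D).Adj x y := ⟨hne, hxy, hxS, hyS, hyD⟩
      refine ⟨w.concat hadj, ?_⟩
      rw [SimpleGraph.Walk.length_concat]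
      omega

private theorem lkB_grow (M : ℕ) (E U : Finset (Sym2 V)) (S D : Finset V)
    (hCD : CD M E S) (hU : ∀ z ∈ S, 8 * M * dg U z ≤ S.card)
    (hD : 8 * M * (D ∩ S).card ≤ S.card) (a : V) (ha : a ∈ S) (haD : a ∉ D) (i : ℕ) :
    S.card < 2 * (lkB E U S D a i).card ∨ i * S.card ≤ 4 * M * (lkB E U S D a i).card := by
  induction i with
  | zero => right; simp
  | succ i ih =>
    have hsub : lkB E U S D a i ⊆ lkB E U S D a (i + 1) := by
      simp only [lkB]; exact Finset.subset_union_left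
    rcases ih with h | h
    · left
      have := Finset.card_le_card hsub
      omega
    · by_cases h2 : 2 * (lkB E U S D a i).card ≤ S.card
      · right
        have hg := lk_growth M E U S D hCD hU hD (lkB E U S D a i)
          (fun y hy => (lkB_sub E U S D a ha haD i y hy).1) ⟨a, lkB_nonempty E U S D a i⟩ h2
        have hdis : Disjoint (lkB E U S D a i) (lkN E U S D (lkB E U S D a i)) := by
          rw [Finset.disjoint_left]
          intro y hy hy'
          simp only [lkN, Finset.mem_filter] at hy'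
          exact hy'.2.2.1 hy
        have hcard : (lkB E U S D a (i + 1)).card =
            (lkB E U S D a i).card + (lkN E U S D (lkB E U S D a i)).card := by
          simp only [lkB]
          exact Finset.card_union_of_disjoint hdis
        rw [hcard]
        calc (i + 1) * S.card = i * S.card + S.card := by ring
          _ ≤ 4 * M * (lkB E U S D a i).card +
              4 * M * (lkN E U S D (lkB E U S D a i)).card := by omega
          _ = _ := by ring
      · left
        have := Finset.card_le_card hsub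
        omega

private theorem lk_half (M : ℕ) (E U : Finset (Sym2 V)) (S D : Finset V)
    (hCD : CD M E S) (hU : ∀ z ∈ S, 8 * M * dg U z ≤ S.card)
    (hD : 8 * M * (D ∩ S).card ≤ S.card) (a : V) (ha : a ∈ S) (haD : a ∉ D) :
    S.card < 2 * (lkB E U S D a (2 * M + 1)).card := by
  have hk : 0 < S.card := Finset.card_pos.mpr ⟨a, ha⟩
  rcases lkB_grow M E U S D hCD hU hD a ha haD (2 * M + 1) with h | h
  · exact h
  · by_contra hc
    push Not at hc
    have : 4 * M * (lkB E U S D a (2 * M + 1)).card ≤ 2 * M * S.card := by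
      calc 4 * M * (lkB E U S D a (2 * M + 1)).card =
          2 * M * (2 * (lkB E U S D a (2 * M + 1)).card) := by ring
        _ ≤ 2 * M * S.card := Nat.mul_le_mul_left _ hc
    have h2 : (2 * M + 1) * S.card = 2 * M * S.card + S.card := by ring
    omega

private theorem lk_support_edges {G : SimpleGraph V} {u v : V} (w : G.Walk u v) :
    pE w.support = w.edges := by
  induction w with
  | nil => simp [pE]
  | cons h p ih =>
    rw [SimpleGraph.Walk.support_cons, SimpleGraph.Walk.edges_cons, ← ih]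
    rw [SimpleGraph.Walk.support_eq_cons p]
    rfl

private theorem lk_support_mem (E U : Finset (Sym2 V)) (S D : Finset V) {u v : V}
    (w : (lkG E U S D).Walk u v) (hu : u ∈ S ∧ u ∉ D) : ∀ z ∈ w.support, z ∈ S ∧ z ∉ D := by
  induction w with
  | nil => intro z hz; simp at hz; subst hz; exact hu
  | cons h p ih =>
    intro z hz
    rw [SimpleGraph.Walk.support_cons, List.mem_cons] at hz
    rcases hz with hz | hz
    · subst hz; exact hu
    · exact ih h.2.2.2 z hz

/-- (B) LINK LEMMA.  PROOF.  Let `k = |S|`.  For `A ⊆ S \ D` with `2|A| ≤ k` and `A` nonempty let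
`N(A) = {y ∈ S \ (A ∪ D) : ∃ x ∈ A, s(x,y) ∈ E \ U}`.  CLAIM `4 M |N(A)| ≥ k`.
Indeed `M * eb E A (S \ A) ≥ |A| |S \ A| ≥ |A| k / 2`.  The pairs `(x,y) ∈ A × (S \ A)` with `s(x,y) ∈ E` split into:
those with `y ∈ D` (at most `|A| |D ∩ S| ≤ |A| k/(8M)`), those with `s(x,y) ∈ U` (at most
`∑_{x∈A} dg U x ≤ |A| k/(8M)`; for fixed `x` the map `y ↦ s(x,y)` is injective), and the others, at most
`|A| |N(A)|`.  So `M |A| |N(A)| + |A| k/4 ≥ |A| k/2`, i.e. `4 M |N(A)| ≥ k`.
Now for `a ∈ S \ D` let `B_0 = {a}`, `B_{i+1} = B_i ∪ N(B_i)` (all in `S \ D`).  As long as `2|B_i| ≤ k` we have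
`4M |B_{i+1}| ≥ 4M |B_i| + k`, so `4M|B_i| ≥ i k` until `2|B_i| > k`; hence `2 |B_{2M+1}| > k`
(if all `2|B_i| ≤ k` for `i ≤ 2M` then `4M |B_{2M+1}| ≥ (2M+1) k > 2 M k`).
Same for `b`.  Since both balls (subsets of `S`) have more than `k/2` elements they intersect.  Every vertex of
`B_i(a)` is joined to `a` inside `S \ D` by a walk in `E \ U` with at most `i` edges.  So there is a walk from `a` to
`b` inside `S \ D` in `E \ U` with at most `4M+2` edges; reduce it to a path (list without repetition), with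
at most `4M+3 ≤ 8M` vertices (`M ≥ 1`; note `k ≥ 2`, the ball argument is uniform).
(You may work with `SimpleGraph.Walk` in the graph with adjacency `x ≠ y ∧ s(x,y) ∈ E \ U ∧ x,y ∈ S \ D`
and convert `walk.toPath.support` to a list.) -/
theorem link (M : ℕ) (hM : 1 ≤ M) (E U : Finset (Sym2 V)) (S D : Finset V)
    (hCD : CD M E S) (hU : ∀ z ∈ S, 8 * M * dg U z ≤ S.card)
    (hD : 8 * M * (D ∩ S).card ≤ S.card) (a b : V) (ha : a ∈ S) (hb : b ∈ S)
    (haD : a ∉ D) (hbD : b ∉ D) (hab : a ≠ b) :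
    ∃ p : List V, PathL (E \ U) a b p ∧ (∀ z ∈ p, z ∈ S ∧ z ∉ D) ∧ p.length ≤ 8 * M := by
  have h1 := lk_half M E U S D hCD hU hD a ha haD
  have h2 := lk_half M E U S D hCD hU hD b hb hbD
  set Ba := lkB E U S D a (2 * M + 1) with hBa
  set Bb := lkB E U S D b (2 * M + 1) with hBb
  have hsubA : Ba ⊆ S := fun y hy => (lkB_sub E U S D a ha haD _ y hy).1
  have hsubB : Bb ⊆ S := fun y hy => (lkB_sub E U S D b hb hbD _ y hy).1
  have hint : (Ba ∩ Bb).Nonempty := by
    by_contra hne
    rw [Finset.not_nonempty_iff_eq_empty] at hne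
    have h3 := Finset.card_union_add_card_inter Ba Bb
    rw [hne, Finset.card_empty] at h3
    have h4 := Finset.card_le_card (Finset.union_subset hsubA hsubB)
    omega
  obtain ⟨c, hc⟩ := hint
  rw [Finset.mem_inter] at hc
  obtain ⟨wa, hwa⟩ := lkB_walk E U S D a ha haD _ c hc.1
  obtain ⟨wb, hwb⟩ := lkB_walk E U S D b hb hbD _ c hc.2
  let w := (wa.append wb.reverse).bypass
  have hw : w.length ≤ 4 * M + 2 := by
    refine (SimpleGraph.Walk.length_bypass_le _).trans ?_
    rw [SimpleGraph.Walk.length_append, SimpleGraph.Walk.length_reverse]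
    omega
  have hwp : w.IsPath := SimpleGraph.Walk.bypass_isPath _
  refine ⟨w.support, ⟨?_, ?_, hwp.support_nodup, ?_⟩, ?_, ?_⟩
  · rw [SimpleGraph.Walk.support_eq_cons]; rfl
  · rw [List.getLast?_eq_getLast_of_ne_nil w.support_ne_nil]
    simp
  · intro e he
    rw [lk_support_edges] at he
    have := w.edges_subset_edgeSet he
    induction e using Sym2.ind with
    | _ x y => exact this.2.1
  · exact lk_support_mem E U S D w ⟨ha, haD⟩
  · rw [SimpleGraph.Walk.length_support]
    omega

end Crest.Agent.EG
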