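import Crest.Agent.EG.Defs

set_option autoImplicit false

namespace Crest.Agent.EG
open Finset

variable {V : Type} [DecidableEq V]

/-- `Dec` is additive on disjoint unions. -/
theorem Dec.union {E E' : Finset (Sym2 V)} {m m' : ℕ} (h : Dec E m) (h' : Dec E' m')
    (hd : Disjoint E E') : Dec (E ∪ E') (m + m') := by
  obtain ⟨L, hL1, hL2, hL3, hL4⟩ := h
  obtain ⟨L', hL1', hL2', hL3', hL4'⟩ := h'
  refine ⟨L ++ L', ?_, ?_, ?_, ?_⟩
  · rw [List.length_append]; omega
  · intro C hC
    rcases List.mem_append.1 hC with hC | hC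
    · exact hL2 C hC
    · exact hL2' C hC
  · rw [List.pairwise_append]
    refine ⟨hL3, hL3', ?_⟩
    intro C hC C' hC'
    have h1 : C ⊆ E := fun e he => (hL4 e).2 ⟨C, hC, he⟩
    have h2 : C' ⊆ E' := fun e he => (hL4' e).2 ⟨C', hC', he⟩
    exact Finset.disjoint_of_subset_left h1 (Finset.disjoint_of_subset_right h2 hd)
  · intro e
    rw [Finset.mem_union, hL4, hL4']
    constructor
    · rintro (⟨C, hC, he⟩ | ⟨C, hC, he⟩)
      · exact ⟨C, List.mem_append_left _ hC, he⟩
      · exact ⟨C, List.mem_append_right _ hC, he⟩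
    · rintro ⟨C, hC, he⟩
      rcases List.mem_append.1 hC with hC | hC
      · exact Or.inl ⟨C, hC, he⟩
      · exact Or.inr ⟨C, hC, he⟩

/-- `Dec` is monotone in the number of parts. -/
theorem Dec.mono {E : Finset (Sym2 V)} {m m' : ℕ} (h : Dec E m) (hm : m ≤ m') : Dec E m' := by
  obtain ⟨L, hL1, hL2⟩ := h
  exact ⟨L, hL1.trans hm, hL2⟩

/-- the empty set -/
theorem Dec.empty : Dec (∅ : Finset (Sym2 V)) 0 := by
  refine ⟨[], by simp, by simp, by simp, by simp⟩

/-- a single good part -/
theorem Dec.one {C : Finset (Sym2 V)} (h : Good C) : Dec C 1 := by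
  refine ⟨[C], by simp, by simpa using h, by simp, by simp⟩

/-- single edges -/
theorem Dec.single (E : Finset (Sym2 V)) (hE : ∀ e ∈ E, ¬ e.IsDiag) : Dec E E.card := by
  induction E using Finset.induction_on with
  | empty => exact Dec.empty
  | insert e s he ih =>
    have h1 : Dec ({e} : Finset (Sym2 V)) 1 :=
      Dec.one (Or.inl ⟨e, hE e (Finset.mem_insert_self e s), rfl⟩)
    have h2 := ih (fun x hx => hE x (Finset.mem_insert_of_mem hx))
    have h3 := Dec.union h1 h2 (Finset.disjoint_singleton_left.2 he)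
    rw [Finset.card_insert_of_notMem he, add_comm, Finset.insert_eq]
    exact h3

/-- (G1) Greedy removal of long cycles.  PROOF.  Strong induction on `|E|`: if `E` contains a cycle edge set `C` with
`l ≤ |C|` (`l ≥ 1` so `C` nonempty) remove it: apply induction to `E \ C`, add `C` to the list (`Dec`), otherwise `Ec = ∅`, `c = 0`. -/
theorem longCyc (E : Finset (Sym2 V)) (l : ℕ) (hl : 1 ≤ l) :
    ∃ (Ec : Finset (Sym2 V)) (c : ℕ), Ec ⊆ E ∧ Dec Ec c ∧ c * l ≤ Ec.card ∧
      ∀ C : Finset (Sym2 V), C ⊆ E \ Ec → IsCyc C → C.card < l := by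
  induction hn : E.card using Nat.strong_induction_on generalizing E with
  | _ n ih =>
    by_cases hC : ∃ C : Finset (Sym2 V), C ⊆ E ∧ IsCyc C ∧ l ≤ C.card
    · obtain ⟨C, hCE, hCc, hCl⟩ := hC
      have hlt : (E \ C).card < n := by
        rw [Finset.card_sdiff_of_subset hCE, hn]
        have := Finset.card_le_card hCE
        omega
      obtain ⟨Ec, c, h1, h2, h3, h4⟩ := ih _ hlt (E \ C) rfl
      have hd : Disjoint Ec C := by
        refine Finset.disjoint_of_subset_left h1 ?_
        exact Finset.sdiff_disjoint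
      refine ⟨Ec ∪ C, c + 1, ?_, ?_, ?_, ?_⟩
      · intro e he
        rcases Finset.mem_union.1 he with he | he
        · exact (Finset.mem_sdiff.1 (h1 he)).1
        · exact hCE he
      · exact Dec.union h2 (Dec.one (Or.inr hCc)) hd
      · rw [Finset.card_union_of_disjoint hd]
        nlinarith
      · intro C' hC' hC''
        apply h4 C' _ hC''
        intro e he
        have := hC' he
        simp only [Finset.mem_sdiff, Finset.mem_union, not_or] at this ⊢
        tauto
    · push Not at hC
      refine ⟨∅, 0, by simp, Dec.empty, by simp, ?_⟩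
      intro C hCE hCc
      apply hC C _ hCc
      simpa using hCE

/-- (G2) Peeling vertices of degree `< d`.  PROOF.  Strong induction on `|S|`: if every `v ∈ S` has
`d ≤ dg (E ∩ S.sym2) v` take `S0 = S` (then `E \ S.sym2 = ∅` by `Supp`).  In general prove by induction for all `S' ⊆ S`:
exists `S0 ⊆ S'` with the degree property and `((E ∩ S'.sym2) \ S0.sym2).card ≤ d * S'.card`: if `v ∈ S'` has
`dg (E ∩ S'.sym2) v < d` pass to `S'.erase v`; the edges lost contain `v`, fewer than `d`. -/
theorem peel (E : Finset (Sym2 V)) (S : Finset V) (hS : Supp E S) (d : ℕ) :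
    ∃ S0 : Finset V, S0 ⊆ S ∧ (∀ v ∈ S0, d ≤ dg (E ∩ S0.sym2) v) ∧
      (E \ S0.sym2).card ≤ d * S.card := by
  have key : ∀ (n : ℕ) (S' : Finset V), S'.card = n →
      ∃ S0 : Finset V, S0 ⊆ S' ∧ (∀ v ∈ S0, d ≤ dg (E ∩ S0.sym2) v) ∧
        ((E ∩ S'.sym2) \ S0.sym2).card ≤ d * S'.card := by
    intro n
    induction n with
    | zero =>
      intro S' hS'
      rw [Finset.card_eq_zero] at hS'
      subst hS'
      exact ⟨∅, by simp, by simp, by simp⟩
    | succ n ih =>
      intro S' hS'
      by_cases hv : ∃ v ∈ S', dg (E ∩ S'.sym2) v < d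
      · obtain ⟨v, hvS, hvd⟩ := hv
        have hc : (S'.erase v).card = n := by
          rw [Finset.card_erase_of_mem hvS, hS']; rfl
        obtain ⟨S0, h1, h2, h3⟩ := ih (S'.erase v) hc
        refine ⟨S0, h1.trans (Finset.erase_subset _ _), h2, ?_⟩
        have hsub : (E ∩ S'.sym2) \ S0.sym2 ⊆
            ((E ∩ (S'.erase v).sym2) \ S0.sym2) ∪ (E ∩ S'.sym2).filter (fun e => v ∈ e) := by
          intro e he
          simp only [Finset.mem_sdiff, Finset.mem_inter, Finset.mem_union, Finset.mem_filter,
            Finset.mem_sym2_iff] at he ⊢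
          by_cases hve : v ∈ e
          · right; exact ⟨he.1, hve⟩
          · left
            refine ⟨⟨he.1.1, ?_⟩, he.2⟩
            intro x hx
            refine Finset.mem_erase.2 ⟨?_, he.1.2 x hx⟩
            rintro rfl
            exact hve hx
        have := Finset.card_le_card hsub
        have h4 := Finset.card_union_le ((E ∩ (S'.erase v).sym2) \ S0.sym2)
          ((E ∩ S'.sym2).filter (fun e => v ∈ e))
        have h5 : ((E ∩ S'.sym2).filter (fun e => v ∈ e)).card < d := hvd
        rw [hS']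
        rw [hc] at h3
        nlinarith
      · push Not at hv
        refine ⟨S', Finset.Subset.refl _, hv, ?_⟩
        have : (E ∩ S'.sym2) \ S'.sym2 = ∅ := by
          ext e; simp
        rw [this]; simp
  obtain ⟨S0, h1, h2, h3⟩ := key S.card S rfl
  refine ⟨S0, h1, h2, ?_⟩
  have : E ∩ S.sym2 = E := Finset.inter_eq_left.2 hS.1
  rwa [this] at h3

end Crest.Agent.EG
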