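import Crest.Agent.EG.Defs

set_option autoImplicit false

namespace Crest.Agent.EG
open Finset

variable {V : Type} [DecidableEq V]

/-- number of ends of paths of `Ps` at `v` -/
def nEnd (Ps : List (List V)) (v : V) : ℕ :=
  Ps.countP (fun p => decide (p.head? = some v)) + Ps.countP (fun p => decide (p.getLast? = some v))

/-- perfect path decomposition: the paths partition `E`, every vertex is an end of exactly `dg E v % 2` paths
(so `1` if its degree is odd and `0` if it is even). -/
def PPD (E : Finset (Sym2 V)) (Ps : List (List V)) : Prop :=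
  (∀ p ∈ Ps, p.Nodup ∧ 2 ≤ p.length) ∧
    Ps.Pairwise (fun p p' => ∀ e ∈ pE p, e ∉ pE p') ∧
    (∀ e, e ∈ E ↔ ∃ p ∈ Ps, e ∈ pE p) ∧ ∀ v, nEnd Ps v = dg E v % 2

end Crest.Agent.EG
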