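import Crest.Agent.EG.SplitDefs
import Crest.Agent.EG.Link
import Crest.Agent.EG.PPDDefs
import Crest.Agent.EG.LongCyc

set_option autoImplicit false

namespace Crest.Agent.EG
open Finset

variable {V : Type} [DecidableEq V]

private theorem cuFin (n : ℕ) (p : Fin n → Bool) :
    (List.finRange n).countP p = ((Finset.univ : Finset (Fin n)).filter (fun i => p i = true)).card := by
  rw [List.countP_eq_length_filter, ← List.toFinset_card_of_nodup ((List.nodup_finRange n).filter _)]
  congr 1
  ext i
  simp

private theorem cuGet (l : List (List V)) (p : List V → Bool) :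
    l.countP p = ((Finset.univ : Finset (Fin l.length)).filter (fun i => p (l.get i) = true)).card := by
  rw [← cuFin l.length (fun i => p (l.get i))]
  conv_lhs => rw [← List.map_get_finRange l]
  rw [List.countP_map]
  rfl

private def cuEnd (Ps : List (List V)) (q : Fin Ps.length × Bool) : Option V :=
  if q.2 then (Ps.get q.1).getLast? else (Ps.get q.1).head?

private theorem cuEndCard (Ps : List (List V)) (v : V) :
    Fintype.card {q : Fin Ps.length × Bool // cuEnd Ps q = some v} = nEnd Ps v := by
  rw [Fintype.card_subtype]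
  unfold nEnd
  rw [cuGet, cuGet]
  have h : (Finset.univ.filter (fun q : Fin Ps.length × Bool => cuEnd Ps q = some v)) =
      ((Finset.univ.filter (fun i : Fin Ps.length => decide ((Ps.get i).head? = some v) = true)).image
        (fun i => (i, false))) ∪
      ((Finset.univ.filter (fun i : Fin Ps.length => decide ((Ps.get i).getLast? = some v) = true)).image
        (fun i => (i, true))) := by
    ext ⟨i, e⟩
    cases e <;> simp [cuEnd]
  rw [h, Finset.card_union_of_disjoint, Finset.card_image_of_injective, Finset.card_image_of_injective]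
  · intro i j hij; exact (Prod.mk.inj hij).1
  · intro i j hij; exact (Prod.mk.inj hij).1
  · rw [Finset.disjoint_left]
    rintro ⟨i, e⟩ h1 h2
    simp only [Finset.mem_image, Prod.mk.injEq] at h1 h2
    obtain ⟨_, _, _, h1⟩ := h1
    obtain ⟨_, _, _, h2⟩ := h2
    rw [← h1] at h2
    exact absurd h2 (by decide)

/-- (D2a) ends: every path of a family with `nEnd ≤ 2` gets slots in `Fin 2` at both its ends, different (path, end) pairs at the
same vertex get different slots.  `e = false` is the head, `e = true` the last vertex of the `i`-th path.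
PROOF.  For a vertex `v` the set of pairs `(i,e)` whose end is `v` has at most `2` elements (`nEnd Ps v ≤ 2`;
`countP` over the list = card of the filter of indices), so it injects into `Fin 2`. -/
theorem slots (Ps : List (List V)) (hP : ∀ p ∈ Ps, 2 ≤ p.length) (hn : ∀ v, nEnd Ps v ≤ 2) :
    ∃ sl : Fin Ps.length → Bool → Fin 2, ∀ (i j : Fin Ps.length) (e e' : Bool),
      (if e then (Ps.get i).getLast? else (Ps.get i).head?) =
        (if e' then (Ps.get j).getLast? else (Ps.get j).head?) → sl i e = sl j e' → i = j ∧ e = e' := by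
  have hemb : ∀ o : Option V, Nonempty ({q : Fin Ps.length × Bool // cuEnd Ps q = o} ↪ Fin 2) := by
    intro o
    cases o with
    | none =>
      have : IsEmpty {q : Fin Ps.length × Bool // cuEnd Ps q = none} := by
        constructor
        rintro ⟨⟨i, e⟩, h⟩
        have h2 := hP _ (List.get_mem Ps i)
        cases e
        · simp only [cuEnd, Bool.false_eq_true, if_false] at h
          rw [List.head?_eq_none_iff] at h
          rw [h] at h2; simp at h2
        · simp only [cuEnd, if_true] at h
          rw [List.getLast?_eq_none_iff] at h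
          rw [h] at h2; simp at h2
      exact ⟨⟨fun q => this.elim q, fun q => this.elim q⟩⟩
    | some v =>
      apply Function.Embedding.nonempty_of_card_le
      rw [cuEndCard, Fintype.card_fin]
      exact hn v
  let g : (o : Option V) → {q : Fin Ps.length × Bool // cuEnd Ps q = o} ↪ Fin 2 := fun o => Classical.choice (hemb o)
  refine ⟨fun i e => g (cuEnd Ps (i, e)) ⟨(i, e), rfl⟩, ?_⟩
  have key : ∀ (o o' : Option V) (_ : o = o') (q : {q : Fin Ps.length × Bool // cuEnd Ps q = o})
      (q' : {q : Fin Ps.length × Bool // cuEnd Ps q = o'}), g o q = g o' q' → q.1 = q'.1 := by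
    intro o o' h q q' h'
    subst h
    rw [(g o).injective h']
  intro i j e e' h h'
  have := key (cuEnd Ps (i, e)) (cuEnd Ps (j, e')) h _ _ h'
  exact Prod.mk.inj this

/-! ### edges of paths containing a vertex -/

private theorem pE_append (l : List V) (b y : V) (r : List V) :
    pE ((l ++ [b]) ++ (y :: r)) = pE (l ++ [b]) ++ s(b, y) :: pE (y :: r) := by
  induction l with
  | nil => simp [pE]
  | cons a l ih =>
    cases l with
    | nil => simp [pE]
    | cons c l =>
      simp only [List.cons_append, pE] at ih ⊢
      rw [ih]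

private theorem pE_mem_of (l : List V) : ∀ e ∈ pE l, ∀ v ∈ e, v ∈ l := by
  induction l with
  | nil => simp [pE]
  | cons a l ih =>
    cases l with
    | nil => simp [pE]
    | cons b l =>
      intro e he v hv
      simp only [pE, List.mem_cons] at he
      rcases he with rfl | he
      · rcases Sym2.mem_iff.1 hv with rfl | rfl <;> simp
      · exact List.mem_cons_of_mem _ (ih e he v hv)

private theorem pE_length (l : List V) : (pE l).length ≤ l.length := by
  induction l with
  | nil => simp [pE]
  | cons a l ih =>
    cases l with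
    | nil => simp [pE]
    | cons b l =>
      simp only [pE, List.length_cons] at ih ⊢
      omega

/-- number of edges of the list containing `z` -/
private def cuC (z : V) (l : List (Sym2 V)) : ℕ := l.countP (fun e => decide (z ∈ e))

private theorem cuC_cons (z : V) (e : Sym2 V) (l : List (Sym2 V)) :
    cuC z (e :: l) = cuC z l + if z ∈ e then 1 else 0 := by
  unfold cuC
  rw [List.countP_cons]
  simp

private theorem cuC_not (z : V) (l : List V) (h : z ∉ l) : cuC z (pE l) = 0 := by
  unfold cuC
  rw [List.countP_eq_zero]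
  intro e he
  simp only [decide_eq_true_eq]
  intro hz
  exact h (pE_mem_of l e he z hz)

private theorem cuC_head (z : V) (l : List V) (h : (z :: l).Nodup) : cuC z (pE (z :: l)) ≤ 1 := by
  cases l with
  | nil => simp [pE, cuC]
  | cons b l =>
    rw [List.nodup_cons] at h
    simp only [pE]
    rw [cuC_cons, cuC_not z (b :: l) h.1]
    split_ifs <;> omega

private theorem cuC_last (z : V) (l : List V) (h : l.Nodup) (hl : l.getLast? = some z) :
    cuC z (pE l) ≤ 1 := by
  induction l with
  | nil => simp [pE, cuC]
  | cons a l ih =>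
    cases l with
    | nil => simp [pE, cuC]
    | cons b l =>
      rw [List.nodup_cons] at h
      have hl' : (b :: l).getLast? = some z := by
        rw [List.getLast?_cons_cons] at hl; exact hl
      have hz : z ∈ b :: l := List.mem_of_getLast? hl'
      have hza : z ≠ a := by rintro rfl; exact h.1 hz
      simp only [pE]
      rw [cuC_cons]
      by_cases hb : z = b
      · subst hb
        cases l with
        | nil => simp [pE, cuC]
        | cons c l =>
          exfalso
          rw [List.getLast?_cons_cons] at hl'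
          have := List.mem_of_getLast? hl'
          exact (List.nodup_cons.1 h.2).1 this
      · have : z ∉ s(a, b) := by
          intro hm
          rcases Sym2.mem_iff.1 hm with h' | h'
          · exact hza h'
          · exact hb h'
        rw [if_neg this]
        exact ih h.2 hl'

private theorem cuC_two (z : V) (l : List V) (h : l.Nodup) : cuC z (pE l) ≤ 2 := by
  induction l with
  | nil => simp [pE, cuC]
  | cons a l ih =>
    cases l with
    | nil => simp [pE, cuC]
    | cons b l =>
      have hn := h
      rw [List.nodup_cons] at h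
      simp only [pE]
      rw [cuC_cons]
      by_cases ha : z = a
      · subst ha
        have := cuC_not z (b :: l) h.1
        rw [this]; split_ifs <;> omega
      · by_cases hb : z = b
        · subst hb
          have := cuC_head z l h.2
          split_ifs <;> omega
        · have : z ∉ s(a, b) := by
            intro hm
            rcases Sym2.mem_iff.1 hm with h' | h'
            · exact ha h'
            · exact hb h'
          rw [if_neg this]
          exact ih h.2

private theorem dg_toFinset (z : V) (l : List (Sym2 V)) : dg l.toFinset z ≤ cuC z l := by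
  unfold dg cuC
  rw [List.countP_eq_length_filter]
  refine le_trans (Finset.card_le_card ?_) (List.toFinset_card_le (l.filter (fun e => decide (z ∈ e))))
  intro e he
  rw [Finset.mem_filter, List.mem_toFinset] at he
  rw [List.mem_toFinset, List.mem_filter]
  exact ⟨he.1, by simpa using he.2⟩

private theorem dg_union (A B : Finset (Sym2 V)) (z : V) : dg (A ∪ B) z ≤ dg A z + dg B z := by
  unfold dg
  rw [Finset.filter_union]
  exact Finset.card_union_le _ _

/-- `∑_{z ∈ W} dg U z ≤ 2 |U|` -/
private theorem sum_dg (U : Finset (Sym2 V)) (W : Finset V) : ∑ z ∈ W, dg U z ≤ 2 * U.card := by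
  unfold dg
  simp only [Finset.card_filter]
  rw [Finset.sum_comm]
  calc ∑ e ∈ U, ∑ z ∈ W, (if z ∈ e then 1 else 0) ≤ ∑ e ∈ U, 2 := by
        refine Finset.sum_le_sum (fun e _ => ?_)
        rw [← Finset.card_filter]
        induction e using Sym2.ind with
        | _ x y =>
          refine le_trans (Finset.card_le_card (t := {x, y}) ?_) (Finset.card_le_two)
          intro z hz
          rw [Finset.mem_filter] at hz
          simpa using hz.2
    _ = 2 * U.card := by rw [Finset.sum_const, smul_eq_mul, mul_comm]

/-! ### one closing step -/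

private theorem cuLink (M1 t : ℕ) (hM : 1 ≤ M1) (E : Finset (Sym2 V)) (W : Finset V) (hCD : CD M1 E W) (N : ℕ)
    (hW1 : 64 * M1 * (t + 3) ≤ W.card) (hW2 : 10000 * M1 ^ 3 * N ≤ W.card ^ 2)
    (U : Finset (Sym2 V)) (hU : U.card ≤ 8 * M1 * N)
    (hdg : ∀ z ∈ W, dg U z ≤ W.card / (16 * M1) + 1 + t)
    (x y : V) (hx : x ∈ W) (hy : y ∈ W) :
    ∃ q : List V, q.head? = some y ∧ q.getLast? = some x ∧ q.Nodup ∧ (∀ z ∈ q, z ∈ W) ∧
      (∀ e ∈ pE q, e ∈ E \ U) ∧ q.length ≤ 8 * M1 ∧
      ∀ z, dg (U ∪ (pE q).toFinset) z ≤ W.card / (16 * M1) + 1 ∨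
        dg (U ∪ (pE q).toFinset) z ≤ dg U z + (if x = z then 1 else 0) + (if y = z then 1 else 0) := by
  by_cases hxy : y = x
  · subst hxy
    refine ⟨[y], rfl, rfl, List.nodup_singleton y, ?_, ?_, ?_, ?_⟩
    · intro z hz
      rw [List.mem_singleton] at hz
      rw [hz]; exact hy
    · intro e he
      simp [pE] at he
    · rw [List.length_singleton]; omega
    · intro z
      right
      have : U ∪ (pE [y]).toFinset = U := by simp [pE]
      rw [this]; omega
  · set w := W.card with hw
    set s := w / (16 * M1) with hs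
    have h1 : 16 * M1 * s ≤ w := Nat.mul_div_le w (16 * M1)
    have h2 : w < 16 * M1 * (s + 1) := Nat.lt_mul_div_succ w (by omega)
    have h3 : 1 ≤ s := by
      by_contra h
      have h0 : s = 0 := Nat.lt_one_iff.1 (not_le.1 h)
      rw [h0] at h2
      nlinarith
    set D := (W.filter (fun z => s ≤ dg U z)) \ {x, y} with hD
    have hU' : ∀ z ∈ W, 8 * M1 * dg U z ≤ W.card := by
      intro z hz
      have h4 := hdg z hz
      calc 8 * M1 * dg U z ≤ 8 * M1 * (s + 1 + t) := Nat.mul_le_mul_left _ h4
        _ ≤ w := by nlinarith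
    have hDc : s * (D ∩ W).card ≤ 2 * U.card := by
      calc s * (D ∩ W).card ≤ ∑ z ∈ D ∩ W, dg U z := by
            rw [mul_comm, ← smul_eq_mul]
            refine Finset.card_nsmul_le_sum _ _ _ (fun z hz => ?_)
            rw [Finset.mem_inter, hD, Finset.mem_sdiff, Finset.mem_filter] at hz
            exact hz.1.1.2
        _ ≤ ∑ z ∈ W, dg U z :=
            Finset.sum_le_sum_of_subset Finset.inter_subset_right
        _ ≤ 2 * U.card := sum_dg U W
    have hD' : 8 * M1 * (D ∩ W).card ≤ W.card := by
      have hw0 : 0 < w := by nlinarith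
      refine Nat.le_of_mul_le_mul_right (c := w) ?_ hw0
      set dd := (D ∩ W).card
      have h5 : w ≤ 32 * M1 * s := by nlinarith
      have h6 : w * dd ≤ 512 * M1 ^ 2 * N := by
        calc w * dd ≤ 32 * M1 * s * dd := Nat.mul_le_mul_right _ h5
          _ = 32 * M1 * (s * dd) := by ring
          _ ≤ 32 * M1 * (2 * U.card) := Nat.mul_le_mul_left _ hDc
          _ ≤ 32 * M1 * (2 * (8 * M1 * N)) := Nat.mul_le_mul_left _ (Nat.mul_le_mul_left _ hU)
          _ = 512 * M1 ^ 2 * N := by ring
      calc 8 * M1 * dd * w = 8 * M1 * (w * dd) := by ring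
        _ ≤ 8 * M1 * (512 * M1 ^ 2 * N) := Nat.mul_le_mul_left _ h6
        _ = 4096 * M1 ^ 3 * N := by ring
        _ ≤ 10000 * M1 ^ 3 * N := by
            apply Nat.mul_le_mul_right; apply Nat.mul_le_mul_right; omega
        _ ≤ w ^ 2 := hW2
        _ = W.card * w := by rw [← hw]; ring
    have hxD : x ∉ D := by simp [hD]
    have hyD : y ∉ D := by simp [hD]
    obtain ⟨q, ⟨hq1, hq2, hq3, hq4⟩, hq5, hq6⟩ :=
      link M1 hM E U W D hCD hU' hD' y x hy hx hyD hxD hxy
    refine ⟨q, hq1, hq2, hq3, fun z hz => (hq5 z hz).1, hq4, hq6, ?_⟩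
    intro z
    have h7 := dg_union U (pE q).toFinset z
    have h8 := dg_toFinset z (pE q)
    by_cases hzq : z ∈ q
    · by_cases hzx : x = z
      · right
        have : cuC z (pE q) ≤ 1 := cuC_last z q hq3 (by rw [hq2, hzx])
        rw [if_pos hzx]; omega
      · by_cases hzy : y = z
        · right
          have : cuC z (pE q) ≤ 1 := by
            cases q with
            | nil => simp at hzq
            | cons c q =>
              have : c = z := by
                rw [List.head?_cons] at hq1
                rw [← hzy]; exact Option.some.inj hq1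
              subst this
              exact cuC_head c q hq3
          rw [if_pos hzy]; omega
        · left
          obtain ⟨hzW, hzD⟩ := hq5 z hzq
          have h9 : dg U z < s := by
            by_contra hc
            apply hzD
            rw [hD, Finset.mem_sdiff, Finset.mem_filter]
            refine ⟨⟨hzW, by omega⟩, ?_⟩
            simp only [Finset.mem_insert, Finset.mem_singleton, not_or]
            exact ⟨fun h => hzx h.symm, fun h => hzy h.symm⟩
          have h10 := cuC_two z q hq3
          omega
    · right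
      have := cuC_not z q hzq
      omega

/-- a path `p` from `a` to `b` with entries `x` (for `a`) and `y` (for `b`) -/
private structure CuTask (V : Type) where
  p : List V
  a : V
  b : V
  x : V
  y : V

private def CuTask.ed (T : CuTask V) : List (Sym2 V) := s(T.a, T.x) :: s(T.b, T.y) :: pE T.p

private def CuTask.ok (A W : Finset V) (T : CuTask V) : Prop :=
  T.p.Nodup ∧ 2 ≤ T.p.length ∧ (∀ v ∈ T.p, v ∈ A) ∧ T.p.head? = some T.a ∧ T.p.getLast? = some T.b ∧
    T.x ∈ W ∧ T.y ∈ W

private def cuN (Q : List (CuTask V)) (z : V) : ℕ :=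
  Q.countP (fun T => decide (T.x = z)) + Q.countP (fun T => decide (T.y = z))

private theorem cuN_cons (T : CuTask V) (Q : List (CuTask V)) (z : V) :
    cuN (T :: Q) z = cuN Q z + (if T.x = z then 1 else 0) + (if T.y = z then 1 else 0) := by
  unfold cuN
  rw [List.countP_cons, List.countP_cons]
  simp only [decide_eq_true_eq]
  omega

private theorem cuCyc (A W : Finset V) (hAW : Disjoint A W) (T : CuTask V) (hT : T.ok A W) (q : List V)
    (h1 : q.head? = some T.y) (h2 : q.getLast? = some T.x) (h3 : q.Nodup) (h4 : ∀ z ∈ q, z ∈ W) :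
    IsCyc ((T.ed ++ pE q).toFinset) := by
  obtain ⟨t1, t2, t3, t4, t5, t6, t7⟩ := hT
  obtain ⟨p', hp'⟩ : ∃ p', T.p = T.a :: p' := by
    cases hp : T.p with
    | nil => rw [hp] at t2; simp at t2
    | cons c p' => rw [hp] at t4; exact ⟨p', by rw [List.head?_cons] at t4; rw [Option.some.inj t4]⟩
  obtain ⟨q', hq'⟩ : ∃ q', q = T.y :: q' := by
    cases hq : q with
    | nil => rw [hq] at h1; simp at h1
    | cons c q' => rw [hq] at h1; exact ⟨q', by rw [List.head?_cons] at h1; rw [Option.some.inj h1]⟩
  obtain ⟨p0, hp0⟩ := List.getLast?_eq_some_iff.1 t5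
  obtain ⟨q0, hq0⟩ := List.getLast?_eq_some_iff.1 h2
  refine ⟨T.a, p' ++ q, ?_, ?_, ?_⟩
  · rw [hp', List.length_cons] at t2
    rw [List.length_append, hq', List.length_cons]; omega
  · rw [← List.cons_append, ← hp', List.nodup_append]
    refine ⟨t1, h3, ?_⟩
    intro a ha b hb hab
    subst hab
    exact (Finset.disjoint_left.1 hAW) (t3 a ha) (h4 a hb)
  · have e1 : T.a :: (p' ++ q ++ [T.a]) = (p0 ++ [T.b]) ++ (T.y :: (q' ++ [T.a])) := by
      rw [← hp0, hp', List.cons_append, hq']
      simp
    have e2 : T.y :: (q' ++ [T.a]) = (q0 ++ [T.x]) ++ (T.a :: []) := by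
      rw [← List.cons_append, ← hq', hq0]
    rw [e1, pE_append, e2, pE_append, ← hp0, ← hq0]
    ext e
    simp only [CuTask.ed, List.mem_toFinset, List.mem_append, List.mem_cons, pE, List.not_mem_nil, or_false]
    rw [show s(T.x, T.a) = s(T.a, T.x) from Sym2.eq_swap]
    tauto

private theorem cuEdA (A W : Finset V) (hAW : Disjoint A W) (E : Finset (Sym2 V)) (hE : Supp E W) (T : CuTask V)
    (hT : T.ok A W) (e : Sym2 V) (he : e ∈ T.ed) : e ∉ E := by
  intro heE
  obtain ⟨t1, t2, t3, t4, t5, t6, t7⟩ := hT
  have hW : ∀ v ∈ e, v ∈ W := Finset.mem_sym2_iff.1 (hE.1 heE)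
  have haA : T.a ∈ A := t3 _ (List.mem_of_head? t4)
  have hbA : T.b ∈ A := t3 _ (List.mem_of_getLast? t5)
  simp only [CuTask.ed, List.mem_cons] at he
  rcases he with he | he | he
  · exact (Finset.disjoint_left.1 hAW) haA (hW T.a (by rw [he]; exact Sym2.mem_mk_left _ _))
  · exact (Finset.disjoint_left.1 hAW) hbA (hW T.b (by rw [he]; exact Sym2.mem_mk_left _ _))
  · induction e using Sym2.ind with
    | _ u v =>
      have hu := pE_mem_of _ _ he u (Sym2.mem_mk_left _ _)
      exact (Finset.disjoint_left.1 hAW) (t3 u hu) (hW u (Sym2.mem_mk_left _ _))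

private theorem closeAux (M1 t : ℕ) (hM : 1 ≤ M1) (E : Finset (Sym2 V)) (A W : Finset V) (hAW : Disjoint A W)
    (hE : Supp E W) (hCD : CD M1 E W)
    (hW1 : 64 * M1 * (t + 3) ≤ W.card) (hW2 : 10000 * M1 ^ 3 * A.card ≤ W.card ^ 2) :
    ∀ Q : List (CuTask V), Q.length ≤ A.card → (∀ T ∈ Q, T.ok A W) →
      Q.Pairwise (fun T T' => ∀ e ∈ T.ed, e ∉ T'.ed) → (∀ z ∈ W, cuN Q z ≤ t) →
      ∃ U ⊆ E, Dec ((Q.flatMap CuTask.ed).toFinset ∪ U) Q.length ∧ U.card ≤ 8 * M1 * Q.length ∧
        ∀ z ∈ W, dg U z ≤ W.card / (16 * M1) + 1 + cuN Q z := by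
  intro Q
  induction Q with
  | nil =>
    intro _ _ _ _
    refine ⟨∅, Finset.empty_subset _, ?_, by simp, ?_⟩
    · simpa using Dec.empty
    · intro z _; simp [dg]
  | cons T Q ih =>
    intro hlen hok hpw hN
    rw [List.length_cons] at hlen
    rw [List.pairwise_cons] at hpw
    obtain ⟨U, hUE, hDec, hcard, hdg⟩ := ih (by omega) (fun T' hT' => hok T' (List.mem_cons_of_mem _ hT')) hpw.2
      (fun z hz => by
        have := hN z hz
        rw [cuN_cons] at this
        omega)
    have hT := hok T List.mem_cons_self
    have hT' := hT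
    obtain ⟨t1, t2, t3, t4, t5, t6, t7⟩ := hT'
    obtain ⟨q, q1, q2, q3, q4, q5, q6, q7⟩ := cuLink M1 t hM E W hCD A.card hW1 hW2 U
      (hcard.trans (Nat.mul_le_mul_left _ (by omega)))
      (fun z hz => (hdg z hz).trans (by
        have := hN z hz
        rw [cuN_cons] at this
        omega)) T.x T.y t6 t7
    have hcyc := cuCyc A W hAW T hT q q1 q2 q3 q4
    have hdisj : Disjoint ((Q.flatMap CuTask.ed).toFinset ∪ U) (T.ed ++ pE q).toFinset := by
      rw [Finset.disjoint_left]
      intro e he he'
      rw [List.mem_toFinset, List.mem_append] at he'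
      rw [Finset.mem_union, List.mem_toFinset, List.mem_flatMap] at he
      rcases he with ⟨T', hT', he⟩ | he
      · rcases he' with he' | he'
        · exact hpw.1 T' hT' e he' he
        · exact cuEdA A W hAW E hE T' (hok T' (List.mem_cons_of_mem _ hT')) e he (Finset.mem_sdiff.1 (q5 e he')).1
      · rcases he' with he' | he'
        · exact cuEdA A W hAW E hE T hT e he' (hUE he)
        · exact (Finset.mem_sdiff.1 (q5 e he')).2 he
    refine ⟨U ∪ (pE q).toFinset, ?_, ?_, ?_, ?_⟩
    · refine Finset.union_subset hUE (fun e he => ?_)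
      rw [List.mem_toFinset] at he
      exact (Finset.mem_sdiff.1 (q5 e he)).1
    · have h := Dec.union hDec (Dec.one (Or.inr hcyc)) hdisj
      rw [List.length_cons]
      convert h using 1
      ext e
      simp only [Finset.mem_union, List.mem_toFinset, List.mem_flatMap, List.mem_append, List.mem_cons,
        exists_eq_or_imp]
      clear * -
      generalize (e ∈ T.ed) = p1
      generalize (∃ a ∈ Q, e ∈ a.ed) = p2
      generalize (e ∈ U) = p3
      generalize (e ∈ pE q) = p4
      tauto
    · have h1 := Finset.card_union_le U (pE q).toFinset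
      have h2 := List.toFinset_card_le (pE q)
      have h3 := pE_length q
      rw [List.length_cons]
      have : 8 * M1 * (Q.length + 1) = 8 * M1 * Q.length + 8 * M1 := by ring
      omega
    · intro z hz
      rw [cuN_cons]
      have h1 := hdg z hz
      rcases q7 z with h2 | h2
      · omega
      · omega

/-- (D2) CLOSING PATHS THROUGH `W`.  `A` and `W` disjoint; `Ps` are edge-disjoint paths in `A` with `nEnd ≤ 2`;
`f` entries as in `entry` (load `≤ t`); `E` is `M1`-cut-dense on `W`; `W` is large.  Then
`X = (edges of the paths) ∪ (all entry edges) ∪ (a set `U` of `E`-edges inside `W`)` has `Dec X (|A| + 2 |A|)`.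
PROOF.  `|Ps| ≤ |A|` since `2|Ps| = ∑_v nEnd Ps v ≤ 2|A|` (ends lie in `A`).  Process the paths one after another (induction on
a prefix of `Ps`, using `slots`); state: the set `U` of used link edges, with
(i) `dg U z ≤ σ + 1 + (number of used entries at z)` where `σ = ⌊|W|/(16 M1)⌋` and (ii) `|U| ≤ 8 M1 * (number of paths done)`.
Next path `p = a … b` with entries `x = f a (slot)`, `y = f b (slot')`.  If `x = y`: the cycle is `p ++ [x]`
(cyclic; `p.length ≥ 2`, `x ∉ A`).  If `x ≠ y`: `D = {z ∈ W : σ ≤ dg U z} \ {x, y}`; `σ |D| ≤ ∑ dg U z = 2 |U| ≤ 16 M1 |A|`, so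
`8 M1 |D| ≤ |W|` by `hW`; `8 M1 dg U z ≤ |W|` for `z ∈ W` by (i) (`dg U z ≤ σ + 1 + t`, `hW`).  `link` gives a path `q`
from `y` to `x` in `W` avoiding `D`; the cycle is `p ++ q` (cyclic: edges `b y` and `x a`).  New usage: inner vertices
of `q` had `dg U z < σ`, get `+2`; `x` and `y` get `+1` (their used entries also go up by one).
The cycle edges are: `pE p`, `s(a,x)`, `s(b,y)`, `pE q`.  All cycles are edge-disjoint (different (path, end) pairs at
the same vertex use different slots, `f a 0 ≠ f a 1`, `A`, `W` disjoint so entry edges for different `a` are different).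
The unused entry edges (`≤ 2|A|`) are single edges. -/
theorem closeUp (M1 t : ℕ) (hM : 1 ≤ M1) (ht : 1 ≤ t) (E : Finset (Sym2 V)) (A W : Finset V) (hAW : Disjoint A W)
    (hE : Supp E W) (hCD : CD M1 E W)
    (hW1 : 64 * M1 * (t + 3) ≤ W.card) (hW2 : 10000 * M1 ^ 3 * A.card ≤ W.card ^ 2)
    (Ps : List (List V)) (hP : ∀ p ∈ Ps, p.Nodup ∧ 2 ≤ p.length ∧ ∀ v ∈ p, v ∈ A)
    (hdis : Ps.Pairwise (fun p p' => ∀ e ∈ pE p, e ∉ pE p')) (hn : ∀ v, nEnd Ps v ≤ 2)
    (f : V → Fin 2 → V) (hf : ∀ a ∈ A, ∀ i, f a i ∈ W) (hf2 : ∀ a ∈ A, f a 0 ≠ f a 1)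
    (hload : ∀ x ∈ W, ((A ×ˢ (univ : Finset (Fin 2))).filter (fun p => f p.1 p.2 = x)).card ≤ t) :
    ∃ U ⊆ E, Dec ((Ps.flatMap pE).toFinset ∪ (A ×ˢ (univ : Finset (Fin 2))).image (fun p => s(p.1, f p.1 p.2)) ∪ U)
      (3 * A.card) := by
  obtain ⟨sl, hsl⟩ := slots Ps (fun p hp => (hP p hp).2.1) hn
  have hne : ∀ i : Fin Ps.length, Ps.get i ≠ [] := by
    intro i h
    have := (hP _ (List.get_mem Ps i)).2.1
    rw [h] at this; simp at this
  -- the end `e` of path `i`
  let en : Fin Ps.length → Bool → V := fun i e =>
    if e then (Ps.get i).getLast (hne i) else (Ps.get i).head (hne i)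
  have hen : ∀ i e, (if e then (Ps.get i).getLast? else (Ps.get i).head?) = some (en i e) := by
    intro i e
    cases e
    · simp only [en, Bool.false_eq_true, if_false]
      exact List.head?_eq_some_head (hne i)
    · simp only [en, if_true]
      exact List.getLast?_eq_some_getLast (hne i)
  have henA : ∀ i e, en i e ∈ A := by
    intro i e
    have h3 := (hP _ (List.get_mem Ps i)).2.2
    cases e
    · exact h3 _ (List.head_mem (hne i))
    · exact h3 _ (List.getLast_mem (hne i))
  have hinj : ∀ i j e e', en i e = en j e' → sl i e = sl j e' → i = j ∧ e = e' := by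
    intro i j e e' h1 h2
    exact hsl i j e e' (by rw [hen, hen, h1]) h2
  have hfinj : ∀ a ∈ A, ∀ s s' : Fin 2, f a s = f a s' → s = s' := by
    intro a ha s s' h
    have := hf2 a ha
    fin_cases s <;> fin_cases s'
    · rfl
    · exact absurd h this
    · exact absurd h.symm this
    · rfl
  let mk : Fin Ps.length → CuTask V := fun i =>
    ⟨Ps.get i, en i false, en i true, f (en i false) (sl i false), f (en i true) (sl i true)⟩
  let Q : List (CuTask V) := (List.finRange Ps.length).map mk
  -- the injection (i,e) ↦ (end, slot)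
  have hlen : Ps.length ≤ A.card := by
    have h1 : (Finset.univ : Finset (Fin Ps.length × Bool)).card ≤ (A ×ˢ (univ : Finset (Fin 2))).card := by
      refine Finset.card_le_card_of_injOn (fun q => (en q.1 q.2, sl q.1 q.2)) ?_ ?_
      · intro q _
        simp only [Finset.coe_product, Set.mem_prod, Finset.mem_coe]
        exact ⟨henA _ _, Finset.mem_univ _⟩
      · intro q _ q' _ h
        have h' := Prod.mk.inj h
        have := hinj q.1 q'.1 q.2 q'.2 h'.1 h'.2
        exact Prod.ext this.1 this.2
    rw [Finset.card_univ, Fintype.card_prod, Fintype.card_fin, Fintype.card_bool, Finset.card_product,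
      Finset.card_univ, Fintype.card_fin] at h1
    omega
  have hok : ∀ T ∈ Q, T.ok A W := by
    intro T hT
    obtain ⟨i, -, rfl⟩ := List.mem_map.1 hT
    obtain ⟨h1, h2, h3⟩ := hP _ (List.get_mem Ps i)
    exact ⟨h1, h2, h3, hen i false, hen i true, hf _ (henA _ _) _, hf _ (henA _ _) _⟩
  have hpw : Q.Pairwise (fun T T' => ∀ e ∈ T.ed, e ∉ T'.ed) := by
    rw [List.pairwise_map]
    have hnd : (List.finRange Ps.length).Pairwise (· < ·) := List.pairwise_lt_finRange Ps.length
    refine hnd.imp ?_
    intro i j hij e he he'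
    have hpp : ∀ e ∈ pE (Ps.get i), e ∉ pE (Ps.get j) := by
      have := List.pairwise_iff_get.1 hdis i j hij
      exact this
    have hent : ∀ (k : Fin Ps.length) (b : Bool) (l : Fin Ps.length), s(en k b, f (en k b) (sl k b)) ∉ pE (Ps.get l) := by
      intro k b l hm
      have h1 := pE_mem_of _ _ hm (f (en k b) (sl k b)) (Sym2.mem_mk_right _ _)
      have h2 := (hP _ (List.get_mem Ps l)).2.2 _ h1
      exact (Finset.disjoint_left.1 hAW) h2 (hf _ (henA _ _) _)
    have hdif : ∀ (b b' : Bool), s(en i b, f (en i b) (sl i b)) ≠ s(en j b', f (en j b') (sl j b')) := by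
      intro b b' h
      rw [Sym2.eq_iff] at h
      rcases h with ⟨h1, h2⟩ | ⟨h1, h2⟩
      · rw [h1] at h2
        have h3 := hfinj _ (henA j b') _ _ h2
        have := (hinj i j b b' h1 h3).1
        rw [this] at hij
        exact lt_irrefl _ hij
      · exact (Finset.disjoint_left.1 hAW) (henA i b) (by rw [h1]; exact hf _ (henA _ _) _)
    simp only [CuTask.ed, mk, List.mem_cons] at he he'
    rcases he with he | he | he
    · rcases he' with he' | he' | he'
      · exact hdif false false (he.symm.trans he')
      · exact hdif false true (he.symm.trans he')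
      · rw [he] at he'; exact hent i false j he'
    · rcases he' with he' | he' | he'
      · exact hdif true false (he.symm.trans he')
      · exact hdif true true (he.symm.trans he')
      · rw [he] at he'; exact hent i true j he'
    · rcases he' with he' | he' | he'
      · rw [he'] at he; exact hent j false i he
      · rw [he'] at he; exact hent j true i he
      · exact hpp e he he'
  have hN : ∀ z ∈ W, cuN Q z ≤ t := by
    intro z hz
    refine le_trans ?_ (hload z hz)
    have e1 : cuN Q z = (Finset.univ.filter (fun i : Fin Ps.length => f (en i false) (sl i false) = z)).card +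
        (Finset.univ.filter (fun i : Fin Ps.length => f (en i true) (sl i true) = z)).card := by
      unfold cuN
      rw [List.countP_map, List.countP_map, cuFin, cuFin]
      simp only [Function.comp, mk, decide_eq_true_eq]
    rw [e1]
    have e2 : (Finset.univ.filter (fun i : Fin Ps.length => f (en i false) (sl i false) = z)).card +
        (Finset.univ.filter (fun i : Fin Ps.length => f (en i true) (sl i true) = z)).card =
        ((Finset.univ : Finset (Fin Ps.length × Bool)).filter (fun q => f (en q.1 q.2) (sl q.1 q.2) = z)).card := by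
      have h : ((Finset.univ : Finset (Fin Ps.length × Bool)).filter (fun q => f (en q.1 q.2) (sl q.1 q.2) = z)) =
          ((Finset.univ.filter (fun i : Fin Ps.length => f (en i false) (sl i false) = z)).image
            (fun i => (i, false))) ∪
          ((Finset.univ.filter (fun i : Fin Ps.length => f (en i true) (sl i true) = z)).image
            (fun i => (i, true))) := by
        ext ⟨i, e⟩
        cases e <;> simp
      rw [h, Finset.card_union_of_disjoint, Finset.card_image_of_injective, Finset.card_image_of_injective]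
      · intro i j hij; exact (Prod.mk.inj hij).1
      · intro i j hij; exact (Prod.mk.inj hij).1
      · rw [Finset.disjoint_left]
        rintro ⟨i, e⟩ h1 h2
        simp only [Finset.mem_image, Prod.mk.injEq] at h1 h2
        obtain ⟨_, _, _, h1⟩ := h1
        obtain ⟨_, _, _, h2⟩ := h2
        rw [← h1] at h2
        exact absurd h2 (by decide)
    rw [e2]
    refine Finset.card_le_card_of_injOn (fun q => (en q.1 q.2, sl q.1 q.2)) ?_ ?_
    · intro q hq
      simp only [Finset.coe_filter, Finset.mem_univ, true_and, Set.mem_ofPred_eq] at hq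
      simp only [Finset.coe_filter, Finset.mem_product, Finset.mem_univ, and_true, Set.mem_ofPred_eq]
      exact ⟨henA _ _, hq⟩
    · intro q _ q' _ h
      have h' := Prod.mk.inj h
      have := hinj q.1 q'.1 q.2 q'.2 h'.1 h'.2
      exact Prod.ext this.1 this.2
  have hQl : Q.length = Ps.length := by
    simp [Q]
  obtain ⟨U, hUE, hDec, -, -⟩ := closeAux M1 t hM E A W hAW hE hCD hW1 hW2 Q (by rw [hQl]; exact hlen) hok hpw hN
  refine ⟨U, hUE, ?_⟩
  set N := (A ×ˢ (univ : Finset (Fin 2))).image (fun p => s(p.1, f p.1 p.2)) with hNdef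
  set X := (Q.flatMap CuTask.ed).toFinset ∪ U with hX
  have hrest : Dec (N \ X) (2 * A.card) := by
    refine Dec.mono (Dec.single (N \ X) ?_) ?_
    · intro e he
      rw [Finset.mem_sdiff, hNdef, Finset.mem_image] at he
      obtain ⟨⟨⟨a, s⟩, h1, h2⟩, -⟩ := he
      rw [Finset.mem_product] at h1
      rw [← h2, Sym2.mk_isDiag_iff]
      intro h3
      have h4 := hf a h1.1 s
      have h5 : a ∈ W := by
        have : a = f a s := h3
        rw [this]; exact h4
      exact (Finset.disjoint_left.1 hAW) h1.1 h5
    · refine (Finset.card_le_card Finset.sdiff_subset).trans ?_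
      refine Finset.card_image_le.trans ?_
      rw [Finset.card_product, Finset.card_univ, Fintype.card_fin]
      omega
  have hall := Dec.union hDec hrest Finset.disjoint_sdiff
  refine Dec.mono (m := Q.length + 2 * A.card) ?_ (by rw [hQl]; omega)
  convert hall using 1
  ext e
  simp only [Finset.mem_union, Finset.mem_sdiff, hX]
  have hQe : e ∈ (Q.flatMap CuTask.ed).toFinset ↔ e ∈ (Ps.flatMap pE).toFinset ∨
      ∃ i b, e = s(en i b, f (en i b) (sl i b)) := by
    rw [List.mem_toFinset, List.mem_toFinset, List.mem_flatMap, List.mem_flatMap]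
    constructor
    · rintro ⟨T, hT, he⟩
      obtain ⟨i, -, rfl⟩ := List.mem_map.1 hT
      simp only [CuTask.ed, mk, List.mem_cons] at he
      rcases he with he | he | he
      · exact Or.inr ⟨i, false, he⟩
      · exact Or.inr ⟨i, true, he⟩
      · exact Or.inl ⟨Ps.get i, List.get_mem Ps i, he⟩
    · rintro (⟨p, hp, he⟩ | ⟨i, b, he⟩)
      · obtain ⟨i, rfl⟩ := List.mem_iff_get.1 hp
        refine ⟨mk i, List.mem_map.2 ⟨i, List.mem_finRange i, rfl⟩, ?_⟩
        simp only [CuTask.ed, mk, List.mem_cons]
        exact Or.inr (Or.inr he)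
      · refine ⟨mk i, List.mem_map.2 ⟨i, List.mem_finRange i, rfl⟩, ?_⟩
        simp only [CuTask.ed, mk, List.mem_cons]
        cases b
        · exact Or.inl he
        · exact Or.inr (Or.inl he)
  have hNe : ∀ i b, s(en i b, f (en i b) (sl i b)) ∈ N := by
    intro i b
    rw [hNdef, Finset.mem_image]
    exact ⟨(en i b, sl i b), Finset.mem_product.2 ⟨henA _ _, Finset.mem_univ _⟩, rfl⟩
  rw [hQe]
  constructor
  · rintro ((h | h) | h)
    · exact Or.inl (Or.inl (Or.inl h))
    · by_cases hx : (e ∈ (Ps.flatMap pE).toFinset ∨ ∃ i b, e = s(en i b, f (en i b) (sl i b))) ∨ e ∈ U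
      · exact Or.inl hx
      · exact Or.inr ⟨h, hx⟩
    · exact Or.inl (Or.inr h)
  · rintro (((h | ⟨i, b, h⟩) | h) | h)
    · exact Or.inl (Or.inl h)
    · rw [h]; exact Or.inl (Or.inr (hNe i b))
    · exact Or.inr h
    · exact Or.inl (Or.inr h.1)

end Crest.Agent.EG
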