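import Crest.Agent.EG.Defs

set_option autoImplicit false

namespace Crest.Agent.EG
open Finset

variable {V : Type} [DecidableEq V]

private theorem clusters_cross (E : Finset (Sym2 V)) (S A : Finset V) (hA : A ⊆ S) :
    (E.filter (fun e => e ∈ S.sym2 ∧ e ∉ A.sym2 ∧ e ∉ (S \ A).sym2)).card ≤ eb E A (S \ A) := by
  unfold eb
  have h : E.filter (fun e => e ∈ S.sym2 ∧ e ∉ A.sym2 ∧ e ∉ (S \ A).sym2) ⊆
      ((A ×ˢ (S \ A)).filter (fun p => s(p.1, p.2) ∈ E)).image (fun p => s(p.1, p.2)) := by
    intro e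
    induction e using Sym2.ind with
    | _ x y =>
      intro he
      rw [mem_filter] at he
      obtain ⟨hE, h1, h2, h3⟩ := he
      simp only [Finset.mk_mem_sym2_iff, mem_sdiff] at h1 h2 h3
      rw [mem_image]
      by_cases hx : x ∈ A
      · have hy : y ∉ A := fun hy => h2 ⟨hx, hy⟩
        refine ⟨(x, y), ?_, rfl⟩
        simp only [mem_filter, mem_product, mem_sdiff]
        exact ⟨⟨hx, h1.2, hy⟩, hE⟩
      · have hy : y ∈ A := by
          by_contra hy
          exact h3 ⟨⟨h1.1, hx⟩, h1.2, hy⟩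
        refine ⟨(y, x), ?_, Sym2.eq_swap⟩
        simp only [mem_filter, mem_product, mem_sdiff]
        refine ⟨⟨hy, h1.1, hx⟩, ?_⟩
        rwa [Sym2.eq_swap]
  exact (card_le_card h).trans card_image_le

private theorem clusters_aux (E : Finset (Sym2 V)) (M : ℕ) (n : ℕ) :
    ∀ S : Finset V, S.card ≤ n →
    ∃ L : List (Finset V), (∀ K ∈ L, K.Nonempty ∧ K ⊆ S ∧ CD M E K) ∧
      L.Pairwise Disjoint ∧ (∀ v ∈ S, ∃ K ∈ L, v ∈ K) ∧
      2 * M * (E.filter (fun e => e ∈ S.sym2 ∧ ∀ K ∈ L, e ∉ K.sym2)).card ≤ S.card ^ 2 := by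
  induction n with
  | zero =>
    intro S hS
    have hS0 : S = ∅ := by rw [← card_eq_zero]; omega
    subst hS0
    refine ⟨[], by simp, List.Pairwise.nil, by simp, ?_⟩
    simp
  | succ n ih =>
    intro S hS
    rcases S.eq_empty_or_nonempty with h0 | hne
    · subst h0
      refine ⟨[], by simp, List.Pairwise.nil, by simp, ?_⟩
      simp
    · by_cases hCD : CD M E S
      · refine ⟨[S], ?_, List.pairwise_singleton _ _, ?_, ?_⟩
        · intro K hK
          rw [List.mem_singleton] at hK
          subst hK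
          exact ⟨hne, Subset.refl _, hCD⟩
        · intro v hv
          exact ⟨S, List.mem_singleton_self _, hv⟩
        · have : E.filter (fun e => e ∈ S.sym2 ∧ ∀ K ∈ [S], e ∉ K.sym2) = ∅ := by
            rw [filter_eq_empty_iff]
            rintro e - ⟨h1, h2⟩
            exact h2 S (List.mem_singleton_self _) h1
          rw [this]
          simp
      · unfold CD at hCD
        push Not at hCD
        obtain ⟨A, hA, hlt⟩ := hCD
        have hpos : 0 < A.card * (S \ A).card := by omega
        have hA0 : 0 < A.card := Nat.pos_of_mul_pos_right hpos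
        have hB0 : 0 < (S \ A).card := Nat.pos_of_mul_pos_left hpos
        have hsum : A.card + (S \ A).card = S.card := by
          have := card_sdiff_add_card_eq_card hA
          omega
        obtain ⟨LA, hA1, hA2, hA3, hA4⟩ := ih A (by omega)
        obtain ⟨LB, hB1, hB2, hB3, hB4⟩ := ih (S \ A) (by omega)
        refine ⟨LA ++ LB, ?_, ?_, ?_, ?_⟩
        · intro K hK
          rw [List.mem_append] at hK
          rcases hK with hK | hK
          · obtain ⟨h1, h2, h3⟩ := hA1 K hK
            exact ⟨h1, h2.trans hA, h3⟩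
          · obtain ⟨h1, h2, h3⟩ := hB1 K hK
            exact ⟨h1, h2.trans sdiff_subset, h3⟩
        · rw [List.pairwise_append]
          refine ⟨hA2, hB2, ?_⟩
          intro K hK K' hK'
          exact Disjoint.mono (hA1 K hK).2.1 (hB1 K' hK').2.1 disjoint_sdiff
        · intro v hv
          by_cases hvA : v ∈ A
          · obtain ⟨K, hK, hvK⟩ := hA3 v hvA
            exact ⟨K, List.mem_append_left _ hK, hvK⟩
          · obtain ⟨K, hK, hvK⟩ := hB3 v (mem_sdiff.2 ⟨hv, hvA⟩)
            exact ⟨K, List.mem_append_right _ hK, hvK⟩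
        · have hsub : E.filter (fun e => e ∈ S.sym2 ∧ ∀ K ∈ LA ++ LB, e ∉ K.sym2) ⊆
              E.filter (fun e => e ∈ A.sym2 ∧ ∀ K ∈ LA, e ∉ K.sym2) ∪
              (E.filter (fun e => e ∈ (S \ A).sym2 ∧ ∀ K ∈ LB, e ∉ K.sym2) ∪
              E.filter (fun e => e ∈ S.sym2 ∧ e ∉ A.sym2 ∧ e ∉ (S \ A).sym2)) := by
            intro e he
            rw [mem_filter] at he
            obtain ⟨hE, h1, h2⟩ := he
            simp only [mem_union, mem_filter]
            by_cases hAe : e ∈ A.sym2
            · left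
              exact ⟨hE, hAe, fun K hK => h2 K (List.mem_append_left _ hK)⟩
            · right
              by_cases hBe : e ∈ (S \ A).sym2
              · left
                exact ⟨hE, hBe, fun K hK => h2 K (List.mem_append_right _ hK)⟩
              · right
                exact ⟨hE, h1, hAe, hBe⟩
          have hc1 := (card_le_card hsub).trans (card_union_le _ _)
          have hc2 := card_union_le (E.filter (fun e => e ∈ (S \ A).sym2 ∧ ∀ K ∈ LB, e ∉ K.sym2))
            (E.filter (fun e => e ∈ S.sym2 ∧ e ∉ A.sym2 ∧ e ∉ (S \ A).sym2))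
          have hc3 := clusters_cross E S A hA
          have hc : (E.filter (fun e => e ∈ S.sym2 ∧ ∀ K ∈ LA ++ LB, e ∉ K.sym2)).card ≤
              (E.filter (fun e => e ∈ A.sym2 ∧ ∀ K ∈ LA, e ∉ K.sym2)).card +
              ((E.filter (fun e => e ∈ (S \ A).sym2 ∧ ∀ K ∈ LB, e ∉ K.sym2)).card +
              eb E A (S \ A)) := by omega
          have hm := Nat.mul_le_mul_left (2 * M) hc
          rw [← hsum]
          calc 2 * M * (E.filter (fun e => e ∈ S.sym2 ∧ ∀ K ∈ LA ++ LB, e ∉ K.sym2)).card
              ≤ 2 * M * (E.filter (fun e => e ∈ A.sym2 ∧ ∀ K ∈ LA, e ∉ K.sym2)).card +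
                (2 * M * (E.filter (fun e => e ∈ (S \ A).sym2 ∧ ∀ K ∈ LB, e ∉ K.sym2)).card +
                2 * (M * eb E A (S \ A))) := by
                refine hm.trans (le_of_eq ?_)
                ring
            _ ≤ A.card ^ 2 + ((S \ A).card ^ 2 + 2 * (A.card * (S \ A).card)) := by
                have := Nat.mul_le_mul_left 2 hlt.le
                omega
            _ = (A.card + (S \ A).card) ^ 2 := by ring

/-- (F) CUT DECOMPOSITION.  PROOF.  Strong induction on `|S|`, proving the statement for all `S`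
(with `E` loopless; only edges inside `S` matter: count `(E ∩ S.sym2)`).  Prove by induction the version: there is
a list `L` of nonempty, pairwise disjoint subsets covering `S`, each with `CD M E K`, with
`2 * M * #{e ∈ E ∩ S.sym2 : ∀ K ∈ L, e ∉ K.sym2} ≤ |S|^2`.
`S = ∅`: `L = []`.  If `CD M E S` (and `S ≠ ∅`) take `L = [S]`.  Otherwise there is `A ⊆ S` with
`|A| |S \ A| > M * eb E A (S \ A)`; in particular `A` and `B = S \ A` are nonempty.  Apply induction to `A` and `B`
and append the lists.  An edge of `E ∩ S.sym2` not inside a cluster is inside `A` (and crossing there), inside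
`B`, or joins `A` to `B`; the last kind number at most `eb E A B` (map `e = s(a,b)` to `(a,b)`), and
`2 M eb E A B ≤ 2 |A| |B|`; total `≤ |A|^2 + |B|^2 + 2|A||B| = |S|^2`. -/
theorem clusters (E : Finset (Sym2 V)) (S : Finset V) (hS : Supp E S) (M : ℕ) (hM : 1 ≤ M) :
    ∃ L : List (Finset V), (∀ K ∈ L, K.Nonempty ∧ K ⊆ S ∧ CD M E K) ∧
      L.Pairwise Disjoint ∧ (∀ v ∈ S, ∃ K ∈ L, v ∈ K) ∧
      2 * M * (E.filter (fun e => ∀ K ∈ L, e ∉ K.sym2)).card ≤ S.card ^ 2 := by
  obtain ⟨L, h1, h2, h3, h4⟩ := clusters_aux E M S.card S le_rfl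
  refine ⟨L, h1, h2, h3, ?_⟩
  have : E.filter (fun e => ∀ K ∈ L, e ∉ K.sym2) =
      E.filter (fun e => e ∈ S.sym2 ∧ ∀ K ∈ L, e ∉ K.sym2) := by
    ext e
    simp only [mem_filter]
    constructor
    · rintro ⟨he, h⟩
      exact ⟨he, hS.1 he, h⟩
    · rintro ⟨he, -, h⟩
      exact ⟨he, h⟩
  rw [this]
  exact h4

end Crest.Agent.EG
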