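import Crest.Agent.EG.CycData
import Crest.Agent.EG.LongCyc

set_option autoImplicit false

namespace Crest.Agent.EG
open Finset

variable {V : Type} [DecidableEq V]

/-- the minimal closable arc: pure combinatorics -/
private theorem phase1_clos (S : ℕ → Finset V) (p q : ℕ → V) (m l' : ℕ)
    (hp : ∀ i, p i ∈ S i) (hq : ∀ i, q i ∈ S i) (hS : ∀ i, S (i + m) = S i)
    (hpp : ∀ i j, (p i = p j ∨ p i = q j ∨ q i = q j ∨ q i = p j) → i % m = j % m)
    (hl : 3 ≤ l') (hlm : l' ≤ m) :
    ∃ n r z, l' ≤ n ∧ n ≤ m ∧ z ∈ S r ∧ z ∈ S (r + n) ∧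
      (∀ i, 0 < i → i < n → z ≠ p (r + i) ∧ z ≠ q (r + i)) ∧ (n < m ∨ (n = m ∧ z = p r)) ∧
      ∀ i j, i < j → j ≤ n → (i ≠ 0 ∨ j ≠ n) → ¬ Disjoint (S (r + i)) (S (r + j)) →
        j - i < 2 * l' := by
  classical
  have hmod : ∀ a b : ℕ, a < b → b - a < m → ¬ a % m = b % m := by
    intro a b hab hlt h
    have h1 : m ∣ b - a := (Nat.modEq_iff_dvd' hab.le).1 h
    have h2 := Nat.le_of_dvd (by omega) h1
    omega
  set Clos : ℕ → ℕ → Prop := fun r len => ∃ z, z ∈ S r ∧ z ∈ S (r + len) ∧
    ∀ i, r < i → i < r + len → z ≠ p i ∧ z ≠ q i with hClos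
  have hcm : ∀ r, ∃ z, z = p r ∧ z ∈ S r ∧ z ∈ S (r + m) ∧
      ∀ i, r < i → i < r + m → z ≠ p i ∧ z ≠ q i := by
    intro r
    refine ⟨p r, rfl, hp r, ?_, ?_⟩
    · rw [hS]; exact hp r
    · intro i h1 h2
      constructor
      · intro h
        exact hmod r i h1 (by omega) (hpp _ _ (Or.inl h))
      · intro h
        exact hmod r i h1 (by omega) (hpp _ _ (Or.inr (Or.inl h)))
  have hex : ∃ n, l' ≤ n ∧ n ≤ m ∧ ∃ r, Clos r n := by
    obtain ⟨z, _, hz⟩ := hcm 0
    exact ⟨m, hlm, le_refl _, 0, z, hz⟩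
  obtain ⟨h1, h2, r, hr⟩ := Nat.find_spec hex
  set n := Nat.find hex with hn
  have hmin : ∀ n' < n, ¬ (l' ≤ n' ∧ n' ≤ m ∧ ∃ r, Clos r n') := fun n' h => Nat.find_min hex h
  have hfin : ∀ i j, i < j → j ≤ n → (i ≠ 0 ∨ j ≠ n) → ¬ Disjoint (S (r + i)) (S (r + j)) →
        j - i < 2 * l' := by
    intro i j hij hjn hne hd
    by_contra hcon
    rw [Finset.not_disjoint_iff] at hd
    obtain ⟨w, hw1, hw2⟩ := hd
    have hnc : ¬ Clos (r + i) (j - i) := by
      intro hc
      exact hmin (j - i) (by omega) ⟨by omega, by omega, _, hc⟩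
    have hst : r + i + (j - i) = r + j := by omega
    have : ∃ t, r + i < t ∧ t < r + j ∧ (w = p t ∨ w = q t) := by
      by_contra hno
      apply hnc
      refine ⟨w, hw1, by rw [hst]; exact hw2, ?_⟩
      intro t ht1 ht2
      rw [hst] at ht2
      by_contra hh
      apply hno
      refine ⟨t, ht1, ht2, ?_⟩
      by_contra h3
      push Not at h3
      exact hh h3
    obtain ⟨t, ht1, ht2, hwt⟩ := this
    have hwS : w ∈ S t := by
      rcases hwt with rfl | rfl
      · exact hp t
      · exact hq t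
    have hother : ∀ u, r + i < u → u < r + j → u ≠ t → w ≠ p u ∧ w ≠ q u := by
      intro u hu1 hu2 hut
      have key : ¬ (u % m = t % m) := by
        rcases Nat.lt_or_gt_of_ne hut with h | h
        · exact hmod u t h (by omega)
        · intro h'
          exact hmod t u h (by omega) h'.symm
      constructor
      · intro h
        rcases hwt with h' | h'
        · exact key (hpp u t (Or.inl (h.symm.trans h')))
        · exact key (hpp u t (Or.inr (Or.inl (h.symm.trans h'))))
      · intro h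
        rcases hwt with h' | h'
        · exact key (hpp u t (Or.inr (Or.inr (Or.inr (h.symm.trans h')))))
        · exact key (hpp u t (Or.inr (Or.inr (Or.inl (h.symm.trans h')))))
    have hc1 : Clos (r + i) (t - (r + i)) := by
      refine ⟨w, hw1, ?_, ?_⟩
      · rw [show r + i + (t - (r + i)) = t by omega]; exact hwS
      · intro u hu1 hu2
        exact hother u hu1 (by omega) (by omega)
    have hc2 : Clos t (r + j - t) := by
      refine ⟨w, hwS, ?_, ?_⟩
      · rw [show t + (r + j - t) = r + j by omega]; exact hw2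
      · intro u hu1 hu2
        exact hother u (by omega) (by omega) (by omega)
    by_cases hlen : l' ≤ t - (r + i)
    · exact hmin (t - (r + i)) (by omega) ⟨hlen, by omega, _, hc1⟩
    · exact hmin (r + j - t) (by omega) ⟨by omega, by omega, _, hc2⟩
  rcases Nat.lt_or_ge n m with hnm | hnm
  · obtain ⟨z, hz1, hz2, hz3⟩ := hr
    refine ⟨n, r, z, h1, h2, hz1, hz2, ?_, Or.inl hnm, hfin⟩
    intro i hi1 hi2
    exact hz3 (r + i) (by omega) (by omega)
  · have hnm' : n = m := le_antisymm h2 hnm
    obtain ⟨z, hz0, hz1, hz2, hz3⟩ := hcm r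
    refine ⟨n, r, z, h1, h2, hz1, by rw [hnm']; exact hz2, ?_, Or.inr ⟨hnm', hz0⟩, hfin⟩
    intro i hi1 hi2
    exact hz3 (r + i) (by omega) (by omega)

/-- counting -/
private theorem phase1_count (P : ℕ → Prop) [DecidablePred P] (n i l' : ℕ)
    (h : ∀ j, j ≤ n → P j → j = 0 ∨ j = n ∨ (i < j + 2 * l' ∧ j < i + 2 * l')) :
    ((range (n + 1)).filter P).card ≤ 4 * l' + 3 := by
  have hsub : (range (n + 1)).filter P ⊆ insert 0 (insert n (Finset.Ico (i + 1 - 2 * l') (i + 2 * l'))) := by
    intro j hj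
    rw [Finset.mem_filter, Finset.mem_range] at hj
    rcases h j (by omega) hj.2 with h1 | h1 | h1
    · simp [h1]
    · simp [h1]
    · simp only [Finset.mem_insert, Finset.mem_Ico]
      right; right; omega
  refine (Finset.card_le_card hsub).trans ?_
  refine (Finset.card_insert_le _ _).trans ?_
  have := Finset.card_insert_le n (Finset.Ico (i + 1 - 2 * l') (i + 2 * l'))
  rw [Nat.card_Ico] at this
  omega

/-- (H5) ONE STEP OF PHASE 1: if the contracted graph has a cycle with `m ≥ l'` edges (`l' ≥ 3`), we can remove a real cycle with at least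
`l'` `F`-edges, plus at most two single `F`-edges.
PROOF.  Data `p q` of period `m = |C|` from `cycData`; `hb i` = a hub with `p i, q i ∈ L (hb i)` if `p i ≠ q i` (`cs.pi_inj`, choice; it can be
chosen arbitrarily for every `i`, no periodicity needed: it is unique by `ldisj`; for definiteness `hb i = g (p i) (q i)` with
`g` a choice function of two vertices, then `hb` is periodic).  `S i = Sst M U (p i) (q i) (hb i)`.
`Clos r len := ∃ z ∈ S r ∩ S (r+len), ∀ i, r < i < r + len → z ≠ p i ∧ z ≠ q i`.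
`Pr len := l' ≤ len ∧ len ≤ m ∧ ∃ r, Clos r len`; `Pr m` holds with `r = 0`, `z = p 0` (`p i ≠ p 0` for `0<i<m` since classes differ).
Let `n` be minimal with `Pr n` (`Nat.find`), `r`, `z` its witnesses; if `n = m` take `z = p r` instead.
CLAIM: `0 ≤ i < j ≤ n`, `(i,j) ≠ (0,n)`, `S (r+i) ∩ S (r+j) ≠ ∅` ⇒ `j - i < 2 l'`.  Let `w ∈ S (r+i) ∩ S (r+j)`, `j - i ≥ 2 l'`.  By minimality
`Clos (r+i) (j-i)` is false, so `w = p t` or `w = q t` with `r+i < t < r+j`; `w ∈ S t`.  `w` is no `p u, q u` for the other `u` strictly between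
(the classes `π (p u)` are different for indices of difference `< m`), so `Clos (r+i) (t-(r+i))` and `Clos t (r+j-t)` hold; one of the two lengths
is `≥ l'`, and `< n`: contradiction.
So for `i ≤ n`: `#{j ≤ n : S (r+i) ∩ S (r+j) ≠ ∅} ≤ 4 l' + 1 =: N0` (`|j - i| < 2l'` or `j ∈ {0,n}`; `4 l' + 3` is also fine).
`arcLem` for the shifted sequences, `K = {e_i : r ≤ i < r+n} ∪ {e_{r+m-1}, e_{r+n}}` with `e_i = s(q i, p (i+1))`
(`p (r + m) = p r`; if `n = m` the two extra edges are in the arc).  `e_i`, `r ≤ i < r+m`, are different since their images are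
different, so `|K| ≥ n ≥ l'`; `Dec (K ∪ X) 3`: the cycle and at most two single edges. -/
theorem phase1step {M k T : ℕ} {S : Finset V} {F0 : Finset (Sym2 V)} {H : List (Hub V)}
    {L : Hub V → Finset V} {π : V → V} (cs : CS M k T S F0 H L π) {Fc U : Finset (Sym2 V)}
    (inv : Inv M F0 H L Fc U) (l' : ℕ) (hl : 3 ≤ l') (hlk : 400 * M ^ 2 * (3 * (4 * l' + 3) + 1) ≤ k)
    (C : Finset (Sym2 V)) (hC : C ⊆ ctr π Fc) (hcyc : IsCyc C) (hCl : l' ≤ C.card) :
    ∃ K X : Finset (Sym2 V), K ⊆ Fc ∧ X ⊆ hubE H \ U ∧ l' ≤ K.card ∧ Dec (K ∪ X) 3 ∧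
      Inv M F0 H L (Fc \ K) (U ∪ X) := by
  classical
  obtain ⟨p, q, h3m, hper, hFc, hpq, hcl, -, himg⟩ := cycData π Fc C hC hcyc
  set m := C.card with hm
  have hg : ∀ v v' : V, ∃ h : Hub V, v ≠ v' → π v = π v' → h ∈ H ∧ v ∈ L h ∧ v' ∈ L h := by
    intro v v'
    by_cases hv : v ≠ v' ∧ π v = π v'
    · rcases cs.pi_inj v v' hv.2 with h | ⟨h, h1, h2, h3⟩
      · exact absurd h hv.1
      · exact ⟨h, fun _ _ => ⟨h1, h2, h3⟩⟩
    · exact ⟨(∅, ∅), fun h1 h2 => absurd ⟨h1, h2⟩ hv⟩
  choose g hg using hg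
  have hSp : ∀ i, p i ∈ Sst M U (p i) (q i) (g (p i) (q i)) := by
    intro i
    unfold Sst
    split_ifs with h
    · simp
    · simp
  have hSq : ∀ i, q i ∈ Sst M U (p i) (q i) (g (p i) (q i)) := by
    intro i
    unfold Sst
    split_ifs with h
    · simp [h]
    · simp
  have hpp : ∀ i j, (p i = p j ∨ p i = q j ∨ q i = q j ∨ q i = p j) → i % m = j % m := by
    intro i j h
    rw [← hcl]
    rcases h with h | h | h | h
    · rw [h]
    · rw [hpq j, h]
    · rw [hpq i, hpq j, h]
    · rw [hpq i, h]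
  obtain ⟨n, r, z, hln, hnm, hz1, hz2, hz3, hz4, hclaim⟩ :=
    phase1_clos (fun i => Sst M U (p i) (q i) (g (p i) (q i))) p q m l' hSp hSq
      (fun i => by simp only [(hper i).1, (hper i).2]) hpp hl hCl
  have hmod : ∀ a b : ℕ, a < b → b - a < m → ¬ a % m = b % m := by
    intro a b hab hlt h
    have h1 : m ∣ b - a := (Nat.modEq_iff_dvd' hab.le).1 h
    have h2 := Nat.le_of_dvd (by omega) h1
    omega
  set e : ℕ → Sym2 V := fun i => s(q i, p (i + 1)) with he
  -- the edges
  set A : Finset (Sym2 V) := (range n).image (fun i => s(q (r + i), p (r + (i + 1)))) with hA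
  set K : Finset (Sym2 V) := A ∪ {e (r + m - 1), e (r + n)} with hK
  have hAFc : A ⊆ Fc := by
    intro x hx
    rw [hA, Finset.mem_image] at hx
    obtain ⟨i, -, rfl⟩ := hx
    exact hFc (r + i)
  have hKFc : K ⊆ Fc := by
    rw [hK]
    refine Finset.union_subset hAFc ?_
    intro x hx
    rw [Finset.mem_insert, Finset.mem_singleton] at hx
    rcases hx with rfl | rfl
    · exact hFc _
    · exact hFc _
  -- injectivity
  have hinj0 : Set.InjOn (fun i => Sym2.map π s(q i, p (i + 1))) (range m : Finset ℕ) := by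
    rw [← Finset.card_image_iff, himg, Finset.card_range]
  have hperm : ∀ i, (Sym2.map π s(q i, p (i + 1))) = Sym2.map π s(q (i % m), p (i % m + 1)) := by
    intro i
    rw [Sym2.map_mk, Sym2.map_mk]
    have h1 : π (q i) = π (q (i % m)) := by
      rw [← hpq, ← hpq, hcl, Nat.mod_mod]
    have h2 : π (p (i + 1)) = π (p (i % m + 1)) := by
      rw [hcl]
      exact ((Nat.mod_modEq i m).symm.add_right 1)
    simp only [h1, h2]
  have hAcard : A.card = n := by
    rw [hA, Finset.card_image_of_injOn, Finset.card_range]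
    intro i hi j hj hij
    simp only [Finset.coe_range, Set.mem_Iio] at hi hj
    have h1 : Sym2.map π s(q (r + i), p (r + i + 1)) = Sym2.map π s(q (r + j), p (r + j + 1)) := by
      have : s(q (r + i), p (r + i + 1)) = s(q (r + j), p (r + j + 1)) := hij
      rw [this]
    rw [hperm, hperm (r + j)] at h1
    have h2 := hinj0 (by simpa using Nat.mod_lt (r + i) (by omega : 0 < m))
      (by simpa using Nat.mod_lt (r + j) (by omega : 0 < m)) h1
    rcases Nat.lt_trichotomy i j with h | h | h
    · exact absurd h2 (hmod (r + i) (r + j) (by omega) (by omega))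
    · exact h
    · exact absurd h2.symm (hmod (r + j) (r + i) (by omega) (by omega))
  have hdg : ∀ (x : Sym2 V) (v : V), x ∈ K → v ∈ x → 1 ≤ dg K v := by
    intro x v hx hv
    unfold dg
    exact Finset.card_pos.2 ⟨x, Finset.mem_filter.2 ⟨hx, hv⟩⟩
  have hn3 : 3 ≤ n := hl.trans hln
  -- the arc lemma
  obtain ⟨X, hX, hXc, hXi⟩ := arcLem cs inv (4 * l' + 3) hlk n hn3 (fun i => p (r + i)) (fun i => q (r + i))
    (fun i => g (p (r + i)) (q (r + i))) z
    (fun i _ => hFc (r + i))
    (fun i _ hne => hg _ _ hne (hpq _))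
    (fun i _ => hpq _)
    (by
      intro i j hij hjn hne
      rw [Ne, hcl]
      rcases Nat.lt_or_ge (j - i) m with h | h
      · exact hmod _ _ (by omega) (by omega)
      · omega)
    ⟨hz1, hz2⟩
    hz3
    (by
      rcases hz4 with h | ⟨h, h'⟩
      · left
        rw [Ne, hcl]
        exact hmod _ _ (by omega) (by omega)
      · right
        simp only [add_zero]
        rw [h]
        exact ⟨(hper r).1, (hper r).2, h'⟩)
    K hKFc
    (by
      intro i hi
      rw [hK]
      refine Finset.mem_union_left _ ?_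
      rw [hA, Finset.mem_image]
      exact ⟨i, Finset.mem_range.2 hi, rfl⟩)
    (by
      refine hdg (e (r + m - 1)) _ ?_ ?_
      · rw [hK]; simp
      · rw [he]
        simp only [add_zero]
        rw [show r + m - 1 + 1 = r + m by omega, (hper r).1]
        simp)
    (by
      refine hdg (e (r + n)) _ ?_ ?_
      · rw [hK]; simp
      · rw [he]; simp)
    (by
      intro i hi _
      refine phase1_count _ n i l' ?_
      intro j hj hd
      by_cases hj0 : j = 0
      · exact Or.inl hj0
      by_cases hjn : j = n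
      · exact Or.inr (Or.inl hjn)
      right; right
      rcases Nat.lt_trichotomy i j with h | h | h
      · have := hclaim i j h hj (Or.inr hjn) hd
        omega
      · omega
      · have := hclaim j i h hi (Or.inl hj0) (fun hh => hd hh.symm)
        omega)
  have hXsub : X ⊆ hubE H := hX.trans Finset.sdiff_subset
  have hKX : Disjoint K X :=
    Finset.disjoint_of_subset_left (hKFc.trans inv.sub)
      (Finset.disjoint_of_subset_right hXsub cs.disj)
  refine ⟨K, X, hKFc, hX, ?_, ?_, hXi⟩
  · have : A.card ≤ K.card := Finset.card_le_card (by rw [hK]; exact Finset.subset_union_left)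
    omega
  · have h1 : Dec (X ∪ A) 1 := Dec.one (Or.inr hXc)
    have h2 : Dec (({e (r + m - 1), e (r + n)} : Finset (Sym2 V)) \ A) 2 := by
      refine Dec.mono (Dec.single _ ?_) ?_
      · intro x hx
        have hx' : x ∈ K := by
          rw [hK]
          exact Finset.mem_union_right _ (Finset.mem_sdiff.1 hx).1
        exact cs.supp.2 x (inv.sub (hKFc hx'))
      · refine (Finset.card_le_card Finset.sdiff_subset).trans ?_
        exact Finset.card_le_two
    have h3 := Dec.union h1 h2 (by
      rw [Finset.disjoint_union_left]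
      constructor
      · refine Disjoint.symm (Finset.disjoint_of_subset_left ?_ hKX)
        intro x hx
        rw [hK]
        exact Finset.mem_union_right _ (Finset.mem_sdiff.1 hx).1
      · exact Finset.disjoint_sdiff)
    have h4 : K ∪ X = X ∪ A ∪ (({e (r + m - 1), e (r + n)} : Finset (Sym2 V)) \ A) := by
      rw [hK]
      ext x
      simp only [Finset.mem_union, Finset.mem_sdiff]
      tauto
    rw [h4]
    exact h3

/-- (H6) PHASE 1.  PROOF.  Strong induction on `|Fc|`: while `ctr π Fc` contains a cycle with `≥ 3 l` edges apply `phase1step` with `l' = 3 l`.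
Each step removes `≥ 3 l` `F`-edges and creates `3` parts.  `X`'s of different steps are disjoint (`X ⊆ hubE H \ U`). -/
theorem phase1 {M k T : ℕ} {S : Finset V} {F0 : Finset (Sym2 V)} {H : List (Hub V)}
    {L : Hub V → Finset V} {π : V → V} (cs : CS M k T S F0 H L π) {Fc U : Finset (Sym2 V)}
    (inv : Inv M F0 H L Fc U) (l : ℕ) (hl : 3 ≤ l) (hlk : 10 ^ 6 * M ^ 2 * l ≤ k) :
    ∃ (K X : Finset (Sym2 V)) (c : ℕ), K ⊆ Fc ∧ X ⊆ hubE H \ U ∧ c * l ≤ K.card ∧ Dec (K ∪ X) c ∧
      Inv M F0 H L (Fc \ K) (U ∪ X) ∧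
      ∀ C : Finset (Sym2 V), C ⊆ ctr π (Fc \ K) → IsCyc C → C.card < 3 * l := by
  induction hn : Fc.card using Nat.strong_induction_on generalizing Fc U with
  | _ n ih =>
    by_cases hC : ∃ C : Finset (Sym2 V), C ⊆ ctr π Fc ∧ IsCyc C ∧ 3 * l ≤ C.card
    · obtain ⟨C, hC1, hC2, hC3⟩ := hC
      obtain ⟨K1, X1, hK1, hX1, hc1, hD1, hI1⟩ := phase1step cs inv (3 * l) (by omega)
        (by
          refine le_trans ?_ hlk
          have : 400 * (3 * (4 * (3 * l) + 3) + 1) ≤ 10 ^ 6 * l := by omega
          calc 400 * M ^ 2 * (3 * (4 * (3 * l) + 3) + 1)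
              = M ^ 2 * (400 * (3 * (4 * (3 * l) + 3) + 1)) := by ring
            _ ≤ M ^ 2 * (10 ^ 6 * l) := Nat.mul_le_mul_left _ this
            _ = 10 ^ 6 * M ^ 2 * l := by ring) C hC1 hC2 hC3
      have hcard : (Fc \ K1).card = Fc.card - K1.card := Finset.card_sdiff_of_subset hK1
      have hlt : (Fc \ K1).card < n := by
        have := Finset.card_le_card hK1
        omega
      obtain ⟨K2, X2, c, hK2, hX2, hc2, hD2, hI2, hfin⟩ := ih _ hlt hI1 rfl
      have hXsub1 : X1 ⊆ hubE H := hX1.trans Finset.sdiff_subset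
      have hXsub2 : X2 ⊆ hubE H := hX2.trans Finset.sdiff_subset
      have hK2' : K2 ⊆ Fc := hK2.trans Finset.sdiff_subset
      have d1 : Disjoint K1 K2 := by
        refine Disjoint.symm (Finset.disjoint_of_subset_left hK2 Finset.sdiff_disjoint)
      have d2 : Disjoint X1 X2 := by
        rw [Finset.disjoint_left]
        intro x hx1 hx2
        have := (Finset.mem_sdiff.1 (hX2 hx2)).2
        exact this (Finset.mem_union_right _ hx1)
      have d3 : ∀ {K X : Finset (Sym2 V)}, K ⊆ Fc → X ⊆ hubE H → Disjoint K X := by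
        intro K X hK hX
        exact Finset.disjoint_of_subset_left (hK.trans inv.sub)
          (Finset.disjoint_of_subset_right hX cs.disj)
      have e2 : Fc \ (K1 ∪ K2) = (Fc \ K1) \ K2 := by
        ext x
        simp only [Finset.mem_union, Finset.mem_sdiff]
        tauto
      refine ⟨K1 ∪ K2, X1 ∪ X2, 3 + c, Finset.union_subset hK1 hK2', ?_, ?_, ?_, ?_, ?_⟩
      · refine Finset.union_subset hX1 (hX2.trans ?_)
        exact Finset.sdiff_subset_sdiff (le_refl _) Finset.subset_union_left
      · rw [Finset.card_union_of_disjoint d1]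
        nlinarith
      · have h := Dec.union hD1 hD2 (by
          rw [Finset.disjoint_union_left, Finset.disjoint_union_right, Finset.disjoint_union_right]
          exact ⟨⟨d1, d3 hK1 hXsub2⟩, (d3 hK2' hXsub1).symm, d2⟩)
        have e1 : K1 ∪ K2 ∪ (X1 ∪ X2) = K1 ∪ X1 ∪ (K2 ∪ X2) := by
          ext x
          simp only [Finset.mem_union]
          tauto
        rw [e1]
        exact h
      · rw [e2, ← Finset.union_assoc]
        exact hI2
      · rw [e2]
        exact hfin
    · refine ⟨∅, ∅, 0, Finset.empty_subset _, Finset.empty_subset _, by simp, ?_, ?_, ?_⟩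
      · simpa using Dec.empty
      · simpa using inv
      · intro C hC1 hC2
        rw [Finset.sdiff_empty] at hC1
        by_contra hcon
        exact hC ⟨C, hC1, hC2, by omega⟩

end Crest.Agent.EG
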