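import Crest.Agent.EG.Segs

set_option autoImplicit false

namespace Crest.Agent.EG
open Finset

variable {V : Type} [DecidableEq V]

/-- the segment of a pair of edges -/
private def p2bSeg (h' : Hub V) (q : (V × V) × (V × V)) : V × Rt V :=
  (q.1.1, [(none, q.1.2), (some h', q.2.2), (none, q.2.1)])

private theorem p2b_mem_segE (h' : Hub V) (q : (V × V) × (V × V)) (e : Sym2 V) :
    e ∈ segE (p2bSeg h' q) ↔ e = s(q.1.1, q.1.2) ∨ e = s(q.2.1, q.2.2) := by
  have : s(q.2.1, q.2.2) = s(q.2.2, q.2.1) := Sym2.eq_swap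
  rw [this]
  simp [segE, p2bSeg, FE, steps]

private theorem p2b_mem_segV (h' : Hub V) (q : (V × V) × (V × V)) (z : V) :
    z ∈ segV (p2bSeg h' q) ↔ z = q.1.1 ∨ z = q.1.2 ∨ z = q.2.2 ∨ z = q.2.1 := by
  simp [segV, rtV, p2bSeg]

/-- the edges between two classes -/
private def p2bP (L : Hub V → Finset V) (Fc : Finset (Sym2 V)) (h h' : Hub V) :
    Finset (V × V) :=
  ((L h) ×ˢ (L h')).filter (fun p => s(p.1, p.2) ∈ Fc)

private theorem p2b_mem_P {L : Hub V → Finset V} {Fc : Finset (Sym2 V)} {h h' : Hub V}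
    {p : V × V} : p ∈ p2bP L Fc h h' ↔ (p.1 ∈ L h ∧ p.2 ∈ L h') ∧ s(p.1, p.2) ∈ Fc := by
  simp [p2bP]

/-- (H11) PHASE 2B for the hub `h`, when 2A is done for all hubs.
PROOF.  By `hA2` (for `h` and for `h'`) the edges between `L h` and `L h'` (`h' ≠ h`) form a matching; `pairUp` the set of pairs
`{(v,u) ∈ L h × L h' : s(v,u) ∈ Fc}`; a pair `((v,u),(v',u'))` gives the segment `(v, [(none,u), (some h', u'), (none, v')])`, `v ≠ v'`, `u ≠ u'`.
`I` = all these segments for all `h' ≠ h` in `H` (`H.toFinset.erase h`).  Edge sets are disjoint.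
Conflicts: `≤ dg Fc v ≤ T` segments through `v ∈ L h`; a vertex `u ∈ L h'` has only one edge to `L h`, so it is in one segment.  `Δ = 2T`.
`|I| ≤ |L h| T`, `t0 = 4 (T+1)`: `c ≤ 2T + 1 + |L h|/4 ≤ |h.1|`.  Left: at most one edge for each `h'`. -/
theorem phase2B {M k T : ℕ} {S : Finset V} {F0 : Finset (Sym2 V)} {H : List (Hub V)}
    {L : Hub V → Finset V} {π : V → V} (cs : CS M k T S F0 H L π) {Fc U : Finset (Sym2 V)}
    (inv : Inv M F0 H L Fc U) (h : Hub V) (hh : h ∈ H)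
    (hA1 : ∀ h' ∈ H, ∀ v ∈ L h', ∀ v' ∈ L h', s(v, v') ∉ Fc)
    (hA2 : ∀ h' ∈ H, ∀ w ∉ L h', ((L h').filter (fun v => s(v, w) ∈ Fc)).card ≤ 1) :
    ∃ (K X : Finset (Sym2 V)) (c : ℕ), K ⊆ Fc ∧ X ⊆ hubE H \ U ∧ c ≤ h.1.card ∧ Dec (K ∪ X) c ∧
      Inv M F0 H L (Fc \ K) (U ∪ X) ∧ ∀ h' ∈ H, h' ≠ h → eb (Fc \ K) (L h) (L h') ≤ 1 := by
  classical
  -- the pairing
  choose Q hQ1 hQ2 hQ3 using fun h' : Hub V => pairUp (p2bP L Fc h h')
  have hdis : ∀ h' ∈ H, h' ≠ h → ∀ z, z ∈ L h → z ∈ L h' → False := by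
    intro h' hh' hne z hz hz'
    exact (Finset.disjoint_left.1 (cs.ldisj h hh h' hh' (Ne.symm hne)) hz) hz'
  -- different elements of the list have disjoint pairs
  have hQne : ∀ h', ∀ q ∈ Q h', q.1 ≠ q.2 := by
    intro h' q hq
    have h1 := (List.nodup_flatMap.1 (hQ1 h')).1 q hq
    simpa using h1
  have hQdis : ∀ h', ∀ q ∈ Q h', ∀ q' ∈ Q h', ∀ p : V × V, (p = q.1 ∨ p = q.2) →
      (p = q'.1 ∨ p = q'.2) → q = q' := by
    intro h' q hq q' hq' p hp hp'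
    by_contra hne
    have h2 := (List.nodup_flatMap.1 (hQ1 h')).2
    have h3 : (Function.onFun List.Disjoint (fun p : (V × V) × (V × V) => [p.1, p.2])) q q' := by
      have hsymm : Std.Symm (Function.onFun List.Disjoint
          (fun p : (V × V) × (V × V) => [p.1, p.2])) := ⟨fun a b hab => List.Disjoint.symm hab⟩
      exact List.Pairwise.forall h2 hq hq' hne
    have h4 : p ∈ [q.1, q.2] := by simpa using hp
    have h5 : p ∈ [q'.1, q'.2] := by simpa using hp'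
    exact h3 h4 h5
  have hQm : ∀ h', ∀ q ∈ Q h', ∀ p : V × V, (p = q.1 ∨ p = q.2) → p ∈ p2bP L Fc h h' := by
    intro h' q hq p hp
    rcases hp with rfl | rfl
    · exact (hQ2 h' q hq).1
    · exact (hQ2 h' q hq).2
  -- uniqueness
  have hU : ∀ h' ∈ H, h' ≠ h → ∀ h'' ∈ H, h'' ≠ h → ∀ p ∈ p2bP L Fc h h', ∀ p' ∈ p2bP L Fc h h'',
      s(p.1, p.2) = s(p'.1, p'.2) → h' = h'' ∧ p = p' := by
    intro h' hh' hne h'' hh'' hne' p hp p' hp' he
    rw [p2b_mem_P] at hp hp'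
    rcases Sym2.eq_iff.1 he with ⟨e1, e2⟩ | ⟨e1, e2⟩
    · refine ⟨?_, Prod.ext e1 e2⟩
      by_contra hc
      refine (Finset.disjoint_left.1 (cs.ldisj h' hh' h'' hh'' hc) hp.1.2) ?_
      rw [e2]
      exact hp'.1.2
    · exfalso
      refine hdis h' hh' hne p.2 ?_ hp.1.2
      rw [e2]
      exact hp'.1.1
  -- the segments
  set I : Finset (V × Rt V) :=
    (H.toFinset.erase h).biUnion (fun h' => ((Q h').map (p2bSeg h')).toFinset) with hI
  have hmI : ∀ s, s ∈ I ↔ ∃ h' ∈ H, h' ≠ h ∧ ∃ q ∈ Q h', s = p2bSeg h' q := by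
    intro s
    simp only [hI, Finset.mem_biUnion, Finset.mem_erase, List.mem_toFinset, List.mem_map]
    constructor
    · rintro ⟨h', ⟨hne, hh'⟩, q, hq, rfl⟩
      exact ⟨h', hh', hne, q, hq, rfl⟩
    · rintro ⟨h', hh', hne, q, hq, rfl⟩
      exact ⟨h', ⟨hne, hh'⟩, q, hq, rfl⟩
  have hseg : ∀ s ∈ I, IsSeg Fc H L h s := by
    intro s hs
    obtain ⟨h', hh', hne, q, hq, rfl⟩ := (hmI s).1 hs
    have m1 := p2b_mem_P.1 (hQ2 h' q hq).1
    have m2 := p2b_mem_P.1 (hQ2 h' q hq).2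
    refine Or.inr (Or.inr ⟨h', hh', hne, q.1.2, q.2.2, q.2.1, rfl, m1.1.1, m2.1.1, m1.1.2, m2.1.2,
      ?_, ?_, m1.2, ?_⟩)
    · intro e
      -- same second vertex
      have hw : q.1.2 ∉ L h := fun hz => hdis h' hh' hne _ hz m1.1.2
      have h1 := Finset.card_le_one.1 (hA2 h hh q.1.2 hw) q.1.1
        (Finset.mem_filter.2 ⟨m1.1.1, m1.2⟩) q.2.1
        (Finset.mem_filter.2 ⟨m2.1.1, by rw [e]; exact m2.2⟩)
      exact hQne h' q hq (Prod.ext h1 e)
    · intro e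
      change q.1.1 = q.2.1 at e
      have hw : q.1.1 ∉ L h' := fun hz => hdis h' hh' hne _ m1.1.1 hz
      have h1 := Finset.card_le_one.1 (hA2 h' hh' q.1.1 hw) q.1.2
        (Finset.mem_filter.2 ⟨m1.1.2, by rw [Sym2.eq_swap]; exact m1.2⟩) q.2.2
        (Finset.mem_filter.2 ⟨m2.1.2, by rw [e, Sym2.eq_swap]; exact m2.2⟩)
      exact hQne h' q hq (Prod.ext e h1)
    · rw [Sym2.eq_swap]
      exact m2.2
  have hEq : ∀ s ∈ I, ∀ s' ∈ I, ∀ e, e ∈ segE s → e ∈ segE s' → s = s' := by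
    intro s hs s' hs' e he he'
    obtain ⟨h', hh', hne, q, hq, rfl⟩ := (hmI s).1 hs
    obtain ⟨h'', hh'', hne', q', hq', rfl⟩ := (hmI s').1 hs'
    rw [p2b_mem_segE] at he he'
    obtain ⟨p, hp, hpe⟩ : ∃ p : V × V, (p = q.1 ∨ p = q.2) ∧ e = s(p.1, p.2) := by
      rcases he with he | he
      · exact ⟨q.1, Or.inl rfl, he⟩
      · exact ⟨q.2, Or.inr rfl, he⟩
    obtain ⟨p', hp', hpe'⟩ : ∃ p : V × V, (p = q'.1 ∨ p = q'.2) ∧ e = s(p.1, p.2) := by
      rcases he' with he | he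
      · exact ⟨q'.1, Or.inl rfl, he⟩
      · exact ⟨q'.2, Or.inr rfl, he⟩
    obtain ⟨e1, e2⟩ := hU h' hh' hne h'' hh'' hne' p (hQm h' q hq p hp) p'
      (hQm h'' q' hq' p' hp') (by rw [← hpe, hpe'])
    subst e1
    subst e2
    rw [hQdis h' q hq q' hq' p hp hp']
  have hedge : ∀ s ∈ I, ∀ s' ∈ I, s ≠ s' → Disjoint (segE s) (segE s') := by
    intro s hs s' hs' hne
    rw [Finset.disjoint_left]
    intro e he he'
    exact hne (hEq s hs s' hs' e he he')
  have hsub : ∀ s ∈ I, segE s ⊆ Fc := by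
    intro s hs e he
    obtain ⟨h', hh', hne, q, hq, rfl⟩ := (hmI s).1 hs
    rw [p2b_mem_segE] at he
    rcases he with rfl | rfl
    · exact (p2b_mem_P.1 (hQ2 h' q hq).1).2
    · exact (p2b_mem_P.1 (hQ2 h' q hq).2).2
  have hcov : ∀ s ∈ I, ∀ z ∈ segV s, ∃ e ∈ segE s, z ∈ e := by
    intro s hs z hz
    obtain ⟨h', hh', hne, q, hq, rfl⟩ := (hmI s).1 hs
    rw [p2b_mem_segV] at hz
    rcases hz with rfl | rfl | rfl | rfl
    · exact ⟨_, (p2b_mem_segE h' q _).2 (Or.inl rfl), Sym2.mem_mk_left _ _⟩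
    · exact ⟨_, (p2b_mem_segE h' q _).2 (Or.inl rfl), Sym2.mem_mk_right _ _⟩
    · exact ⟨_, (p2b_mem_segE h' q _).2 (Or.inr rfl), Sym2.mem_mk_right _ _⟩
    · exact ⟨_, (p2b_mem_segE h' q _).2 (Or.inr rfl), Sym2.mem_mk_left _ _⟩
  -- number of segments through a vertex
  have hcount : ∀ z, (I.filter (fun s => z ∈ segV s)).card ≤ dg Fc z := by
    intro z
    have h1 : (I.filter (fun s => z ∈ segV s)).card ≤
        ∑ s ∈ I.filter (fun s => z ∈ segV s), ((segE s).filter (fun e => z ∈ e)).card := by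
      rw [Finset.card_eq_sum_ones]
      refine Finset.sum_le_sum fun s hs => ?_
      rw [Finset.mem_filter] at hs
      obtain ⟨e, he, hz⟩ := hcov s hs.1 z hs.2
      exact Finset.card_pos.2 ⟨e, Finset.mem_filter.2 ⟨he, hz⟩⟩
    refine h1.trans ?_
    rw [← Finset.card_biUnion]
    · unfold dg
      refine Finset.card_le_card ?_
      intro e he
      rw [Finset.mem_biUnion] at he
      obtain ⟨s, hs, he⟩ := he
      rw [Finset.mem_filter] at hs he
      exact Finset.mem_filter.2 ⟨hsub s hs.1 he.1, he.2⟩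
    · intro s hs s' hs' hne
      rw [Finset.mem_coe, Finset.mem_filter] at hs hs'
      exact Finset.disjoint_filter_filter (hedge s hs.1 s' hs'.1 hne)
  have hdgT : ∀ h' ∈ H, ∀ z ∈ L h', dg Fc z ≤ T := by
    intro h' hh' z hz
    refine le_trans ?_ (cs.deg h' hh' z hz)
    unfold dg
    exact Finset.card_le_card (Finset.filter_subset_filter _ inv.sub)
  have hΔ : ∀ s ∈ I, (I.filter (fun s' => s' ≠ s ∧ ¬ Disjoint (segV s) (segV s'))).card ≤ 4 * T := by
    intro s hs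
    obtain ⟨h', hh', hne, q, hq, rfl⟩ := (hmI s).1 hs
    have m1 := p2b_mem_P.1 (hQ2 h' q hq).1
    have m2 := p2b_mem_P.1 (hQ2 h' q hq).2
    have hss : I.filter (fun s' => s' ≠ p2bSeg h' q ∧ ¬ Disjoint (segV (p2bSeg h' q)) (segV s')) ⊆
        ((I.filter (fun s => q.1.1 ∈ segV s)) ∪ (I.filter (fun s => q.1.2 ∈ segV s))) ∪
        ((I.filter (fun s => q.2.2 ∈ segV s)) ∪ (I.filter (fun s => q.2.1 ∈ segV s))) := by
      intro s' hs'
      rw [Finset.mem_filter] at hs'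
      obtain ⟨hs'I, -, hnd⟩ := hs'
      rw [Finset.not_disjoint_iff] at hnd
      obtain ⟨z, hz, hz'⟩ := hnd
      rw [p2b_mem_segV] at hz
      simp only [Finset.mem_union, Finset.mem_filter]
      rcases hz with rfl | rfl | rfl | rfl
      · exact Or.inl (Or.inl ⟨hs'I, hz'⟩)
      · exact Or.inl (Or.inr ⟨hs'I, hz'⟩)
      · exact Or.inr (Or.inl ⟨hs'I, hz'⟩)
      · exact Or.inr (Or.inr ⟨hs'I, hz'⟩)
    have c1 := (hcount q.1.1).trans (hdgT h hh _ m1.1.1)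
    have c2 := (hcount q.1.2).trans (hdgT h' hh' _ m1.1.2)
    have c3 := (hcount q.2.2).trans (hdgT h' hh' _ m2.1.2)
    have c4 := (hcount q.2.1).trans (hdgT h hh _ m2.1.1)
    have d1 := Finset.card_le_card hss
    have d2 := Finset.card_union_le
      ((I.filter (fun s => q.1.1 ∈ segV s)) ∪ (I.filter (fun s => q.1.2 ∈ segV s)))
      ((I.filter (fun s => q.2.2 ∈ segV s)) ∪ (I.filter (fun s => q.2.1 ∈ segV s)))
    have d3 := Finset.card_union_le (I.filter (fun s => q.1.1 ∈ segV s))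
      (I.filter (fun s => q.1.2 ∈ segV s))
    have d4 := Finset.card_union_le (I.filter (fun s => q.2.2 ∈ segV s))
      (I.filter (fun s => q.2.1 ∈ segV s))
    omega
  have hIc : I.card ≤ (L h).card * T := by
    have hmap : ∀ s ∈ I, s.1 ∈ L h := by
      intro s hs
      obtain ⟨h', hh', hne, q, hq, rfl⟩ := (hmI s).1 hs
      exact (p2b_mem_P.1 (hQ2 h' q hq).1).1.1
    rw [Finset.card_eq_sum_card_fiberwise hmap]
    calc ∑ b ∈ L h, (I.filter (fun a => a.1 = b)).card ≤ ∑ b ∈ L h, T := by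
          refine Finset.sum_le_sum fun b hb => ?_
          refine le_trans ?_ ((hcount b).trans (hdgT h hh b hb))
          refine Finset.card_le_card ?_
          intro s hs
          rw [Finset.mem_filter] at hs ⊢
          refine ⟨hs.1, ?_⟩
          rw [← hs.2]
          simp [segV, rtV]
      _ = (L h).card * T := by rw [Finset.sum_const, smul_eq_mul]
  have hhub := cs.hub.1 h hh
  have hk : k ≤ h.1.card := hhub.2.2.1
  have hT := cs.hT
  have hM := cs.hM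
  have hLh : (L h).card ≤ h.1.card := Finset.card_le_card (cs.sub h hh)
  have hM2 : M ^ 2 ≤ M ^ 3 := Nat.pow_le_pow_right hM (by norm_num)
  have hM3 : 1 ≤ M ^ 3 := Nat.one_le_pow _ _ hM
  have ht0 : 400 * M ^ 2 * (4 * (4 * (T + 1)) + 1) ≤ k := by
    refine le_trans ?_ hT
    calc 400 * M ^ 2 * (4 * (4 * (T + 1)) + 1) ≤ 400 * M ^ 3 * (17 * (T + 1)) :=
          Nat.mul_le_mul (Nat.mul_le_mul_left _ hM2) (by omega)
      _ = 6800 * (M ^ 3 * (T + 1)) := by ring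
      _ ≤ 10 ^ 6 * (M ^ 3 * (T + 1)) := Nat.mul_le_mul_right _ (by norm_num)
      _ = 10 ^ 6 * M ^ 3 * (T + 1) := by ring
  obtain ⟨X, c, hX1, hX2, hX3, hX4⟩ := runSegs cs inv (4 * (T + 1)) (4 * T) (by omega) ht0 h hh I
    hseg hedge hΔ
  refine ⟨I.biUnion segE, X, c, ?_, hX1, ?_, hX3, hX4, ?_⟩
  · intro e he
    rw [Finset.mem_biUnion] at he
    obtain ⟨s, hs, he⟩ := he
    exact hsub s hs he
  · have hkT : 10 ^ 6 * (T + 1) ≤ h.1.card := by
      refine le_trans ?_ (hT.trans hk)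
      calc 10 ^ 6 * (T + 1) = 10 ^ 6 * 1 * (T + 1) := by ring
        _ ≤ 10 ^ 6 * M ^ 3 * (T + 1) :=
          Nat.mul_le_mul_right _ (Nat.mul_le_mul_left _ hM3)
    have h1 : 4 * (T + 1) * c ≤ 4 * (T + 1) * (4 * T + 1) + h.1.card * (T + 1) := by
      refine hX2.trans (Nat.add_le_add_left (hIc.trans ?_) _)
      exact Nat.mul_le_mul hLh (Nat.le_succ T)
    have h2 : (T + 1) * (4 * c) ≤ (T + 1) * (4 * (4 * T + 1) + h.1.card) := by
      calc (T + 1) * (4 * c) = 4 * (T + 1) * c := by ring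
        _ ≤ _ := h1
        _ = _ := by ring
    have h3 := Nat.le_of_mul_le_mul_left h2 (Nat.succ_pos T)
    omega
  · intro h' hh' hne
    have hc3 : ((p2bP L Fc h h').filter
        (fun a => a ∉ (Q h').flatMap (fun p => [p.1, p.2]))).card ≤ 1 := by
      convert hQ3 h'
    refine le_trans (Finset.card_le_card ?_) hc3
    intro p hp
    rw [Finset.mem_filter, Finset.mem_product, Finset.mem_sdiff] at hp
    obtain ⟨⟨hp1, hp2⟩, hpF, hpK⟩ := hp
    refine Finset.mem_filter.2 ⟨p2b_mem_P.2 ⟨⟨hp1, hp2⟩, hpF⟩, ?_⟩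
    intro hmem
    rw [List.mem_flatMap] at hmem
    obtain ⟨q, hq, hpq⟩ := hmem
    apply hpK
    rw [Finset.mem_biUnion]
    refine ⟨p2bSeg h' q, (hmI _).2 ⟨h', hh', hne, q, hq, rfl⟩, ?_⟩
    rw [p2b_mem_segE]
    simp only [List.mem_cons, List.not_mem_nil, or_false] at hpq
    rcases hpq with rfl | rfl
    · exact Or.inl rfl
    · exact Or.inr rfl

end Crest.Agent.EG
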