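import Crest.Agent.EG.Phase2A
import Crest.Agent.EG.Phase2B

set_option autoImplicit false

namespace Crest.Agent.EG
open Finset

variable {V : Type} [DecidableEq V]

/-- the loop over a list of hubs -/
private theorem phase2_loop {M k T : ℕ} {S : Finset V} {F0 : Finset (Sym2 V)} {H : List (Hub V)}
    {L : Hub V → Finset V} {π : V → V} (cs : CS M k T S F0 H L π)
    (P : Hub V → Finset (Sym2 V) → Prop) (Q : Finset (Sym2 V) → Prop)
    (hP : ∀ h Fc Fc', Fc' ⊆ Fc → P h Fc → P h Fc') (hQ : ∀ Fc Fc', Fc' ⊆ Fc → Q Fc → Q Fc')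
    (step : ∀ Fc U, Inv M F0 H L Fc U → Q Fc → ∀ h ∈ H,
      ∃ (K X : Finset (Sym2 V)) (c : ℕ), K ⊆ Fc ∧ X ⊆ hubE H \ U ∧ c ≤ h.1.card ∧ Dec (K ∪ X) c ∧
        Inv M F0 H L (Fc \ K) (U ∪ X) ∧ P h (Fc \ K)) :
    ∀ (l : List (Hub V)), (∀ h ∈ l, h ∈ H) → ∀ Fc U, Inv M F0 H L Fc U → Q Fc →
      ∃ (K X : Finset (Sym2 V)) (c : ℕ), K ⊆ Fc ∧ X ⊆ hubE H \ U ∧
        c ≤ (l.map (fun h => h.1.card)).sum ∧ Dec (K ∪ X) c ∧
        Inv M F0 H L (Fc \ K) (U ∪ X) ∧ ∀ h ∈ l, P h (Fc \ K) := by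
  intro l
  induction l with
  | nil =>
    intro _ Fc U inv _
    refine ⟨∅, ∅, 0, empty_subset _, empty_subset _, by simp, ?_, ?_, by simp⟩
    · simpa using Dec.empty
    · simpa using inv
  | cons h l ih =>
    intro hl Fc U inv hq
    obtain ⟨K1, X1, c1, hK1, hX1, hc1, hD1, hI1, hP1⟩ := step Fc U inv hq h (hl h (by simp))
    obtain ⟨K2, X2, c2, hK2, hX2, hc2, hD2, hI2, hP2⟩ :=
      ih (fun h' hh' => hl h' (by simp [hh'])) (Fc \ K1) (U ∪ X1) hI1 (hQ _ _ sdiff_subset hq)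
    have hFH : Disjoint Fc (hubE H) := Finset.disjoint_of_subset_left inv.sub cs.disj
    have hdis : Disjoint (K1 ∪ X1) (K2 ∪ X2) := by
      rw [Finset.disjoint_union_left, Finset.disjoint_union_right, Finset.disjoint_union_right]
      refine ⟨⟨?_, ?_⟩, ?_, ?_⟩
      · exact Finset.disjoint_of_subset_right hK2 Finset.disjoint_sdiff
      · exact Finset.disjoint_of_subset_left hK1
          (Finset.disjoint_of_subset_right (hX2.trans sdiff_subset) hFH)
      · exact (Finset.disjoint_of_subset_left (hK2.trans sdiff_subset)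
          (Finset.disjoint_of_subset_right (hX1.trans sdiff_subset) hFH)).symm
      · refine Finset.disjoint_left.2 (fun e he1 he2 => ?_)
        exact (Finset.mem_sdiff.1 (hX2 he2)).2 (Finset.mem_union_right _ he1)
    have hset : Fc \ (K1 ∪ K2) = (Fc \ K1) \ K2 := by
      ext e; simp only [Finset.mem_sdiff, Finset.mem_union]; tauto
    refine ⟨K1 ∪ K2, X1 ∪ X2, c1 + c2, ?_, ?_, ?_, ?_, ?_, ?_⟩
    · exact Finset.union_subset hK1 (hK2.trans sdiff_subset)
    · refine Finset.union_subset hX1 (fun e he => ?_)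
      have := Finset.mem_sdiff.1 (hX2 he)
      exact Finset.mem_sdiff.2 ⟨this.1, fun h => this.2 (Finset.mem_union_left _ h)⟩
    · simp only [List.map_cons, List.sum_cons]; omega
    · have := Dec.union hD1 hD2 hdis
      have he : K1 ∪ K2 ∪ (X1 ∪ X2) = K1 ∪ X1 ∪ (K2 ∪ X2) := by
        ext e; simp only [Finset.mem_union]; tauto
      rwa [he]
    · rw [hset, ← Finset.union_assoc]; exact hI2
    · intro h' hh'
      rw [hset]
      rcases List.mem_cons.1 hh' with rfl | hh'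
      · exact hP _ _ _ sdiff_subset hP1
      · exact hP2 h' hh'

private theorem phase2_eb_mono {E E' : Finset (Sym2 V)} (h : E' ⊆ E) (A B : Finset V) :
    eb E' A B ≤ eb E A B := by
  unfold eb
  refine Finset.card_le_card (fun p hp => ?_)
  simp only [Finset.mem_filter] at hp ⊢
  exact ⟨hp.1, h hp.2⟩

/-- (H12) PHASE 2.  PROOF.  Loop over the hubs of `H` with `phase2A` (the properties reached are inherited by subsets of `Fc`), then loop with
`phase2B`.  `Dec.union`; the sets `K`, `X` of different steps are disjoint.  Finally for `e = s(a,b)`, `e' = s(a',b')` in the final `Fc` with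
the same image, w.l.o.g. `π a = π a'`, `π b = π b'`.  No edge is inside a class: `π a = π b` gives (`pi_inj`) `a = b` (no loops) or both in `L h`.
If `a = a'`, `b ≠ b'`: `b, b' ∈ L h`, `a ∉ L h`, contradiction to 2A; the same for `b = b'`; if `a ≠ a'`, `b ≠ b'`: `a, a' ∈ L h`, `b, b' ∈ L h'`,
`h ≠ h'`, contradiction to 2B. -/
theorem phase2 {M k T : ℕ} {S : Finset V} {F0 : Finset (Sym2 V)} {H : List (Hub V)}
    {L : Hub V → Finset V} {π : V → V} (cs : CS M k T S F0 H L π) {Fc U : Finset (Sym2 V)}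
    (inv : Inv M F0 H L Fc U) :
    ∃ (K X : Finset (Sym2 V)) (c : ℕ), K ⊆ Fc ∧ X ⊆ hubE H \ U ∧ c ≤ 2 * (H.map (fun h => h.1.card)).sum ∧
      Dec (K ∪ X) c ∧ Inv M F0 H L (Fc \ K) (U ∪ X) ∧ (∀ e ∈ Fc \ K, ¬ (Sym2.map π e).IsDiag) ∧
      ∀ e ∈ Fc \ K, ∀ e' ∈ Fc \ K, Sym2.map π e = Sym2.map π e' → e = e' := by
  classical
  -- the first loop
  obtain ⟨K1, X1, c1, hK1, hX1, hc1, hD1, hI1, hP1⟩ :=
    phase2_loop cs
      (fun h F => (∀ v ∈ L h, ∀ v' ∈ L h, s(v, v') ∉ F) ∧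
        ∀ w ∉ L h, ((L h).filter (fun v => s(v, w) ∈ F)).card ≤ 1)
      (fun _ => True)
      (by
        rintro h F F' hF ⟨h1, h2⟩
        refine ⟨fun v hv v' hv' h3 => h1 v hv v' hv' (hF h3), fun w hw => ?_⟩
        refine (Finset.card_le_card (fun v hv => ?_)).trans (h2 w hw)
        simp only [Finset.mem_filter] at hv ⊢
        exact ⟨hv.1, hF hv.2⟩)
      (fun _ _ _ _ => trivial)
      (fun F U inv _ h hh => phase2A cs inv h hh)
      H (fun _ h => h) Fc U inv trivial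
  -- the second loop
  obtain ⟨K2, X2, c2, hK2, hX2, hc2, hD2, hI2, hP2⟩ :=
    phase2_loop cs
      (fun h F => ∀ h' ∈ H, h' ≠ h → eb F (L h) (L h') ≤ 1)
      (fun F => (∀ h' ∈ H, ∀ v ∈ L h', ∀ v' ∈ L h', s(v, v') ∉ F) ∧
        ∀ h' ∈ H, ∀ w ∉ L h', ((L h').filter (fun v => s(v, w) ∈ F)).card ≤ 1)
      (by
        intro h F F' hF h1 h' hh' hne
        exact (phase2_eb_mono hF _ _).trans (h1 h' hh' hne))
      (by
        rintro F F' hF ⟨h1, h2⟩
        refine ⟨fun h' hh' v hv v' hv' h3 => h1 h' hh' v hv v' hv' (hF h3),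
          fun h' hh' w hw => ?_⟩
        refine (Finset.card_le_card (fun v hv => ?_)).trans (h2 h' hh' w hw)
        simp only [Finset.mem_filter] at hv ⊢
        exact ⟨hv.1, hF hv.2⟩)
      (fun F U inv hq h hh => phase2B cs inv h hh hq.1 hq.2)
      H (fun _ h => h) (Fc \ K1) (U ∪ X1) hI1
      ⟨fun h hh => (hP1 h hh).1, fun h hh => (hP1 h hh).2⟩
  have hFH : Disjoint Fc (hubE H) := Finset.disjoint_of_subset_left inv.sub cs.disj
  have hdis : Disjoint (K1 ∪ X1) (K2 ∪ X2) := by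
    rw [Finset.disjoint_union_left, Finset.disjoint_union_right, Finset.disjoint_union_right]
    refine ⟨⟨?_, ?_⟩, ?_, ?_⟩
    · exact Finset.disjoint_of_subset_right hK2 Finset.disjoint_sdiff
    · exact Finset.disjoint_of_subset_left hK1
        (Finset.disjoint_of_subset_right (hX2.trans sdiff_subset) hFH)
    · exact (Finset.disjoint_of_subset_left (hK2.trans sdiff_subset)
        (Finset.disjoint_of_subset_right (hX1.trans sdiff_subset) hFH)).symm
    · refine Finset.disjoint_left.2 (fun e he1 he2 => ?_)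
      exact (Finset.mem_sdiff.1 (hX2 he2)).2 (Finset.mem_union_right _ he1)
  have hset : Fc \ (K1 ∪ K2) = (Fc \ K1) \ K2 := by
    ext e; simp only [Finset.mem_sdiff, Finset.mem_union]; tauto
  -- the final set
  have hA1 : ∀ h ∈ H, ∀ v ∈ L h, ∀ v' ∈ L h, s(v, v') ∉ (Fc \ K1) \ K2 :=
    fun h hh v hv v' hv' h3 => (hP1 h hh).1 v hv v' hv' (Finset.mem_sdiff.1 h3).1
  have hA2 : ∀ h ∈ H, ∀ w ∉ L h, ∀ v ∈ L h, ∀ v' ∈ L h, s(v, w) ∈ (Fc \ K1) \ K2 →
      s(v', w) ∈ (Fc \ K1) \ K2 → v = v' := by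
    intro h hh w hw v hv v' hv' h1 h2
    refine Finset.card_le_one.1 ((hP1 h hh).2 w hw) v ?_ v' ?_
    · exact Finset.mem_filter.2 ⟨hv, (Finset.mem_sdiff.1 h1).1⟩
    · exact Finset.mem_filter.2 ⟨hv', (Finset.mem_sdiff.1 h2).1⟩
  have hB : ∀ h ∈ H, ∀ h' ∈ H, h' ≠ h → ∀ a ∈ L h, ∀ a' ∈ L h, ∀ b ∈ L h', ∀ b' ∈ L h',
      s(a, b) ∈ (Fc \ K1) \ K2 → s(a', b') ∈ (Fc \ K1) \ K2 → a = a' ∧ b = b' := by
    intro h hh h' hh' hne a ha a' ha' b hb b' hb' h1 h2
    have h3 := hP2 h hh h' hh' hne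
    unfold eb at h3
    have h4 := Finset.card_le_one.1 h3 (a, b)
      (Finset.mem_filter.2 ⟨Finset.mem_product.2 ⟨ha, hb⟩, h1⟩) (a', b')
      (Finset.mem_filter.2 ⟨Finset.mem_product.2 ⟨ha', hb'⟩, h2⟩)
    exact ⟨congrArg Prod.fst h4, congrArg Prod.snd h4⟩
  have hloop : ∀ a b, s(a, b) ∈ (Fc \ K1) \ K2 → π a ≠ π b := by
    intro a b hab hπ
    have hF0 : s(a, b) ∈ F0 := inv.sub (Finset.mem_sdiff.1 (Finset.mem_sdiff.1 hab).1).1
    rcases cs.pi_inj a b hπ with h | ⟨h, hh, ha, hb⟩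
    · exact cs.supp.2 _ hF0 (by simpa using h)
    · exact hA1 h hh a ha b hb hab
  -- injectivity on ordered pairs
  have key : ∀ a b a' b', s(a, b) ∈ (Fc \ K1) \ K2 → s(a', b') ∈ (Fc \ K1) \ K2 → π a = π a' →
      π b = π b' → s(a, b) = s(a', b') := by
    intro a b a' b' h1 h2 ha hb
    rcases cs.pi_inj a a' ha with haa | ⟨h, hh, hah, ha'h⟩
    · subst haa
      rcases cs.pi_inj b b' hb with hbb | ⟨h', hh', hbh, hb'h⟩
      · rw [hbb]
      · have haL : a ∉ L h' := by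
          intro haL
          exact hloop a b h1 (cs.pi_eq h' hh' a haL b hbh)
        have := hA2 h' hh' a haL b hbh b' hb'h (by rwa [Sym2.eq_swap]) (by rwa [Sym2.eq_swap])
        rw [this]
    · rcases cs.pi_inj b b' hb with hbb | ⟨h', hh', hbh, hb'h⟩
      · subst hbb
        have hbL : b ∉ L h := by
          intro hbL
          exact hloop a b h1 (cs.pi_eq h hh a hah b hbL)
        have := hA2 h hh b hbL a hah a' ha'h h1 h2
        rw [this]
      · have hne : h' ≠ h := by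
          rintro rfl
          exact hloop a b h1 (cs.pi_eq h' hh a hah b hbh)
        obtain ⟨e1, e2⟩ := hB h hh h' hh' hne a hah a' ha'h b hbh b' hb'h h1 h2
        rw [e1, e2]
  refine ⟨K1 ∪ K2, X1 ∪ X2, c1 + c2, ?_, ?_, ?_, ?_, ?_, ?_, ?_⟩
  · exact Finset.union_subset hK1 (hK2.trans sdiff_subset)
  · refine Finset.union_subset hX1 (fun e he => ?_)
    have := Finset.mem_sdiff.1 (hX2 he)
    exact Finset.mem_sdiff.2 ⟨this.1, fun h => this.2 (Finset.mem_union_left _ h)⟩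
  · omega
  · have := Dec.union hD1 hD2 hdis
    have he : K1 ∪ K2 ∪ (X1 ∪ X2) = K1 ∪ X1 ∪ (K2 ∪ X2) := by
      ext e; simp only [Finset.mem_union]; tauto
    rwa [he]
  · rw [hset, ← Finset.union_assoc]; exact hI2
  · intro e he
    rw [hset] at he
    induction e using Sym2.ind with
    | _ a b =>
      rw [Sym2.map_mk]
      intro h
      exact hloop a b he (by simpa using h)
  · intro e he e' he' heq
    rw [hset] at he he'
    induction e using Sym2.ind with
    | _ a b =>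
      induction e' using Sym2.ind with
      | _ a' b' =>
        rw [Sym2.map_mk, Sym2.map_mk] at heq
        rcases Sym2.eq_iff.1 heq with ⟨h1, h2⟩ | ⟨h1, h2⟩
        · exact key a b a' b' he he' h1 h2
        · have := key a b b' a' he (by rwa [Sym2.eq_swap]) h1 h2
          rw [this, Sym2.eq_swap]

end Crest.Agent.EG
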