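import Crest.Agent.EG.CycData
import Crest.Agent.EG.LongCyc

set_option autoImplicit false

namespace Crest.Agent.EG
open Finset

variable {V : Type} [DecidableEq V]

private theorem phase3_mem_ctr (π : V → V) (Fc : Finset (Sym2 V)) (e : Sym2 V) :
    e ∈ ctr π Fc ↔ (∃ e0 ∈ Fc, Sym2.map π e0 = e) ∧ ¬ e.IsDiag := by
  unfold ctr
  rw [Finset.mem_filter, Finset.mem_image]

omit [DecidableEq V] in
private theorem phase3_diag (π : V → V) (e : Sym2 V) (h : e.IsDiag) : (Sym2.map π e).IsDiag := by
  induction e using Sym2.ind with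
  | _ x y =>
    rw [Sym2.mk_isDiag_iff] at h
    rw [Sym2.map_mk, h]
    simp

private theorem phase3_dg_pos (K : Finset (Sym2 V)) (e : Sym2 V) (v : V) (he : e ∈ K) (hv : v ∈ e) :
    1 ≤ dg K v := by
  unfold dg
  exact Finset.card_pos.2 ⟨e, Finset.mem_filter.2 ⟨he, hv⟩⟩

private theorem phase3_aux {M k T : ℕ} {S : Finset V} {F0 : Finset (Sym2 V)} {H : List (Hub V)}
    {L : Hub V → Finset V} {π : V → V} (cs : CS M k T S F0 H L π)
    (l : ℕ) (hl : 3 ≤ l) (hlk : 10 ^ 6 * M ^ 2 * l ≤ k) (Ls : List (Finset (Sym2 V))) :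
    ∀ (Fc U : Finset (Sym2 V)), Inv M F0 H L Fc U →
    (∀ e ∈ Fc, ¬ (Sym2.map π e).IsDiag) →
    (∀ e ∈ Fc, ∀ e' ∈ Fc, Sym2.map π e = Sym2.map π e' → e = e') →
    (∀ C ∈ Ls, IsCyc C → C.card < 3 * l) → (∀ C ∈ Ls, Good C) → Ls.Pairwise Disjoint →
    (∀ e, e ∈ ctr π Fc ↔ ∃ C ∈ Ls, e ∈ C) →
    ∃ X : Finset (Sym2 V), X ⊆ hubE H \ U ∧ Dec (Fc ∪ X) Ls.length ∧ Inv M F0 H L ∅ (U ∪ X) := by
  induction Ls with
  | nil =>
    intro Fc U inv hsimp _ _ _ _ hmem
    have hFc : Fc = ∅ := by
      rw [Finset.eq_empty_iff_forall_notMem]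
      intro e he
      have h1 : Sym2.map π e ∈ ctr π Fc := (phase3_mem_ctr π Fc _).2 ⟨⟨e, he, rfl⟩, hsimp e he⟩
      rw [hmem] at h1
      obtain ⟨C, hC, -⟩ := h1
      simp at hC
    subst hFc
    refine ⟨∅, by simp, ?_, ?_⟩
    · simpa using (Dec.empty (V := V))
    · simpa using inv
  | cons P Ls ih =>
    intro Fc U inv hsimp hinj hshort hgood hpair hmem
    rw [List.pairwise_cons] at hpair
    obtain ⟨hP, hpair⟩ := hpair
    set K := Fc.filter (fun e => Sym2.map π e ∈ P) with hKdef
    have hKFc : K ⊆ Fc := Finset.filter_subset _ _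
    have hFcK : Fc \ K ⊆ Fc := Finset.sdiff_subset
    have hPctr : P ⊆ ctr π Fc := fun e he => (hmem e).2 ⟨P, List.mem_cons_self, he⟩
    have hmem' : ∀ e, e ∈ ctr π (Fc \ K) ↔ ∃ C ∈ Ls, e ∈ C := by
      intro e
      constructor
      · intro he
        rw [phase3_mem_ctr] at he
        obtain ⟨⟨e0, he0, rfl⟩, hd⟩ := he
        rw [Finset.mem_sdiff] at he0
        have h1 : Sym2.map π e0 ∈ ctr π Fc := (phase3_mem_ctr π Fc _).2 ⟨⟨e0, he0.1, rfl⟩, hd⟩
        rw [hmem] at h1
        obtain ⟨C, hC, heC⟩ := h1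
        rw [List.mem_cons] at hC
        rcases hC with rfl | hC
        · exact absurd (Finset.mem_filter.2 ⟨he0.1, heC⟩) he0.2
        · exact ⟨C, hC, heC⟩
      · rintro ⟨C, hC, heC⟩
        have h1 : e ∈ ctr π Fc := (hmem e).2 ⟨C, List.mem_cons_of_mem _ hC, heC⟩
        rw [phase3_mem_ctr] at h1 ⊢
        obtain ⟨⟨e0, he0, rfl⟩, hd⟩ := h1
        refine ⟨⟨e0, Finset.mem_sdiff.2 ⟨he0, fun h => ?_⟩, rfl⟩, hd⟩
        exact Finset.disjoint_left.1 (hP C hC) (Finset.mem_filter.1 h).2 heC
    have hF0hub : ∀ e ∈ Fc, e ∉ hubE H := fun e he =>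
      Finset.disjoint_left.1 cs.disj (inv.sub he)
    rcases hgood P List.mem_cons_self with hsing | hcyc
    · -- a single edge
      obtain ⟨e', he'd, rfl⟩ := hsing
      have h1 := hPctr (Finset.mem_singleton_self e')
      rw [phase3_mem_ctr] at h1
      obtain ⟨⟨e, he, hee'⟩, -⟩ := h1
      have hK : K = {e} := by
        ext x
        rw [Finset.mem_filter, Finset.mem_singleton, Finset.mem_singleton]
        constructor
        · rintro ⟨hx, hxe⟩
          exact hinj x hx e he (hxe.trans hee'.symm)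
        · rintro rfl
          exact ⟨he, hee'⟩
      have hgK : Good K := by
        refine Or.inl ⟨e, fun hd => ?_, hK⟩
        exact hsimp e he (phase3_diag π e hd)
      obtain ⟨X, hX1, hX2, hX3⟩ := ih (Fc \ K) U (inv.mono hFcK)
        (fun e he => hsimp e (hFcK he)) (fun e he e' he' => hinj e (hFcK he) e' (hFcK he'))
        (fun C hC => hshort C (List.mem_cons_of_mem _ hC))
        (fun C hC => hgood C (List.mem_cons_of_mem _ hC)) hpair hmem'
      refine ⟨X, hX1, ?_, hX3⟩
      have hd : Disjoint K ((Fc \ K) ∪ X) := by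
        rw [Finset.disjoint_left]
        intro x hx hx'
        rw [Finset.mem_union, Finset.mem_sdiff] at hx'
        rcases hx' with hx' | hx'
        · exact hx'.2 hx
        · exact hF0hub x (hKFc hx) (Finset.mem_sdiff.1 (hX1 hx')).1
      have h2 := Dec.union (Dec.one hgK) hX2 hd
      rw [List.length_cons, add_comm]
      convert h2 using 1
      rw [← Finset.union_assoc, Finset.union_sdiff_of_subset hKFc]
    · -- a cycle
      have hcard := hshort P List.mem_cons_self hcyc
      obtain ⟨p, q, hm3, hper, hFe, hpq, hmod, hmapP, himg⟩ := cycData π Fc P hPctr hcyc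
      have hch : ∀ i, ∃ h : Hub V, p i ≠ q i → h ∈ H ∧ p i ∈ L h ∧ q i ∈ L h := by
        intro i
        by_cases hi : p i = q i
        · exact ⟨(∅, ∅), fun h => absurd hi h⟩
        · rcases cs.pi_inj (p i) (q i) (hpq i) with h | ⟨h, hh, h1, h2⟩
          · exact absurd h hi
          · exact ⟨h, fun _ => ⟨hh, h1, h2⟩⟩
      choose hb hhb using hch
      have hpm : p P.card = p 0 := by simpa using (hper 0).1
      have hqm : q P.card = q 0 := by simpa using (hper 0).2
      have hKe : ∀ i < P.card, s(q i, p (i + 1)) ∈ K := fun i _ =>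
        Finset.mem_filter.2 ⟨hFe i, hmapP i⟩
      have hne : ∀ i j, i < j → j ≤ P.card → (i ≠ 0 ∨ j ≠ P.card) → π (p i) ≠ π (p j) := by
        intro i j hij hj hor heq
        rw [hmod] at heq
        rcases Nat.lt_or_ge j P.card with hj' | hj'
        · rw [Nat.mod_eq_of_lt hj', Nat.mod_eq_of_lt (by omega)] at heq
          omega
        · have hj2 : j = P.card := le_antisymm hj hj'
          rw [hj2, Nat.mod_self, Nat.mod_eq_of_lt (by omega)] at heq
          omega
      have himgK : (range P.card).image (fun i => s(q i, p (i + 1))) = K := by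
        ext e
        constructor
        · intro he
          rw [Finset.mem_image] at he
          obtain ⟨i, hi, rfl⟩ := he
          exact hKe i (Finset.mem_range.1 hi)
        · intro he
          have he2 := Finset.mem_filter.1 he
          have h3 := he2.2
          rw [← himg, Finset.mem_image] at h3
          obtain ⟨i, hi, hi2⟩ := h3
          rw [Finset.mem_image]
          exact ⟨i, hi, hinj _ (hFe i) e he2.1 hi2⟩
      have hself : ∀ i, p i ∈ Sst M U (p i) (q i) (hb i) := by
        intro i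
        unfold Sst
        split_ifs with h
        · simp
        · simp
      obtain ⟨X1, hX1, hcyc1, hinv1⟩ := arcLem cs inv (P.card + 1)
        (by
          have h1 : 3 * (P.card + 1) + 1 ≤ 10 * l := by omega
          calc 400 * M ^ 2 * (3 * (P.card + 1) + 1) ≤ 400 * M ^ 2 * (10 * l) :=
                Nat.mul_le_mul_left _ h1
            _ ≤ 10 ^ 6 * M ^ 2 * l := by
                have : 400 * M ^ 2 * (10 * l) = 4000 * (M ^ 2 * l) := by ring
                have h2 : 10 ^ 6 * M ^ 2 * l = 1000000 * (M ^ 2 * l) := by ring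
                rw [this, h2]
                exact Nat.mul_le_mul_right _ (by norm_num)
            _ ≤ k := hlk)
        P.card hm3 p q hb (p 0) (fun i _ => hFe i) (fun i _ => hhb i) (fun i _ => hpq i) hne
        ⟨hself 0, by have := hself P.card; rwa [hpm] at this ⊢⟩
        (by
          intro i h0 hi
          have h1 := hne 0 i h0 hi.le (Or.inr (by omega))
          refine ⟨fun h => h1 (by rw [h]), fun h => h1 (by rw [h, ← hpq i])⟩)
        (Or.inr ⟨hpm, hqm, rfl⟩) K hKFc hKe
        (by
          have h1 := hKe (P.card - 1) (by omega)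
          have h2 : P.card - 1 + 1 = P.card := by omega
          rw [h2, hpm] at h1
          exact phase3_dg_pos K _ _ h1 (Sym2.mem_mk_right _ _))
        (by
          have h1 := hKe 0 (by omega)
          rw [hqm]
          exact phase3_dg_pos K _ _ h1 (Sym2.mem_mk_left _ _))
        (by
          intro i _ _
          calc _ ≤ (range (P.card + 1)).card := Finset.card_filter_le _ _
            _ = P.card + 1 := Finset.card_range _)
      rw [himgK] at hcyc1
      obtain ⟨X2, hX2, hdec2, hinv2⟩ := ih (Fc \ K) (U ∪ X1) hinv1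
        (fun e he => hsimp e (hFcK he)) (fun e he e' he' => hinj e (hFcK he) e' (hFcK he'))
        (fun C hC => hshort C (List.mem_cons_of_mem _ hC))
        (fun C hC => hgood C (List.mem_cons_of_mem _ hC)) hpair hmem'
      refine ⟨X1 ∪ X2, ?_, ?_, ?_⟩
      · refine Finset.union_subset hX1 (hX2.trans ?_)
        exact Finset.sdiff_subset_sdiff (Finset.Subset.refl _) Finset.subset_union_left
      · have hd : Disjoint (X1 ∪ K) ((Fc \ K) ∪ X2) := by
          rw [Finset.disjoint_left]
          intro x hx hx'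
          rw [Finset.mem_union] at hx hx'
          rcases hx with hx | hx
          · rcases hx' with hx' | hx'
            · exact hF0hub x (hFcK hx') (Finset.mem_sdiff.1 (hX1 hx)).1
            · exact (Finset.mem_sdiff.1 (hX2 hx')).2 (Finset.mem_union_right _ hx)
          · rcases hx' with hx' | hx'
            · exact (Finset.mem_sdiff.1 hx').2 hx
            · exact hF0hub x (hKFc hx) (Finset.mem_sdiff.1 (hX2 hx')).1
        have h2 := Dec.union (Dec.one (Or.inr hcyc1)) hdec2 hd
        rw [List.length_cons, add_comm]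
        convert h2 using 1
        ext x
        have hx : x ∈ K → x ∈ Fc := fun h => hKFc h
        simp only [Finset.mem_union, Finset.mem_sdiff]
        tauto
      · rw [← Finset.union_assoc]
        exact hinv2

/-- (H7) PHASE 3: lifting a decomposition of the contracted graph.
PROOF.  Induction on the list `Ls` of parts (generalising `Fc`, `U`): the statement for a list `Ls` of pairwise disjoint good parts whose
union is `ctr π Fc = Fc.image (Sym2.map π)` (no loops by `hsimp`), all cycles of size `< 3l`.  For the first part `P` let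
`K = {e ∈ Fc : Sym2.map π e ∈ P}`.  `P = {e'}`: `K = {e}` (injectivity), `X = ∅`, `Inv.mono`.  `P` a cycle, `m = |P|`: `cycData` for `P`
(with `Fc`), `arcLem` with `n = m`, `z = p 0`, `K` (`K = {e_i : i < m}` by injectivity), `N0 = m + 1 ≤ 3 l`; `hb i` from `cs.pi_inj`.
The cycle is `X ∪ K`.  Then `Fc \ K` has the image `ctr π Fc \ P`, continue with `U ∪ X`. -/
theorem phase3 {M k T : ℕ} {S : Finset V} {F0 : Finset (Sym2 V)} {H : List (Hub V)}
    {L : Hub V → Finset V} {π : V → V} (cs : CS M k T S F0 H L π) {Fc U : Finset (Sym2 V)}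
    (inv : Inv M F0 H L Fc U) (l : ℕ) (hl : 3 ≤ l) (hlk : 10 ^ 6 * M ^ 2 * l ≤ k)
    (hsimp : ∀ e ∈ Fc, ¬ (Sym2.map π e).IsDiag)
    (hinj : ∀ e ∈ Fc, ∀ e' ∈ Fc, Sym2.map π e = Sym2.map π e' → e = e')
    (hshort : ∀ C : Finset (Sym2 V), C ⊆ ctr π Fc → IsCyc C → C.card < 3 * l)
    (m' : ℕ) (hD : Dec (ctr π Fc) m') :
    ∃ X : Finset (Sym2 V), X ⊆ hubE H \ U ∧ Dec (Fc ∪ X) m' ∧ Inv M F0 H L ∅ (U ∪ X) := by
  obtain ⟨Ls, h1, h2, h3, h4⟩ := hD
  obtain ⟨X, hX1, hX2, hX3⟩ := phase3_aux cs l hl hlk Ls Fc U inv hsimp hinj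
    (fun C hC hcyc => hshort C (fun e he => (h4 e).2 ⟨C, hC, he⟩) hcyc) h2 h3 h4
  exact ⟨X, hX1, hX2.mono h1, hX3⟩

end Crest.Agent.EG
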