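import Crest.Agent.EG.Setup
import Crest.Agent.EG.Phase1
import Crest.Agent.EG.Phase2
import Crest.Agent.EG.Phase3

set_option autoImplicit false

namespace Crest.Agent.EG
open Finset

variable {V : Type} [DecidableEq V]

/-- (H) CONTRACTION THEOREM.  PROOF.  `setup`; `phase1` from `(F, ∅)` (`Inv.init`) gives `K1 X1 c1`; `phase2` gives `K2 X2 c2`.  `Fc = (F \ K1) \ K2`,
`S' = S.image π`, `E' = ctr π Fc` (`= Fc.image (Sym2.map π)`), `c = c1 + c2`, `c1 l ≤ |F|`, `c2 ≤ 2 ∑|h.1|`.  Cycles of `E'` have length `< 3l` since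
`ctr π Fc ⊆ ctr π (F \ K1)`.  `phase3` for a given `Dec E' m'` gives `X3`; `U = X1 ∪ X2 ∪ X3`, degree bound from `Inv.deg` of the final state;
`F ∪ U = (K1 ∪ X1) ∪ (K2 ∪ X2) ∪ (Fc ∪ X3)` (disjoint, as `F` and `hubE H` are disjoint and `X_i` avoid the earlier ones). -/
theorem contract (F : Finset (Sym2 V)) (S : Finset V) (hF : Supp F S) (H : List (Hub V))
    (M k T l : ℕ) (hM : 1 ≤ M) (hH : HubSys M k S H) (hFH : Disjoint F (hubE H))
    (hl : 3 ≤ l) (hT : 10 ^ 6 * M ^ 3 * (T + 1) ≤ k) (hlk : 10 ^ 6 * M ^ 2 * l ≤ k) :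
    ∃ (S' : Finset V) (E' : Finset (Sym2 V)) (c : ℕ), Supp E' S' ∧ E'.card ≤ F.card ∧
      S' ⊆ S ∧
      100 * (S'.card + (hubV H).card) ≤ 100 * (S.card + H.length +
        ((hubV H).filter (fun v => T < dg F v)).card) + (H.map (fun h => h.1.card)).sum ∧
      c * l ≤ F.card + 3 * l * (H.map (fun h => h.1.card)).sum ∧
      ∀ m', Dec E' m' → ∃ U : Finset (Sym2 V), U ⊆ hubE H ∧
        (∀ h ∈ H, ∀ z ∈ h.1, 8 * M * dg (U ∩ h.2) z ≤ h.1.card) ∧ Dec (F ∪ U) (m' + c) := by
  obtain ⟨L, π, cs, hπS, hcount⟩ := setup F S hF H M k T hM hH hFH hT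
  obtain ⟨K1, X1, c1, hK1, hX1, hc1, hD1, hI1, hshort⟩ := phase1 cs (Inv.init cs) l hl hlk
  obtain ⟨K2, X2, c2, hK2, hX2, hc2, hD2, hI2, hsimp, hinj⟩ := phase2 cs hI1
  have hXs1 : X1 ⊆ hubE H := hX1.trans Finset.sdiff_subset
  have hXs2 : X2 ⊆ hubE H := hX2.trans Finset.sdiff_subset
  have hctr : ctr π ((F \ K1) \ K2) ⊆ ctr π (F \ K1) := by
    unfold ctr
    exact Finset.filter_subset_filter _ (Finset.image_subset_image Finset.sdiff_subset)
  refine ⟨S.image π, ctr π ((F \ K1) \ K2), c1 + c2, ?_, ?_, ?_, ?_, ?_, ?_⟩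
  · refine ⟨?_, ?_⟩
    · intro e he
      unfold ctr at he
      rw [Finset.mem_filter, Finset.mem_image] at he
      obtain ⟨⟨e0, he0, rfl⟩, -⟩ := he
      have h0 : e0 ∈ F := (Finset.mem_sdiff.1 (Finset.mem_sdiff.1 he0).1).1
      have h1 := hF.1 h0
      induction e0 using Sym2.ind with
      | _ x y =>
        rw [Finset.mk_mem_sym2_iff] at h1
        rw [Sym2.map_mk, Finset.mk_mem_sym2_iff]
        exact ⟨Finset.mem_image_of_mem _ h1.1, Finset.mem_image_of_mem _ h1.2⟩
    · intro e he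
      unfold ctr at he
      exact (Finset.mem_filter.1 he).2
  · unfold ctr
    refine (Finset.card_filter_le _ _).trans (Finset.card_image_le.trans ?_)
    exact Finset.card_le_card (Finset.sdiff_subset.trans Finset.sdiff_subset)
  · intro v hv
    obtain ⟨w, hw, rfl⟩ := Finset.mem_image.1 hv
    exact hπS w hw
  · omega
  · have h1 : K1.card ≤ F.card := Finset.card_le_card hK1
    have h2 : c2 * l ≤ (2 * (H.map (fun h => h.1.card)).sum) * l := Nat.mul_le_mul_right _ hc2
    nlinarith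
  · intro m' hm'
    obtain ⟨X3, hX3, hD3, hI3⟩ := phase3 cs hI2 l hl hlk hsimp hinj
      (fun C hC hcyc => hshort C (hC.trans hctr) hcyc) m' hm'
    have hXs3 : X3 ⊆ hubE H := hX3.trans Finset.sdiff_subset
    have dF : ∀ {K X : Finset (Sym2 V)}, K ⊆ F → X ⊆ hubE H → Disjoint K X := by
      intro K X hK hX
      exact Finset.disjoint_of_subset_left hK (Finset.disjoint_of_subset_right hX hFH)
    have dX12 : Disjoint X1 X2 := by
      rw [Finset.disjoint_left]
      intro x hx1 hx2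
      exact (Finset.mem_sdiff.1 (hX2 hx2)).2 (Finset.mem_union_right _ hx1)
    have dX13 : Disjoint X1 X3 := by
      rw [Finset.disjoint_left]
      intro x hx1 hx2
      exact (Finset.mem_sdiff.1 (hX3 hx2)).2
        (Finset.mem_union_left _ (Finset.mem_union_right _ hx1))
    have dX23 : Disjoint X2 X3 := by
      rw [Finset.disjoint_left]
      intro x hx1 hx2
      exact (Finset.mem_sdiff.1 (hX3 hx2)).2 (Finset.mem_union_right _ hx1)
    have hK2F : K2 ⊆ F := hK2.trans Finset.sdiff_subset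
    have hFcF : (F \ K1) \ K2 ⊆ F := Finset.sdiff_subset.trans Finset.sdiff_subset
    refine ⟨X1 ∪ X2 ∪ X3, Finset.union_subset (Finset.union_subset hXs1 hXs2) hXs3, ?_, ?_⟩
    · have h := Inv.deg cs hI3
      rw [Finset.empty_union] at h
      exact h
    · have hU : F ∪ (X1 ∪ X2 ∪ X3) = ((K1 ∪ X1) ∪ (K2 ∪ X2)) ∪ (((F \ K1) \ K2) ∪ X3) := by
        ext x
        have h1 : x ∈ K1 → x ∈ F := fun h => hK1 h
        have h2 : x ∈ K2 → x ∈ F := fun h => hK2F h
        simp only [Finset.mem_union, Finset.mem_sdiff]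
        tauto
      rw [hU]
      have hd12 : Disjoint (K1 ∪ X1) (K2 ∪ X2) := by
        rw [Finset.disjoint_union_left, Finset.disjoint_union_right, Finset.disjoint_union_right]
        refine ⟨⟨?_, dF hK1 hXs2⟩, (dF hK2F hXs1).symm, dX12⟩
        exact (Finset.disjoint_of_subset_left hK2 Finset.sdiff_disjoint).symm
      have hd3 : Disjoint ((K1 ∪ X1) ∪ (K2 ∪ X2)) (((F \ K1) \ K2) ∪ X3) := by
        rw [Finset.disjoint_union_left, Finset.disjoint_union_left, Finset.disjoint_union_left,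
          Finset.disjoint_union_right, Finset.disjoint_union_right, Finset.disjoint_union_right,
          Finset.disjoint_union_right]
        refine ⟨⟨⟨?_, dF hK1 hXs3⟩, (dF hFcF hXs1).symm, dX13⟩,
          ⟨Finset.disjoint_sdiff, dF hK2F hXs3⟩, (dF hFcF hXs2).symm, dX23⟩
        exact (Finset.disjoint_of_subset_left Finset.sdiff_subset Finset.sdiff_disjoint).symm
      exact (Dec.union (Dec.union hD1 hD2 hd12) hD3 hd3).mono (by omega)

end Crest.Agent.EG
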