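import Crest.Agent.EG.Pieces
import Crest.Agent.EG.Clusters

set_option autoImplicit false

namespace Crest.Agent.EG
open Finset

variable {V : Type} [DecidableEq V]

private theorem ch_mem_hubE (H : List (Hub V)) (e : Sym2 V) : e ∈ hubE H ↔ ∃ h ∈ H, e ∈ h.2 := by
  induction H with
  | nil => simp [hubE]
  | cons h H ih =>
    have : hubE (h :: H) = h.2 ∪ hubE H := rfl
    rw [this, mem_union, ih]
    simp

private theorem ch_mem_hubV (H : List (Hub V)) (v : V) : v ∈ hubV H ↔ ∃ h ∈ H, v ∈ h.1 := by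
  induction H with
  | nil => simp [hubV]
  | cons h H ih =>
    have : hubV (h :: H) = h.1 ∪ hubV H := rfl
    rw [this, mem_union, ih]
    simp

private theorem ch_hubE_append (H H' : List (Hub V)) : hubE (H ++ H') = hubE H ∪ hubE H' := by
  ext e
  simp only [ch_mem_hubE, mem_union, List.mem_append]
  constructor
  · rintro ⟨h, h1 | h1, h2⟩
    · exact Or.inl ⟨h, h1, h2⟩
    · exact Or.inr ⟨h, h1, h2⟩
  · rintro (⟨h, h1, h2⟩ | ⟨h, h1, h2⟩)
    · exact ⟨h, Or.inl h1, h2⟩
    · exact ⟨h, Or.inr h1, h2⟩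

/-- number of loopless edges in a set -/
private theorem ch_card_le (F : Finset (Sym2 V)) (K : Finset V) (h1 : F ⊆ K.sym2)
    (h2 : ∀ e ∈ F, ¬ e.IsDiag) : 2 * F.card ≤ K.card * (K.card - 1) := by
  have h : F ⊆ K.offDiag.image Sym2.mk.uncurry := by
    intro e he
    have hd := h2 e he
    have hm := h1 he
    induction e using Sym2.ind with
    | _ x y =>
      rw [Finset.mk_mem_sym2_iff] at hm
      rw [mem_image]
      refine ⟨(x, y), ?_, rfl⟩
      rw [mem_offDiag]
      exact ⟨hm.1, hm.2, fun h => hd (Sym2.mk_isDiag_iff.2 h)⟩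
  have h3 := card_le_card h
  rw [Sym2.card_image_offDiag] at h3
  rw [Nat.choose_two_right] at h3
  have h4 := Nat.div_mul_le_self (K.card * (K.card - 1)) 2
  omega

/-- edges in small clusters -/
private theorem ch_small (F : Finset (Sym2 V)) (hF : ∀ e ∈ F, ¬ e.IsDiag) (k : ℕ)
    (L : List (Finset V)) :
    2 * (F.filter (fun e => ∃ K ∈ L, K.card < k ∧ e ∈ K.sym2)).card ≤
      k * (L.map (fun K => K.card)).sum := by
  induction L with
  | nil => simp
  | cons K L ih =>
    have hsub : F.filter (fun e => ∃ K' ∈ K :: L, K'.card < k ∧ e ∈ K'.sym2) ⊆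
        F.filter (fun e => K.card < k ∧ e ∈ K.sym2) ∪
        F.filter (fun e => ∃ K ∈ L, K.card < k ∧ e ∈ K.sym2) := by
      intro e he
      rw [mem_filter] at he
      obtain ⟨h1, K', hK', h2, h3⟩ := he
      rw [List.mem_cons] at hK'
      rw [mem_union, mem_filter, mem_filter]
      rcases hK' with rfl | hK'
      · exact Or.inl ⟨h1, h2, h3⟩
      · exact Or.inr ⟨h1, K', hK', h2, h3⟩
    have h1 := (card_le_card hsub).trans (card_union_le _ _)
    have h2 : 2 * (F.filter (fun e => K.card < k ∧ e ∈ K.sym2)).card ≤ k * K.card := by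
      by_cases hk : K.card < k
      · have h3 := ch_card_le (F.filter (fun e => K.card < k ∧ e ∈ K.sym2)) K
          (fun e he => (mem_filter.1 he).2.2) (fun e he => hF e (mem_filter.1 he).1)
        refine h3.trans ?_
        rw [mul_comm]
        exact Nat.mul_le_mul_right _ (by omega)
      · have : F.filter (fun e => K.card < k ∧ e ∈ K.sym2) = ∅ := by
          rw [filter_eq_empty_iff]
          rintro e - ⟨h, -⟩
          exact hk h
        rw [this]
        simp
    simp only [List.map_cons, List.sum_cons]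
    rw [mul_add]
    omega

/-- disjoint subsets -/
private theorem ch_sum_le (S : Finset V) (L : List (Finset V)) (h1 : ∀ K ∈ L, K ⊆ S)
    (h2 : L.Pairwise Disjoint) : (L.map (fun K => K.card)).sum ≤ S.card := by
  induction L generalizing S with
  | nil => simp
  | cons K L ih =>
    rw [List.pairwise_cons] at h2
    have h3 := ih (S \ K) (fun K' hK' => by
      rw [Finset.subset_sdiff]
      exact ⟨h1 K' (List.mem_cons_of_mem _ hK'), (h2.1 K' hK').symm⟩) h2.2
    have h4 := card_sdiff_add_card_eq_card (h1 K List.mem_cons_self)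
    simp only [List.map_cons, List.sum_cons]
    omega

omit [DecidableEq V] in
private theorem ch_filter_sum (L : List (Finset V)) (p : Finset V → Bool) (g : Finset V → Finset (Sym2 V)) :
    (((L.filter p).map (fun K => ((K, g K) : Hub V))).map (fun h => h.1.card)).sum ≤
      (L.map (fun K => K.card)).sum := by
  induction L with
  | nil => simp
  | cons K L ih =>
    by_cases hp : p K = true
    · rw [List.filter_cons_of_pos hp]
      simp only [List.map_cons, List.sum_cons]
      omega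
    · rw [List.filter_cons_of_neg hp]
      simp only [List.map_cons, List.sum_cons]
      omega

/-- one piece -/
private theorem ch_piece (S : Finset V) (P : Hub V) (hP : Supp P.2 P.1) (hPS : P.1 ⊆ S) (l d k M : ℕ)
    (hPl : P.1.card ≤ 3 * l) (hM : 1 ≤ M) (hMd : 300 * l ≤ M * d) (hkd : 100 * k ≤ d) :
    ∃ (E1 : Finset (Sym2 V)) (H : List (Hub V)), HubSys M k S H ∧
      P.2 = E1 ∪ hubE H ∧ Disjoint E1 (hubE H) ∧ 100 * E1.card ≤ d * P.1.card ∧
      (H.map (fun h => h.1.card)).sum ≤ P.1.card := by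
  obtain ⟨L, hL1, hL2, -, hL4⟩ := clusters P.2 P.1 hP M hM
  obtain ⟨H, hH⟩ : ∃ H : List (Hub V), H = (L.filter (fun K => decide (k ≤ K.card))).map
    (fun K => ((K, P.2.filter (fun e => e ∈ K.sym2)) : Hub V)) := ⟨_, rfl⟩
  have hmem : ∀ h, h ∈ H ↔ ∃ K ∈ L, k ≤ K.card ∧ h = (K, P.2.filter (fun e => e ∈ K.sym2)) := by
    intro h
    rw [hH, List.mem_map]
    constructor
    · rintro ⟨K, hK, rfl⟩
      rw [List.mem_filter, decide_eq_true_iff] at hK
      exact ⟨K, hK.1, hK.2, rfl⟩
    · rintro ⟨K, hK, hk, rfl⟩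
      exact ⟨K, by rw [List.mem_filter, decide_eq_true_iff]; exact ⟨hK, hk⟩, rfl⟩
  have hsubE : hubE H ⊆ P.2 := by
    intro e he
    rw [ch_mem_hubE] at he
    obtain ⟨h, hh, he⟩ := he
    obtain ⟨K, -, -, rfl⟩ := (hmem h).1 hh
    exact (mem_filter.1 he).1
  refine ⟨P.2 \ hubE H, H, ⟨?_, ?_⟩, ?_, ?_, ?_, ?_⟩
  · intro h hh
    obtain ⟨K, hK, hk, rfl⟩ := (hmem h).1 hh
    obtain ⟨h1, h2, h3⟩ := hL1 K hK
    refine ⟨⟨fun e he => (mem_filter.1 he).2, fun e he => hP.2 e (mem_filter.1 he).1⟩,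
      h2.trans hPS, hk, ?_⟩
    intro A hA
    have h4 := h3 A hA
    have h5 : eb (P.2.filter (fun e => e ∈ K.sym2)) A (K \ A) = eb P.2 A (K \ A) := by
      unfold eb
      congr 1
      ext ⟨a, b⟩
      simp only [mem_filter, mem_product, mem_sdiff, Finset.mk_mem_sym2_iff]
      constructor
      · rintro ⟨h, h', -⟩
        exact ⟨h, h'⟩
      · rintro ⟨h, h'⟩
        exact ⟨h, h', hA h.1, h.2.1⟩
    simp only
    rw [h5]
    exact h4
  · rw [hH, List.pairwise_map]
    refine List.Pairwise.imp ?_ (hL2.sublist List.filter_sublist)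
    intro K K' hKK
    rw [disjoint_left]
    intro e he he'
    rw [mem_filter] at he he'
    induction e using Sym2.ind with
    | _ x y =>
      have h1 := (Finset.mk_mem_sym2_iff.1 he.2).1
      have h2 := (Finset.mk_mem_sym2_iff.1 he'.2).1
      exact (disjoint_left.1 hKK) h1 h2
  · exact (sdiff_union_of_subset hsubE).symm
  · exact sdiff_disjoint
  · have hsub : P.2 \ hubE H ⊆ P.2.filter (fun e => ∀ K ∈ L, e ∉ K.sym2) ∪
        P.2.filter (fun e => ∃ K ∈ L, K.card < k ∧ e ∈ K.sym2) := by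
      intro e he
      rw [mem_sdiff] at he
      obtain ⟨he, hn⟩ := he
      rw [mem_union, mem_filter, mem_filter]
      by_cases h : ∀ K ∈ L, e ∉ K.sym2
      · exact Or.inl ⟨he, h⟩
      · right
        push Not at h
        obtain ⟨K, hK, heK⟩ := h
        refine ⟨he, K, hK, ?_, heK⟩
        by_contra hk
        apply hn
        rw [ch_mem_hubE]
        exact ⟨_, (hmem _).2 ⟨K, hK, by omega, rfl⟩, mem_filter.2 ⟨he, heK⟩⟩
    have h1 := (card_le_card hsub).trans (card_union_le _ _)
    have h2 := ch_small P.2 hP.2 k L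
    have h3 := ch_sum_le P.1 L (fun K hK => (hL1 K hK).2.1) hL2
    obtain ⟨c1, hc1⟩ : ∃ c, c = (P.2.filter (fun e => ∀ K ∈ L, e ∉ K.sym2)).card := ⟨_, rfl⟩
    obtain ⟨c2, hc2⟩ : ∃ c, c = (P.2.filter (fun e => ∃ K ∈ L, K.card < k ∧ e ∈ K.sym2)).card :=
      ⟨_, rfl⟩
    rw [← hc1, ← hc2] at h1
    rw [← hc1] at hL4
    rw [← hc2] at h2
    obtain ⟨p, hp⟩ : ∃ p, p = P.1.card := ⟨_, rfl⟩
    rw [← hp] at hL4 h3 hPl ⊢
    have h5 : 200 * c1 ≤ d * p := by
      have h6 : M * (200 * c1) ≤ M * (d * p) := by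
        calc M * (200 * c1) = 100 * (2 * M * c1) := by ring
          _ ≤ 100 * p ^ 2 := Nat.mul_le_mul_left _ hL4
          _ = 100 * p * p := by ring
          _ ≤ 100 * (3 * l) * p := by gcongr
          _ = 300 * l * p := by ring
          _ ≤ M * d * p := Nat.mul_le_mul_right _ hMd
          _ = M * (d * p) := by ring
      exact Nat.le_of_mul_le_mul_left h6 (by omega)
    have h6 : 200 * c2 ≤ d * p := by
      calc 200 * c2 = 100 * (2 * c2) := by ring
        _ ≤ 100 * (k * p) := by
          refine Nat.mul_le_mul_left _ (h2.trans ?_)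
          exact Nat.mul_le_mul_left _ h3
        _ = 100 * k * p := by ring
        _ ≤ d * p := Nat.mul_le_mul_right _ hkd
    omega
  · rw [hH]
    exact (ch_filter_sum L _ _).trans (ch_sum_le P.1 L (fun K hK => (hL1 K hK).2.1) hL2)

/-- all pieces -/
private theorem ch_pieces (S : Finset V) (l d k M : ℕ) (hM : 1 ≤ M) (hMd : 300 * l ≤ M * d)
    (hkd : 100 * k ≤ d) (L : List (Hub V))
    (hL : ∀ P ∈ L, Supp P.2 P.1 ∧ P.1 ⊆ S ∧ P.1.card ≤ 3 * l)
    (hL2 : L.Pairwise (fun P P' => Disjoint P.2 P'.2)) :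
    ∃ (E1 : Finset (Sym2 V)) (H : List (Hub V)), HubSys M k S H ∧
      hubE L = E1 ∪ hubE H ∧ Disjoint E1 (hubE H) ∧
      100 * E1.card ≤ d * (L.map (fun P => P.1.card)).sum ∧
      (H.map (fun h => h.1.card)).sum ≤ (L.map (fun P => P.1.card)).sum ∧
      2 * (hubE L).card ≤ 3 * l * (L.map (fun P => P.1.card)).sum := by
  induction L with
  | nil =>
    refine ⟨∅, [], ⟨by simp, List.Pairwise.nil⟩, by simp [hubE], by simp, by simp, by simp, ?_⟩
    simp [hubE]
  | cons P L ih =>
    rw [List.pairwise_cons] at hL2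
    obtain ⟨E1, H, hH, hE, hdis, hc, hs, he⟩ := ih (fun P hP => hL P (List.mem_cons_of_mem _ hP)) hL2.2
    obtain ⟨hP1, hP2, hP3⟩ := hL P List.mem_cons_self
    obtain ⟨E1', H', hH', hE', hdis', hc', hs'⟩ := ch_piece S P hP1 hP2 l d k M hP3 hM hMd hkd
    have hcons : hubE (P :: L) = P.2 ∪ hubE L := rfl
    have hPL : Disjoint P.2 (hubE L) := by
      rw [disjoint_left]
      intro e he he'
      rw [ch_mem_hubE] at he'
      obtain ⟨P', hP', he'⟩ := he'
      exact (disjoint_left.1 (hL2.1 P' hP')) he he'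
    have s1 : E1' ⊆ P.2 := by rw [hE']; exact subset_union_left
    have s2 : hubE H' ⊆ P.2 := by rw [hE']; exact subset_union_right
    have s3 : E1 ⊆ hubE L := by rw [hE]; exact subset_union_left
    have s4 : hubE H ⊆ hubE L := by rw [hE]; exact subset_union_right
    refine ⟨E1' ∪ E1, H' ++ H, ⟨?_, ?_⟩, ?_, ?_, ?_, ?_, ?_⟩
    · intro h hh
      rw [List.mem_append] at hh
      rcases hh with hh | hh
      · exact hH'.1 h hh
      · exact hH.1 h hh
    · rw [List.pairwise_append]
      refine ⟨hH'.2, hH.2, ?_⟩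
      intro h hh h' hh'
      refine Disjoint.mono ?_ ?_ hPL
      · exact fun e he => s2 ((ch_mem_hubE H' e).2 ⟨h, hh, he⟩)
      · exact fun e he => s4 ((ch_mem_hubE H e).2 ⟨h', hh', he⟩)
    · rw [hcons, ch_hubE_append, hE, hE']
      ext e
      simp only [mem_union]
      tauto
    · rw [ch_hubE_append, disjoint_union_left, disjoint_union_right, disjoint_union_right]
      exact ⟨⟨hdis', Disjoint.mono s1 s4 hPL⟩, ⟨Disjoint.mono s3 s2 hPL.symm, hdis⟩⟩
    · have := card_union_le E1' E1
      simp only [List.map_cons, List.sum_cons]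
      rw [mul_add]
      omega
    · simp only [List.map_cons, List.sum_cons, List.map_append, List.sum_append]
      omega
    · rw [hcons]
      have h1 := card_union_le P.2 (hubE L)
      have h2 := ch_card_le P.2 P.1 hP1.1 hP1.2
      have h3 : P.1.card * (P.1.card - 1) ≤ 3 * l * P.1.card := by
        rw [mul_comm (3 * l)]
        exact Nat.mul_le_mul_left _ (by omega)
      simp only [List.map_cons, List.sum_cons]
      rw [mul_add]
      omega

/-- double counting -/
private theorem ch_deg_sum (E : Finset (Sym2 V)) (T : Finset V) :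
    ∑ v ∈ T, dg E v ≤ 2 * E.card := by
  unfold dg
  simp only [card_filter]
  rw [sum_comm]
  calc ∑ e ∈ E, ∑ v ∈ T, (if v ∈ e then 1 else 0) ≤ ∑ e ∈ E, 2 := by
        refine sum_le_sum fun e _ => ?_
        rw [← card_filter]
        induction e using Sym2.ind with
        | _ x y =>
          refine (card_le_card (t := {x, y}) ?_).trans (card_le_two)
          intro v hv
          rw [mem_filter, Sym2.mem_iff] at hv
          rw [mem_insert, mem_singleton]
          exact hv.2
    _ = 2 * E.card := by rw [sum_const, smul_eq_mul, mul_comm]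

/-- (G3) HUBS IN THE CORE.  PROOF.  Take the pieces `L` of `E` (theorem `pieces`): `|P| ≤ 3l`, `∑|P| ≤ 2|S|`.  For every
piece `P = (P.1, P.2)` take the clusters of `(P.2, P.1)` (theorem `clusters` with `M`).  Hubs: all `(K, P.2 ∩ K.sym2)`
with `K` a cluster of `P` with `k ≤ |K|`.  `CD M P.2 K` implies `CD M (P.2 ∩ K.sym2) K`
(`eb` only looks at pairs in `K × K`).  Edge sets of different hubs are disjoint (different pieces: disjoint edge
sets; same piece: disjoint clusters, edges are nonempty sets of vertices).  `E1` = the remaining edges.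
Count `E1` inside a piece: edges in no cluster: `≤ |P|^2/(2M) ≤ 3l|P|/(2M) ≤ |P| d/200` (as `300 l ≤ M d`); edges in
clusters with `|K| < k`: at most `|K|^2/2 ≤ |K| k/2` each (`Supp` loopless, at most `K.card.choose 2`), together
`≤ |P| k /2 ≤ |P| d/200`.  So `|E1| ≤ ∑ |P| d/100 ≤ |S| d/50`.
`∑_{hubs} |K| ≤ ∑_P |P| ≤ 2|S|` (clusters of a piece are disjoint subsets of `P.1`).
Coverage: a vertex `v ∈ S` outside `hubV H` has all its `≥ d` edges in `E1`, so
`d * #(S \ hubV H) ≤ 2|E1| ≤ d |S|/25`, hence `24|S| ≤ 25 |hubV H|`.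
Finally `|E| ≤ ∑_P |P|^2/2 ≤ (3l/2) ∑|P| ≤ 3 l |S|`. -/
theorem coreHubs (E : Finset (Sym2 V)) (S : Finset V) (hS : Supp E S) (l d k M : ℕ)
    (hl : 3 ≤ l) (hd : 1 ≤ d) (hk : 1 ≤ k) (hM : 1 ≤ M) (hMd : 300 * l ≤ M * d)
    (hkd : 100 * k ≤ d) (hdeg : ∀ v ∈ S, d ≤ dg E v)
    (hno : ∀ C : Finset (Sym2 V), C ⊆ E → IsCyc C → C.card < l) :
    ∃ (E1 : Finset (Sym2 V)) (H : List (Hub V)), HubSys M k S H ∧
      E = E1 ∪ hubE H ∧ Disjoint E1 (hubE H) ∧ 50 * E1.card ≤ d * S.card ∧
      (H.map (fun h => h.1.card)).sum ≤ 2 * S.card ∧ 24 * S.card ≤ 25 * (hubV H).card ∧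
      E.card ≤ 3 * l * S.card := by
  obtain ⟨L, hL1, hL2, hL3, hL4⟩ := pieces E S hS l hl hno
  obtain ⟨E1, H, hH, hE, hdis, hc, hs, he⟩ := ch_pieces S l d k M hM hMd hkd L hL1 hL2
  rw [hL3] at hE he
  have hc' : 50 * E1.card ≤ d * S.card := by
    have := Nat.mul_le_mul_left d hL4
    have h2 : d * (2 * S.card) = 2 * (d * S.card) := by ring
    omega
  refine ⟨E1, H, hH, hE, hdis, hc', hs.trans hL4, ?_, ?_⟩
  · -- coverage
    have h1 : ∀ v ∈ S \ hubV H, d ≤ dg E1 v := by
      intro v hv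
      rw [mem_sdiff] at hv
      refine (hdeg v hv.1).trans ?_
      unfold dg
      apply card_le_card
      intro e he
      rw [mem_filter] at he ⊢
      refine ⟨?_, he.2⟩
      have h2 := he.1
      rw [hE, mem_union] at h2
      rcases h2 with h2 | h2
      · exact h2
      · exfalso
        rw [ch_mem_hubE] at h2
        obtain ⟨h, hh, h2⟩ := h2
        apply hv.2
        rw [ch_mem_hubV]
        refine ⟨h, hh, ?_⟩
        have h3 := (hH.1 h hh).1.1 h2
        exact Finset.mem_sym2_iff.1 h3 v he.2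
    have h2 : (S \ hubV H).card * d ≤ 2 * E1.card := by
      refine le_trans ?_ (ch_deg_sum E1 (S \ hubV H))
      rw [← smul_eq_mul]
      exact Finset.card_nsmul_le_sum _ _ _ h1
    have h3 : d * (25 * (S \ hubV H).card) ≤ d * S.card := by
      calc d * (25 * (S \ hubV H).card) = 25 * ((S \ hubV H).card * d) := by ring
        _ ≤ 25 * (2 * E1.card) := Nat.mul_le_mul_left _ h2
        _ = 50 * E1.card := by ring
        _ ≤ d * S.card := hc'
    have h4 := Nat.le_of_mul_le_mul_left h3 (by omega)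
    have h5 : S.card ≤ (S \ hubV H).card + (hubV H).card := by
      have : S ⊆ (S \ hubV H) ∪ hubV H := by
        intro v hv
        rw [mem_union, mem_sdiff]
        tauto
      exact (card_le_card this).trans (card_union_le _ _)
    omega
  · have := Nat.mul_le_mul_left (3 * l) hL4
    have h2 : 3 * l * (2 * S.card) = 2 * (3 * l * S.card) := by ring
    omega

end Crest.Agent.EG
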