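import Crest.Agent.EG.Arc

set_option autoImplicit false

namespace Crest.Agent.EG
open Finset

variable {V : Type} [DecidableEq V]

omit [DecidableEq V] in
private theorem cd_mem_pE (l : List V) (e : Sym2 V) :
    e ∈ pE l ↔ ∃ (i : ℕ) (h : i + 1 < l.length), e = s(l[i], l[i + 1]) := by
  induction l with
  | nil => simp [pE]
  | cons a l ih =>
    cases l with
    | nil => simp [pE]
    | cons b l =>
      have h1 : pE (a :: b :: l) = s(a, b) :: pE (b :: l) := rfl
      rw [h1, List.mem_cons, ih]
      constructor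
      · rintro (rfl | ⟨i, hi, rfl⟩)
        · exact ⟨0, by simp, rfl⟩
        · exact ⟨i + 1, by simpa using hi, rfl⟩
      · rintro ⟨i, hi, rfl⟩
        cases i with
        | zero => exact Or.inl rfl
        | succ i => exact Or.inr ⟨i, by simpa using hi, rfl⟩

/-- (H4) PERIODIC DATA of a cycle `C` of the contracted graph: `m = |C| ≥ 3`, vertices `x i = π (p i) = π (q i)`.
PROOF.  `C = (pE (a :: (t ++ [a]))).toFinset`, `w = a :: t` nodup, `m = |w| = |C|` (the `m` edges of the closed list are different for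
`m ≥ 3` and nodup `w`).  `x i = w[i % m]`.  `s(x i, x (i+1)) ∈ C ⊆ ctr π Fc` is the image of an edge `e ∈ Fc`: choose (for `i < m`, then
extended periodically) `e = s(q i, p (i+1))` with `π (q i) = x i`, `π (p (i+1)) = x (i+1)`. -/
theorem cycData (π : V → V) (Fc C : Finset (Sym2 V)) (hC : C ⊆ ctr π Fc) (hcyc : IsCyc C) :
    ∃ (p q : ℕ → V), 3 ≤ C.card ∧ (∀ i, p (i + C.card) = p i ∧ q (i + C.card) = q i) ∧
      (∀ i, s(q i, p (i + 1)) ∈ Fc) ∧ (∀ i, π (p i) = π (q i)) ∧
      (∀ i j, π (p i) = π (p j) ↔ i % C.card = j % C.card) ∧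
      (∀ i, Sym2.map π s(q i, p (i + 1)) ∈ C) ∧
      (range C.card).image (fun i => Sym2.map π s(q i, p (i + 1))) = C := by
  classical
  obtain ⟨a, t, ht, hnd, hCe⟩ := hcyc
  set w : List V := a :: t with hw
  have hwl : w.length = t.length + 1 := by rw [hw]; simp
  set m := w.length with hm
  have hm3 : 3 ≤ m := by omega
  have hm0 : 0 < m := by omega
  let x : ℕ → V := fun i => w[i % m]'(Nat.mod_lt _ hm0)
  have hxmod : ∀ i j, i % m = j % m → x i = x j := by
    intro i j hij
    simp only [x]
    congr 1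
  have hxinj : ∀ i j, x i = x j → i % m = j % m := by
    intro i j hij
    simp only [x] at hij
    exact (List.Nodup.getElem_inj_iff hnd).1 hij
  have hL : ∀ (i : ℕ) (hi : i < (w ++ [a]).length), (w ++ [a])[i] = x i := by
    intro i hi
    rw [List.length_append, List.length_singleton] at hi
    simp only [x]
    by_cases him : i < m
    · rw [List.getElem_append_left him]
      congr 1
      rw [Nat.mod_eq_of_lt him]
    · have him' : i = m := by omega
      subst him'
      rw [List.getElem_append_right (by omega)]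
      simp [hw]
  have hCm : ∀ e, e ∈ C ↔ ∃ i, i < m ∧ e = s(x i, x (i + 1)) := by
    intro e
    have h1 : a :: (t ++ [a]) = w ++ [a] := by rw [hw]; rfl
    rw [hCe, List.mem_toFinset, h1, cd_mem_pE]
    constructor
    · rintro ⟨i, hi, rfl⟩
      rw [hL i (by omega), hL (i + 1) hi]
      rw [List.length_append, List.length_singleton] at hi
      exact ⟨i, by omega, rfl⟩
    · rintro ⟨i, hi, rfl⟩
      have h2 : i + 1 < (w ++ [a]).length := by
        rw [List.length_append, List.length_singleton]
        omega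
      exact ⟨i, h2, by rw [hL i (by omega), hL (i + 1) h2]⟩
  have hCi : C = (range m).image (fun i => s(x i, x (i + 1))) := by
    ext e
    rw [hCm, Finset.mem_image]
    constructor
    · rintro ⟨i, hi, rfl⟩
      exact ⟨i, Finset.mem_range.2 hi, rfl⟩
    · rintro ⟨i, hi, rfl⟩
      exact ⟨i, Finset.mem_range.1 hi, rfl⟩
  have hcard : C.card = m := by
    rw [hCi, Finset.card_image_of_injOn, Finset.card_range]
    intro i hi j hj hij
    simp only [Finset.coe_range, Set.mem_Iio] at hi hj
    simp only [Sym2.eq_iff] at hij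
    rcases hij with ⟨h1, -⟩ | ⟨h1, h2⟩
    · have := hxinj i j h1
      rwa [Nat.mod_eq_of_lt hi, Nat.mod_eq_of_lt hj] at this
    · exfalso
      have e1 := hxinj _ _ h1
      have e2 := hxinj _ _ h2
      have e3 : (i + 1) % m = (j + 1 + 1) % m := Nat.ModEq.add_right 1 e1
      have e4 : (j + 0) % m = (j + 2) % m := by
        rw [Nat.add_zero]
        exact (e2.symm.trans e3)
      have e5 : (0 : ℕ) % m = 2 % m := Nat.ModEq.add_left_cancel' j e4
      rw [Nat.zero_mod, Nat.mod_eq_of_lt (by omega : 2 < m)] at e5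
      omega
  have hch : ∀ i, ∃ u v : V, s(u, v) ∈ Fc ∧ π u = x i ∧ π v = x (i + 1) := by
    intro i
    have h1 : s(x i, x (i + 1)) ∈ C := by
      rw [hCm]
      refine ⟨i % m, Nat.mod_lt _ hm0, ?_⟩
      rw [hxmod (i % m) i (Nat.mod_mod _ _), hxmod (i % m + 1) (i + 1) (by simp)]
    have h2 := hC h1
    unfold ctr at h2
    rw [Finset.mem_filter, Finset.mem_image] at h2
    obtain ⟨⟨e, he, hee⟩, -⟩ := h2
    induction e using Sym2.ind with
    | _ u v =>
      rw [Sym2.map_mk, Sym2.eq_iff] at hee
      rcases hee with ⟨h3, h4⟩ | ⟨h3, h4⟩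
      · exact ⟨u, v, he, h3, h4⟩
      · exact ⟨v, u, by rw [Sym2.eq_swap]; exact he, h4, h3⟩
  choose u v huv hu hv using hch
  have hpq : ∀ i, (i + 1 + m - 1) % m = i % m := by
    intro i
    have : i + 1 + m - 1 = i + m := by omega
    rw [this, Nat.add_mod_right]
  have hπq : ∀ i, π (u (i % m)) = x i := by
    intro i
    rw [hu, hxmod (i % m) i (Nat.mod_mod _ _)]
  have hπp : ∀ i, π (v ((i + m - 1) % m)) = x i := by
    intro i
    rw [hv]
    apply hxmod
    rw [Nat.mod_add_mod]
    have : i + m - 1 + 1 = i + m := by omega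
    rw [this, Nat.add_mod_right]
  have hmap : ∀ i, Sym2.map π s(u (i % m), v ((i + 1 + m - 1) % m)) = s(x i, x (i + 1)) := by
    intro i
    rw [Sym2.map_mk]
    simp only [hπq]
    rw [show π (v ((i + 1 + m - 1) % m)) = x (i + 1) from hπp (i + 1)]
  refine ⟨fun i => v ((i + m - 1) % m), fun i => u (i % m), ?_, ?_, ?_, ?_, ?_, ?_, ?_⟩
  · rw [hcard]; exact hm3
  · intro i
    rw [hcard]
    refine ⟨?_, ?_⟩
    · simp only
      congr 1
      have : i + m + m - 1 = (i + m - 1) + m := by omega
      rw [this, Nat.add_mod_right]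
    · simp only
      congr 1
      rw [Nat.add_mod_right]
  · intro i
    simp only
    rw [hpq i]
    exact huv (i % m)
  · intro i
    simp only
    rw [hπp, hπq]
  · intro i j
    simp only
    rw [hπp, hπp, hcard]
    exact ⟨hxinj i j, hxmod i j⟩
  · intro i
    simp only
    rw [hmap, hCm]
    refine ⟨i % m, Nat.mod_lt _ hm0, ?_⟩
    rw [hxmod (i % m) i (Nat.mod_mod _ _), hxmod (i % m + 1) (i + 1) (by simp)]
  · rw [hcard, hCi]
    refine Finset.image_congr ?_
    intro i _
    exact hmap i

end Crest.Agent.EG
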