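import Mathlib

/-!
# Row 45 (S0064): Erdős–Gallai cycle decomposition.  Common definitions.
All graphs are loopless finite edge sets `E : Finset (Sym2 V)` with support in a finset `S`.
-/

set_option autoImplicit false

namespace Crest.Agent.EG

open Finset

variable {V : Type}

/-- the list of consecutive edges of a list of vertices -/
def pE : List V → List (Sym2 V)
  | [] => []
  | [_] => []
  | a :: b :: l => s(a, b) :: pE (b :: l)

/-- `C` is the edge set of a cycle (with vertices `a :: t`, at least three of them) -/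
def IsCyc [DecidableEq V] (C : Finset (Sym2 V)) : Prop :=
  ∃ (a : V) (t : List V), 2 ≤ t.length ∧ (a :: t).Nodup ∧ C = (pE (a :: (t ++ [a]))).toFinset

/-- a good part: a single (non-loop) edge or a cycle -/
def Good [DecidableEq V] (C : Finset (Sym2 V)) : Prop :=
  (∃ e : Sym2 V, ¬ e.IsDiag ∧ C = {e}) ∨ IsCyc C

/-- `E` is partitioned into at most `m` good parts -/
def Dec [DecidableEq V] (E : Finset (Sym2 V)) (m : ℕ) : Prop :=
  ∃ L : List (Finset (Sym2 V)), L.length ≤ m ∧ (∀ C ∈ L, Good C) ∧ L.Pairwise Disjoint ∧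
    ∀ e, e ∈ E ↔ ∃ C ∈ L, e ∈ C

/-- `E` is loopless and supported in `S` -/
def Supp [DecidableEq V] (E : Finset (Sym2 V)) (S : Finset V) : Prop :=
  E ⊆ S.sym2 ∧ ∀ e ∈ E, ¬ e.IsDiag

/-- degree -/
def dg [DecidableEq V] (E : Finset (Sym2 V)) (v : V) : ℕ := (E.filter (fun e => v ∈ e)).card

/-- number of pairs `(a, b) ∈ A × B` with `ab ∈ E` -/
def eb [DecidableEq V] (E : Finset (Sym2 V)) (A B : Finset V) : ℕ :=
  ((A ×ˢ B).filter (fun p => s(p.1, p.2) ∈ E)).card

/-- `M`-cut-dense on `S` -/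
def CD [DecidableEq V] (M : ℕ) (E : Finset (Sym2 V)) (S : Finset V) : Prop :=
  ∀ A ⊆ S, A.card * (S \ A).card ≤ M * eb E A (S \ A)

/-- `p` is a path (list of distinct vertices) from `a` to `b` with all edges in `E` -/
def PathL (E : Finset (Sym2 V)) (a b : V) (p : List V) : Prop :=
  p.head? = some a ∧ p.getLast? = some b ∧ p.Nodup ∧ ∀ e ∈ pE p, e ∈ E

/-- A hub: vertex set and edge set. -/
abbrev Hub (V : Type) := Finset V × Finset (Sym2 V)

/-- union of the vertex sets / edge sets of a list of hubs -/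
def hubV [DecidableEq V] (H : List (Hub V)) : Finset V := H.foldr (fun h s => h.1 ∪ s) ∅
def hubE [DecidableEq V] (H : List (Hub V)) : Finset (Sym2 V) := H.foldr (fun h s => h.2 ∪ s) ∅

/-- a system of edge-disjoint `M`-cut-dense hubs in `S`, all of size at least `k` -/
def HubSys [DecidableEq V] (M k : ℕ) (S : Finset V) (H : List (Hub V)) : Prop :=
  (∀ h ∈ H, Supp h.2 h.1 ∧ h.1 ⊆ S ∧ k ≤ h.1.card ∧ CD M h.2 h.1) ∧
    H.Pairwise (fun h h' => Disjoint h.2 h'.2)

end Crest.Agent.EG
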