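import Crest.Agent.EG.SplitDefs

set_option autoImplicit false

namespace Crest.Agent.EG
open Finset

variable {V : Type} [DecidableEq V]

/-- (D1) ENTRY EDGES.  Every `a ∈ A` gets two distinct entry vertices `f a 0, f a 1 ∈ W` joined to it by edges of `E \ B`,
every `x ∈ W` is used at most `t` times.
PROOF.  Greedy: order the pairs `(a, i)` (induction on a finset of `A`, two steps for every `a`).  When an entry for `a` is chosen:
at most `2|A|` choices were made, so at most `2|A|/t` vertices of `W` are used `t` times; exclude them, the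
`≤ dg B a` vertices `x` with `s(a,x) ∈ B`, and the other entry vertex of `a`; one of the `dgIn E W a` neighbours remains,
because `dgIn E W a > 2|A|/t + dg B a + 1` (hypothesis multiplied by `t`). -/
theorem entry (E B : Finset (Sym2 V)) (A W : Finset V) (hAW : Disjoint A W) (t : ℕ) (ht : 1 ≤ t)
    (h : ∀ a ∈ A, 2 * A.card + t * dg B a + t < t * dgIn E W a) :
    ∃ f : V → Fin 2 → V, (∀ a ∈ A, ∀ i, f a i ∈ W ∧ s(a, f a i) ∈ E ∧ s(a, f a i) ∉ B) ∧
      (∀ a ∈ A, f a 0 ≠ f a 1) ∧
      ∀ x ∈ W, ((A ×ˢ (univ : Finset (Fin 2))).filter (fun p => f p.1 p.2 = x)).card ≤ t := by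
  suffices H : ∀ A' ⊆ A, ∃ f : V → Fin 2 → V,
      (∀ a ∈ A', ∀ i, f a i ∈ W ∧ s(a, f a i) ∈ E ∧ s(a, f a i) ∉ B) ∧
      (∀ a ∈ A', f a 0 ≠ f a 1) ∧
      ∀ x ∈ W, ((A' ×ˢ (univ : Finset (Fin 2))).filter (fun p => f p.1 p.2 = x)).card ≤ t from
    H A (Subset.refl _)
  intro A'
  induction A' using Finset.induction_on with
  | empty =>
    intro _
    exact ⟨fun a _ => a, by simp, by simp, by simp⟩
  | insert a A' ha ih =>
    intro hsub
    obtain ⟨f, hf1, hf2, hf3⟩ := ih ((subset_insert _ _).trans hsub)
    have haA : a ∈ A := hsub (mem_insert_self _ _)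
    obtain ⟨cnt, hcnt⟩ : ∃ cnt : V → ℕ, cnt = fun x =>
      ((A' ×ˢ (univ : Finset (Fin 2))).filter (fun p => f p.1 p.2 = x)).card := ⟨_, rfl⟩
    have hFull : (W.filter (fun x => t ≤ cnt x)).card * t ≤ 2 * A.card := by
      calc (W.filter (fun x => t ≤ cnt x)).card * t
          = ∑ _x ∈ W.filter (fun x => t ≤ cnt x), t := by rw [sum_const, smul_eq_mul]
        _ ≤ ∑ x ∈ W.filter (fun x => t ≤ cnt x), cnt x :=
            sum_le_sum fun x hx => (mem_filter.1 hx).2
        _ = ∑ x ∈ W.filter (fun x => t ≤ cnt x),
              ((A' ×ˢ (univ : Finset (Fin 2))).filter (fun p => f p.1 p.2 = x)).card := by rw [hcnt]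
        _ = ((A' ×ˢ (univ : Finset (Fin 2))).filter
              (fun p => f p.1 p.2 ∈ W.filter (fun x => t ≤ cnt x))).card :=
            sum_card_fiberwise_eq_card_filter _ _ _
        _ ≤ (A' ×ˢ (univ : Finset (Fin 2))).card := card_filter_le _ _
        _ = A'.card * 2 := by rw [card_product, card_univ, Fintype.card_fin]
        _ ≤ 2 * A.card := by
            have := card_le_card ((subset_insert a A').trans hsub)
            omega
    have hB : (W.filter (fun x => s(a, x) ∈ B)).card ≤ dg B a := by
      unfold dg
      refine card_le_card_of_injOn (fun x => s(a, x)) ?_ ?_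
      · intro x hx
        have hx' := (mem_filter.1 (mem_coe.1 hx)).2
        exact mem_coe.2 (mem_filter.2 ⟨hx', Sym2.mem_mk_left a x⟩)
      · intro x _ y _ hxy
        exact Sym2.congr_right.1 hxy
    obtain ⟨G, hG⟩ : ∃ G, G = W.filter (fun x => s(a, x) ∈ E ∧ s(a, x) ∉ B ∧ cnt x < t) := ⟨_, rfl⟩
    have hdeg : dgIn E W a ≤ G.card + (dg B a + (W.filter (fun x => t ≤ cnt x)).card) := by
      unfold dgIn
      have hsubset : W.filter (fun x => s(a, x) ∈ E) ⊆
          G ∪ (W.filter (fun x => s(a, x) ∈ B) ∪ W.filter (fun x => t ≤ cnt x)) := by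
        intro x hx
        rw [mem_filter] at hx
        rw [mem_union, mem_union, mem_filter, mem_filter, hG, mem_filter]
        by_cases h1 : s(a, x) ∈ B
        · exact Or.inr (Or.inl ⟨hx.1, h1⟩)
        · by_cases h2 : t ≤ cnt x
          · exact Or.inr (Or.inr ⟨hx.1, h2⟩)
          · exact Or.inl ⟨hx.1, hx.2, h1, not_le.1 h2⟩
      calc _ ≤ _ := card_le_card hsubset
        _ ≤ G.card + (W.filter (fun x => s(a, x) ∈ B) ∪ W.filter (fun x => t ≤ cnt x)).card :=
            card_union_le _ _
        _ ≤ G.card + ((W.filter (fun x => s(a, x) ∈ B)).card +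
              (W.filter (fun x => t ≤ cnt x)).card) := Nat.add_le_add_left (card_union_le _ _) _
        _ ≤ _ := by omega
    have hG2 : 1 < G.card := by
      by_contra hcon
      push Not at hcon
      have h1 := h a haA
      have h2 : t * dgIn E W a ≤ t * (1 + (dg B a + (W.filter (fun x => t ≤ cnt x)).card)) :=
        Nat.mul_le_mul_left t (by omega)
      have h3 : t * (1 + (dg B a + (W.filter (fun x => t ≤ cnt x)).card)) =
          t + t * dg B a + (W.filter (fun x => t ≤ cnt x)).card * t := by ring
      omega
    obtain ⟨x0, hx0, x1, hx1, hne⟩ := one_lt_card.1 hG2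
    rw [hG, mem_filter] at hx0 hx1
    have hupd : ∀ b ∈ A', Function.update f a ![x0, x1] b = f b := by
      intro b hb
      rw [Function.update_of_ne]
      rintro rfl
      exact ha hb
    refine ⟨Function.update f a ![x0, x1], ?_, ?_, ?_⟩
    · intro b hb i
      rcases mem_insert.1 hb with rfl | hb
      · rw [Function.update_self]
        fin_cases i
        · exact ⟨hx0.1, hx0.2.1, hx0.2.2.1⟩
        · exact ⟨hx1.1, hx1.2.1, hx1.2.2.1⟩
      · rw [hupd b hb]
        exact hf1 b hb i
    · intro b hb
      rcases mem_insert.1 hb with rfl | hb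
      · rw [Function.update_self]
        simpa using hne
      · rw [hupd b hb]
        exact hf2 b hb
    · intro x hx
      have hold := hf3 x hx
      have e1 : ((insert a A' ×ˢ (univ : Finset (Fin 2))).filter
          (fun p => Function.update f a ![x0, x1] p.1 p.2 = x)).card =
          ((if x0 = x then 1 else 0) + (if x1 = x then 1 else 0)) + cnt x := by
        have e2 : cnt x = ∑ b ∈ A', ∑ y : Fin 2, if f b y = x then 1 else 0 := by
          rw [hcnt]
          simp only
          rw [card_filter, sum_product]
        rw [card_filter, sum_product, sum_insert ha, e2]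
        congr 1
        · have e3 : ∀ y : Fin 2, Function.update f a ![x0, x1] (a, y).1 (a, y).2 = ![x0, x1] y := by
            intro y
            rw [Function.update_self]
          simp only [e3]
          rw [Fin.sum_univ_two, Matrix.cons_val_zero, Matrix.cons_val_one]
          congr!
        · refine sum_congr rfl fun b hb => ?_
          have e4 : ∀ y : Fin 2, Function.update f a ![x0, x1] (b, y).1 (b, y).2 = f b y := by
            intro y
            simp only [hupd b hb]
          simp only [e4]
      rw [e1]
      have hc : cnt x ≤ t := by rw [hcnt]; exact hold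
      by_cases h0 : x0 = x
      · have h1 : x1 ≠ x := fun h => hne (h0.trans h.symm)
        have h2 := hx0.2.2.2
        rw [h0] at h2
        rw [if_pos h0, if_neg h1]
        omega
      · by_cases h1 : x1 = x
        · have h2 := hx1.2.2.2
          rw [h1] at h2
          rw [if_neg h0, if_pos h1]
          omega
        · rw [if_neg h0, if_neg h1]
          omega

end Crest.Agent.EG
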