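import Crest.Agent.EG.Main

set_option autoImplicit false

namespace Crest.Agent.EG
open Finset

private theorem final_mem_pE {V : Type} : ∀ (l : List V) (e : Sym2 V), e ∈ pE l → ∀ x ∈ e, x ∈ l
  | [], e, h => by simp [pE] at h
  | [_], e, h => by simp [pE] at h
  | a :: b :: l, e, h => by
      simp only [pE, List.mem_cons] at h
      intro x hx
      rcases h with h | h
      · subst h
        rcases Sym2.mem_iff.1 hx with h | h <;> simp [h]
      · exact List.mem_cons_of_mem _ (final_mem_pE (b :: l) e h x hx)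

private theorem final_walk {V : Type} (G : SimpleGraph V) : ∀ (t : List V) (a b : V),
    (∀ e ∈ pE (a :: (t ++ [b])), e ∈ G.edgeSet) →
    ∃ w : G.Walk a b, w.edges = pE (a :: (t ++ [b])) ∧ w.support = a :: (t ++ [b])
  | [], a, b, h => by
      have hab : G.Adj a b := by
        have := h s(a, b) (by simp [pE])
        simpa using this
      exact ⟨SimpleGraph.Walk.cons hab SimpleGraph.Walk.nil, by simp [pE], by simp⟩
  | c :: t, a, b, h => by
      have hac : G.Adj a c := by
        have := h s(a, c) (by simp [pE])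
        simpa using this
      obtain ⟨w, hw1, hw2⟩ := final_walk G t c b (fun e he => h e (by
        simp only [List.cons_append, pE, List.mem_cons]
        exact Or.inr he))
      refine ⟨SimpleGraph.Walk.cons hac w, ?_, ?_⟩
      · simp [pE, hw1]
      · simp [hw2]

private theorem final_cycle {V : Type} (G : SimpleGraph V) (a : V) (t : List V) (ht : 2 ≤ t.length)
    (hn : (a :: t).Nodup) (h : ∀ e ∈ pE (a :: (t ++ [a])), e ∈ G.edgeSet) :
    ∃ w : G.Walk a a, w.IsCycle ∧ w.edges = pE (a :: (t ++ [a])) := by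
  match t, ht, hn, h with
  | b :: c :: t, _, hn, h =>
    have hab : G.Adj a b := by
      have := h s(a, b) (by simp [pE])
      simpa using this
    obtain ⟨w, hw1, hw2⟩ := final_walk G (c :: t) b a (fun e he => h e (by
      simp only [List.cons_append, pE, List.mem_cons] at he ⊢
      exact Or.inr he))
    have hn' : (b :: (c :: t ++ [a])).Nodup := by
      have hp : (b :: (c :: t ++ [a])).Perm (a :: b :: c :: t) := by
        have : b :: (c :: t ++ [a]) = (b :: c :: t) ++ [a] := by simp
        rw [this]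
        exact List.perm_append_singleton a (b :: c :: t)
      exact hp.nodup_iff.2 hn
    refine ⟨SimpleGraph.Walk.cons hab w, ?_, ?_⟩
    · rw [SimpleGraph.Walk.cons_isCycle_iff]
      refine ⟨SimpleGraph.Walk.IsPath.mk' (by rw [hw2]; exact hn'), ?_⟩
      rw [hw1]
      intro hmem
      simp only [List.cons_append, pE, List.mem_cons] at hmem
      have hbn : b ∉ c :: (t ++ [a]) := by
        have := (List.nodup_cons.1 hn').1
        simpa using this
      rcases hmem with hmem | hmem
      · rw [Sym2.eq_iff] at hmem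
        have hane : a ≠ b ∧ a ≠ c := by
          have h1 := (List.nodup_cons.1 hn).1
          simp only [List.mem_cons, not_or] at h1
          exact ⟨h1.1, h1.2.1⟩
        rcases hmem with ⟨h1, _⟩ | ⟨h1, _⟩
        · exact hane.1 h1
        · exact hane.2 h1
      · exact hbn (final_mem_pE _ _ hmem b (by simp))
    · simp [pE, hw1]

/-- from `Dec` of the whole edge set to the labelling of S0064.
PROOF.  `C' = C + 1` (or `max`): `V` finite, `classical`.  If `Fintype.card V = 0`, `Sym2 V` is empty: `m = 0`.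
Otherwise `Dec G.edgeFinset (C |V|)` (`main` with `S = univ`) gives a list `L` of length `≤ C |V|`; take
`m = C |V| + 1 ≤ (C+1)|V|`, `f e =` index of the (unique) part containing `e`, and `f e = last` (`C|V|`) for non-edges.
For `i < L.length`: `G.edgeSet ∩ f⁻¹ {i} = L[i]`; otherwise it is empty.  `Good (L[i])`: a single edge, or
`IsCyc`: build the closed walk along `a :: (t ++ [a])` in `G` and prove `IsCycle`
(`SimpleGraph.Walk.IsCycle` from nodup tail support and length ≥ 3; e.g. prove `walk.edges = pE (a :: (t ++ [a]))`,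
`support = a :: (t ++ [a])`; `isCycle` via `SimpleGraph.Walk.isCycle_def`: trail, `≠ nil`, `support.tail.Nodup`;
edges nodup because vertices nodup and at least 3 vertices). -/
theorem final_of_main (hmain : ∃ C : ℕ, ∀ (V : Type) [DecidableEq V] (S : Finset V) (E : Finset (Sym2 V)),
    Supp E S → Dec E (C * S.card)) :
    ∃ C : ℝ, ∀ (V : Type) [Fintype V] (G : SimpleGraph V),
      ∃ (m : ℕ) (f : Sym2 V → Fin m), (m : ℝ) ≤ C * Fintype.card V ∧
        ∀ i, G.edgeSet ∩ f ⁻¹' {i} = ∅ ∨ (∃ e ∈ G.edgeSet, G.edgeSet ∩ f ⁻¹' {i} = {e}) ∨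
          (∃ (u : V) (w : G.Walk u u), w.IsCycle ∧ {e | e ∈ w.edges} = G.edgeSet ∩ f ⁻¹' {i}) := by
  obtain ⟨C, hC⟩ := hmain
  refine ⟨C + 1, fun V _ G => ?_⟩
  classical
  rcases Nat.eq_zero_or_pos (Fintype.card V) with h0 | hpos
  · haveI : IsEmpty V := Fintype.card_eq_zero_iff.1 h0
    refine ⟨0, fun e => ?_, by simp [h0], fun i => i.elim0⟩
    exact (isEmptyElim e : Fin 0)
  have hS : Supp G.edgeFinset (univ : Finset V) := by
    refine ⟨fun e _ => ?_, fun e he => ?_⟩
    · rw [Finset.mem_sym2_iff]; intro a _; exact mem_univ a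
    · exact G.not_isDiag_of_mem_edgeSet (SimpleGraph.mem_edgeFinset.1 he)
  obtain ⟨L, hLlen, hLgood, hLpw, hLmem⟩ := hC V univ G.edgeFinset hS
  rw [Finset.card_univ] at hLlen
  set N := C * Fintype.card V with hN
  let f : Sym2 V → Fin (N + 1) := fun e =>
    if h : ∃ i : ℕ, ∃ hi : i < L.length, e ∈ L[i] then
      ⟨Classical.choose h, by
        obtain ⟨hi, _⟩ := Classical.choose_spec h
        omega⟩
    else ⟨N, by omega⟩
  have hf : ∀ (e : Sym2 V) (i : ℕ) (hi : i < L.length), e ∈ L[i] → (f e : ℕ) = i := by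
    intro e i hi he
    have h : ∃ i : ℕ, ∃ hi : i < L.length, e ∈ L[i] := ⟨i, hi, he⟩
    have hfe : (f e : ℕ) = Classical.choose h := by
      simp only [f, dif_pos h]
    obtain ⟨hj, hje⟩ := Classical.choose_spec h
    rw [hfe]
    by_contra hne
    rcases Nat.lt_or_gt_of_ne hne with hlt | hlt
    · have := (List.pairwise_iff_getElem.1 hLpw) _ _ hj hi hlt
      exact (Finset.disjoint_left.1 this) hje he
    · have := (List.pairwise_iff_getElem.1 hLpw) _ _ hi hj hlt
      exact (Finset.disjoint_left.1 this) he hje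
  refine ⟨N + 1, f, ?_, fun i => ?_⟩
  · push_cast [hN]
    have : (1 : ℝ) ≤ Fintype.card V := by exact_mod_cast hpos
    nlinarith
  by_cases hi : (i : ℕ) < L.length
  · have heq : G.edgeSet ∩ f ⁻¹' {i} = (L[(i : ℕ)] : Finset (Sym2 V)) := by
      ext e
      simp only [Set.mem_inter_iff, Set.mem_preimage, Set.mem_singleton_iff, Finset.mem_coe]
      constructor
      · rintro ⟨he, hfe⟩
        obtain ⟨D, hD, heD⟩ := (hLmem e).1 (SimpleGraph.mem_edgeFinset.2 he)
        obtain ⟨j, hj, rfl⟩ := List.mem_iff_getElem.1 hD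
        have := hf e j hj heD
        rw [hfe] at this
        simp only [this]
        exact heD
      · intro he
        refine ⟨SimpleGraph.mem_edgeFinset.1 ((hLmem e).2 ⟨_, List.getElem_mem hi, he⟩), ?_⟩
        exact Fin.ext (hf e i hi he)
    have hsub : ∀ e ∈ L[(i : ℕ)], e ∈ G.edgeSet := fun e he =>
      SimpleGraph.mem_edgeFinset.1 ((hLmem e).2 ⟨_, List.getElem_mem hi, he⟩)
    rw [heq]
    rcases hLgood _ (List.getElem_mem hi) with ⟨e, _, he⟩ | ⟨a, t, ht, hn, he⟩
    · right; left
      refine ⟨e, hsub e (by rw [he]; simp), ?_⟩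
      rw [he]; simp
    · right; right
      obtain ⟨w, hw1, hw2⟩ := final_cycle G a t ht hn (fun e' he' => hsub e' (by
        rw [he]; simpa using he'))
      refine ⟨a, w, hw1, ?_⟩
      ext e'
      rw [he]
      simp [hw2]
  · left
    ext e
    simp only [Set.mem_inter_iff, Set.mem_preimage, Set.mem_singleton_iff, Set.mem_empty_iff_false,
      iff_false, not_and]
    intro he hfe
    obtain ⟨D, hD, heD⟩ := (hLmem e).1 (SimpleGraph.mem_edgeFinset.2 he)
    obtain ⟨j, hj, rfl⟩ := List.mem_iff_getElem.1 hD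
    have := hf e j hj heD
    rw [hfe] at this
    omega

end Crest.Agent.EG
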