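import Crest.Agent.EG.PPDMain

set_option autoImplicit false

namespace Crest.Agent.EG
open Finset

variable {V : Type} [DecidableEq V]

private lemma lov_exists_edge {W : Type} (x : W) : ∀ q : List W, 2 ≤ q.length → x ∈ q →
    ∃ e ∈ pE q, x ∈ e
  | [], h, _ => by simp at h
  | [_], h, _ => by simp at h
  | a :: b :: l, _, hx => by
    rcases List.mem_cons.1 hx with rfl | hx
    · exact ⟨s(x, b), by simp [pE], by simp⟩
    · rcases List.mem_cons.1 hx with rfl | hx'
      · exact ⟨s(a, x), by simp [pE], by simp⟩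
      · have hl : 2 ≤ (b :: l).length := by
          have := List.length_pos_of_mem hx'
          simp; omega
        obtain ⟨e, he, hxe⟩ := lov_exists_edge x (b :: l) hl hx
        exact ⟨e, by simp only [pE]; exact List.mem_cons_of_mem _ he, hxe⟩

private lemma lov_pE_map {U W : Type} (f : U → W) : ∀ p : List U,
    pE (p.map f) = (pE p).map (Sym2.map f)
  | [] => rfl
  | [_] => rfl
  | a :: b :: l => by
    have := lov_pE_map f (b :: l)
    simp only [List.map_cons, pE] at this ⊢
    rw [this]
    simp

private lemma lov_mem_pE_append {W : Type} (z : W) (l2 : List W) (e : Sym2 W) : ∀ l1 : List W,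
    e ∈ pE (l1 ++ z :: l2) ↔ e ∈ pE l1 ∨ (l1.getLast?.elim False (fun a => e = s(a, z))) ∨
      (l2.head?.elim False (fun b => e = s(z, b))) ∨ e ∈ pE l2
  | [] => by
    cases l2 with
    | nil => simp [pE]
    | cons b l => simp [pE]
  | [a] => by
    cases l2 with
    | nil => simp [pE]
    | cons b l => simp [pE]
  | a :: b :: l => by
    have ih := lov_mem_pE_append z l2 e (b :: l)
    have h1 : pE ((a :: b :: l) ++ z :: l2) = s(a, b) :: pE ((b :: l) ++ z :: l2) := by
      simp [pE]
    rw [h1, List.mem_cons, ih]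
    have h2 : pE (a :: b :: l) = s(a, b) :: pE (b :: l) := rfl
    rw [h2, List.mem_cons]
    have h3 : (a :: b :: l).getLast? = (b :: l).getLast? := by simp [List.getLast?_cons_cons]
    rw [h3]
    tauto

private lemma lov_getLast {W : Type} (z : W) (l1 l2 : List W) (h : l2 ≠ []) :
    (l1 ++ z :: l2).getLast? = l2.getLast? := by
  obtain ⟨b, l, rfl⟩ := List.exists_cons_of_ne_nil h
  rw [List.getLast?_append, List.getLast?_cons_cons, List.getLast?_eq_some_getLast (by simp)]
  rfl

private lemma lov_preimage {N : Type} (l : List (V ⊕ N)) (h : ∀ x ∈ l, ∃ v : V, x = Sum.inl v) :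
    ∃ p : List V, l = p.map Sum.inl := by
  induction l with
  | nil => exact ⟨[], rfl⟩
  | cons a l ih =>
    obtain ⟨v, hv⟩ := h a (by simp)
    obtain ⟨p, hp⟩ := ih (fun x hx => h x (by simp [hx]))
    exact ⟨v :: p, by simp [hv, hp]⟩

private lemma lov_pE_short {W : Type} : ∀ p : List W, ¬ 2 ≤ p.length → pE p = []
  | [], _ => rfl
  | [_], _ => rfl
  | a :: b :: l, h => by simp at h

private lemma lov_mem_of_pE {W : Type} (e : Sym2 W) (x : W) (hx : x ∈ e) : ∀ p : List W,
    e ∈ pE p → x ∈ p
  | [], h => by simp [pE] at h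
  | [_], h => by simp [pE] at h
  | a :: b :: l, h => by
    rcases List.mem_cons.1 (show e ∈ s(a, b) :: pE (b :: l) from h) with rfl | h'
    · rcases Sym2.mem_iff.1 hx with rfl | rfl <;> simp
    · exact List.mem_cons_of_mem _ (lov_mem_of_pE e x hx (b :: l) h')

private lemma lov_step (z : ℕ) (q : List (V ⊕ ℕ)) (hnd : q.Nodup) (hlen : 2 ≤ q.length)
    (hform : ∀ x ∈ q, x = Sum.inr z ∨ ∃ v : V, x = Sum.inl v) :
    ∃ L : List (List V), (∀ p ∈ L, p.Nodup ∧ 2 ≤ p.length) ∧
      L.Pairwise (fun p p' => ∀ e ∈ pE p, e ∉ pE p') ∧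
      (∀ e : Sym2 V, Sym2.map Sum.inl e ∈ pE q ↔ ∃ p ∈ L, e ∈ pE p) ∧
      ∀ v : V, nEnd L v ≤ nEnd [q] (Sum.inl v) +
        [q].countP (fun q => decide (s(Sum.inl v, Sum.inr z) ∈ pE q)) := by
  have hinj : Function.Injective (Sym2.map (Sum.inl : V → V ⊕ ℕ)) :=
    Sym2.map.injective Sum.inl_injective
  have hnz : ∀ (e : Sym2 V) (x : V ⊕ ℕ), Sym2.map Sum.inl e ≠ s(x, Sum.inr z) := by
    intro e x h
    have : (Sum.inr z : V ⊕ ℕ) ∈ Sym2.map (Sum.inl : V → V ⊕ ℕ) e := by rw [h]; simp
    rw [Sym2.mem_map] at this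
    obtain ⟨a, _, ha⟩ := this
    simp at ha
  by_cases hz : (Sum.inr z : V ⊕ ℕ) ∈ q
  · obtain ⟨l1, l2, rfl⟩ := List.append_of_mem hz
    rw [List.nodup_append] at hnd
    obtain ⟨hnd1, hnd2, hdis⟩ := hnd
    rw [List.nodup_cons] at hnd2
    have hf1 : ∀ x ∈ l1, ∃ v : V, x = Sum.inl v := by
      intro x hx
      rcases hform x (by simp [hx]) with h | h
      · exact absurd (hdis x hx (Sum.inr z) (by simp)) (by simp [h])
      · exact h
    have hf2 : ∀ x ∈ l2, ∃ v : V, x = Sum.inl v := by
      intro x hx
      rcases hform x (by simp [hx]) with h | h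
      · exact absurd hx (by rw [h]; exact hnd2.1)
      · exact h
    obtain ⟨p1, rfl⟩ := lov_preimage l1 hf1
    obtain ⟨p2, rfl⟩ := lov_preimage l2 hf2
    have hn1 : p1.Nodup := List.Nodup.of_map _ hnd1
    have hn2 : p2.Nodup := List.Nodup.of_map _ hnd2.2
    have hd12 : ∀ v, v ∈ p1 → v ∈ p2 → False := by
      intro v h1 h2
      exact hdis (Sum.inl v) (List.mem_map_of_mem h1) (Sum.inl v)
        (by simp [h2]) rfl
    have hedge : ∀ e : Sym2 V, Sym2.map Sum.inl e ∈
        pE (p1.map Sum.inl ++ (Sum.inr z : V ⊕ ℕ) :: p2.map Sum.inl) ↔ e ∈ pE p1 ∨ e ∈ pE p2 := by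
      intro e
      rw [lov_mem_pE_append, lov_pE_map, lov_pE_map, List.mem_map_of_injective hinj,
        List.mem_map_of_injective hinj]
      constructor
      · rintro (h | h | h | h)
        · exact Or.inl h
        · exfalso
          cases h' : (List.map (Sum.inl : V → V ⊕ ℕ) p1).getLast? with
          | none => rw [h'] at h; exact h
          | some a => rw [h'] at h; exact hnz e a h
        · exfalso
          cases h' : (List.map (Sum.inl : V → V ⊕ ℕ) p2).head? with
          | none => rw [h'] at h; exact h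
          | some a => rw [h'] at h; exact hnz e a (by rw [Sym2.eq_swap]; exact h)
        · exact Or.inr h
      · rintro (h | h)
        · exact Or.inl h
        · exact Or.inr (Or.inr (Or.inr h))
    refine ⟨[p1, p2].filter (fun p => decide (2 ≤ p.length)), ?_, ?_, ?_, ?_⟩
    · intro p hp
      rw [List.mem_filter] at hp
      obtain ⟨hp, hl⟩ := hp
      simp only [List.mem_cons, List.not_mem_nil, or_false] at hp
      refine ⟨?_, by simpa using hl⟩
      rcases hp with rfl | rfl
      · exact hn1
      · exact hn2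
    · apply List.Pairwise.filter
      rw [List.pairwise_pair]
      intro e h1 h2
      induction e using Sym2.ind with
      | _ x y =>
        exact hd12 x (lov_mem_of_pE _ x (by simp) _ h1) (lov_mem_of_pE _ x (by simp) _ h2)
    · intro e
      rw [hedge]
      constructor
      · rintro (h | h)
        · have hl : 2 ≤ p1.length := by
            by_contra hc
            rw [lov_pE_short p1 hc] at h
            simp at h
          exact ⟨p1, by simp [List.mem_filter, hl], h⟩
        · have hl : 2 ≤ p2.length := by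
            by_contra hc
            rw [lov_pE_short p2 hc] at h
            simp at h
          exact ⟨p2, by simp [List.mem_filter, hl], h⟩
      · rintro ⟨p, hp, h⟩
        rw [List.mem_filter] at hp
        have hp := hp.1
        simp only [List.mem_cons, List.not_mem_nil, or_false] at hp
        rcases hp with rfl | rfl
        · exact Or.inl h
        · exact Or.inr h
    · intro v
      have H1 : p1.head? = some v →
          (p1.map Sum.inl ++ (Sum.inr z : V ⊕ ℕ) :: p2.map Sum.inl).head? = some (Sum.inl v) := by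
        intro h
        cases p1 with
        | nil => simp at h
        | cons a l => simp at h; simp [h]
      have H2 : p2.getLast? = some v →
          (p1.map Sum.inl ++ (Sum.inr z : V ⊕ ℕ) :: p2.map Sum.inl).getLast? =
            some (Sum.inl v) := by
        intro h
        have hne : p2 ≠ [] := by rintro rfl; simp at h
        rw [lov_getLast _ _ _ (by simpa using hne), List.getLast?_map, h]
        rfl
      have H3 : p1.getLast? = some v → s((Sum.inl v : V ⊕ ℕ), Sum.inr z) ∈
          pE (p1.map Sum.inl ++ (Sum.inr z : V ⊕ ℕ) :: p2.map Sum.inl) := by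
        intro h
        rw [lov_mem_pE_append]
        right; left
        rw [List.getLast?_map, h]
        rfl
      have H4 : p2.head? = some v → s((Sum.inl v : V ⊕ ℕ), Sum.inr z) ∈
          pE (p1.map Sum.inl ++ (Sum.inr z : V ⊕ ℕ) :: p2.map Sum.inl) := by
        intro h
        rw [lov_mem_pE_append]
        right; right; left
        rw [List.head?_map, h]
        exact Sym2.eq_swap
      have H5 : p1.getLast? = some v → p2.head? = some v → False := by
        intro h h'
        exact hd12 v (List.mem_of_getLast? h) (List.mem_of_head? h')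
      have e1 : nEnd ([p1, p2].filter (fun p => decide (2 ≤ p.length))) v ≤
          ((if p1.head? = some v then 1 else 0) + (if p2.head? = some v then 1 else 0)) +
          ((if p1.getLast? = some v then 1 else 0) + (if p2.getLast? = some v then 1 else 0)) := by
        unfold nEnd
        have hc : ∀ f : List V → Bool, ([p1, p2].filter (fun p => decide (2 ≤ p.length))).countP f ≤
            (if f p1 then 1 else 0) + (if f p2 then 1 else 0) := by
          intro f
          refine le_trans (List.Sublist.countP_le (List.filter_sublist)) ?_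
          simp [List.countP_cons]
          omega
        refine le_trans (Nat.add_le_add (hc _) (hc _)) ?_
        simp
      refine le_trans e1 ?_
      clear e1 hedge hinj hnz hd12 hdis hf1 hf2 hform
      generalize (p1.map Sum.inl ++ (Sum.inr z : V ⊕ ℕ) :: p2.map Sum.inl) = Q at *
      have a1 : (if p1.head? = some v then 1 else 0) ≤
          (if Q.head? = some (Sum.inl v) then 1 else 0) := by
        by_cases h : p1.head? = some v
        · rw [if_pos h, if_pos (H1 h)]
        · rw [if_neg h]; exact Nat.zero_le _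
      have a2 : (if p2.getLast? = some v then 1 else 0) ≤
          (if Q.getLast? = some (Sum.inl v) then 1 else 0) := by
        by_cases h : p2.getLast? = some v
        · rw [if_pos h, if_pos (H2 h)]
        · rw [if_neg h]; exact Nat.zero_le _
      have a3 : (if p1.getLast? = some v then 1 else 0) + (if p2.head? = some v then 1 else 0) ≤
          (if s((Sum.inl v : V ⊕ ℕ), Sum.inr z) ∈ pE Q then 1 else 0) := by
        by_cases h : p1.getLast? = some v
        · rw [if_pos h, if_pos (H3 h), if_neg (fun h' => H5 h h')]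
        · rw [if_neg h]
          by_cases h' : p2.head? = some v
          · rw [if_pos h', if_pos (H4 h')]
          · rw [if_neg h']; exact Nat.zero_le _
      have b1 : nEnd [Q] (Sum.inl v) = (if Q.head? = some (Sum.inl v) then 1 else 0) +
          (if Q.getLast? = some (Sum.inl v) then 1 else 0) := by
        simp [nEnd, List.countP_cons]
      have b2 : [Q].countP (fun q => decide (s((Sum.inl v : V ⊕ ℕ), Sum.inr z) ∈ pE q)) =
          (if s((Sum.inl v : V ⊕ ℕ), Sum.inr z) ∈ pE Q then 1 else 0) := by
        simp [List.countP_cons]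
      rw [b1, b2]
      linarith
  · have hf : ∀ x ∈ q, ∃ v : V, x = Sum.inl v := by
      intro x hx
      rcases hform x hx with h | h
      · exact absurd hx (by rw [h]; exact hz)
      · exact h
    obtain ⟨p, rfl⟩ := lov_preimage q hf
    refine ⟨[p], ?_, by simp, ?_, ?_⟩
    · intro p' hp'
      rw [List.mem_singleton] at hp'
      subst hp'
      exact ⟨List.Nodup.of_map _ hnd, by simpa using hlen⟩
    · intro e
      rw [lov_pE_map, List.mem_map_of_injective hinj]
      simp
    · intro v
      refine le_trans (le_of_eq ?_) (Nat.le_add_right _ _)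
      simp [nEnd, List.countP_cons]

private lemma lov_all (z : ℕ) (Qs : List (List (V ⊕ ℕ)))
    (hQ : ∀ q ∈ Qs, q.Nodup ∧ 2 ≤ q.length)
    (hform : ∀ q ∈ Qs, ∀ x ∈ q, x = Sum.inr z ∨ ∃ v : V, x = Sum.inl v)
    (hpw : Qs.Pairwise (fun p p' => ∀ e ∈ pE p, e ∉ pE p')) :
    ∃ L : List (List V), (∀ p ∈ L, p.Nodup ∧ 2 ≤ p.length) ∧
      L.Pairwise (fun p p' => ∀ e ∈ pE p, e ∉ pE p') ∧
      (∀ e : Sym2 V, (∃ q ∈ Qs, Sym2.map Sum.inl e ∈ pE q) ↔ ∃ p ∈ L, e ∈ pE p) ∧
      ∀ v : V, nEnd L v ≤ nEnd Qs (Sum.inl v) +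
        Qs.countP (fun q => decide (s(Sum.inl v, Sum.inr z) ∈ pE q)) := by
  induction Qs with
  | nil => exact ⟨[], by simp, by simp, by simp, by simp [nEnd]⟩
  | cons q Qs ih =>
    rw [List.pairwise_cons] at hpw
    obtain ⟨L, hL1, hL2, hL3, hL4⟩ := ih (fun q' h => hQ q' (by simp [h]))
      (fun q' h => hform q' (by simp [h])) hpw.2
    obtain ⟨M, hM1, hM2, hM3, hM4⟩ := lov_step z q (hQ q (by simp)).1 (hQ q (by simp)).2
      (hform q (by simp))
    refine ⟨M ++ L, ?_, ?_, ?_, ?_⟩
    · intro p hp
      rcases List.mem_append.1 hp with h | h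
      · exact hM1 p h
      · exact hL1 p h
    · rw [List.pairwise_append]
      refine ⟨hM2, hL2, ?_⟩
      intro p hp p' hp' e he he'
      obtain ⟨q', hq', h'⟩ := (hL3 e).2 ⟨p', hp', he'⟩
      exact hpw.1 q' hq' _ ((hM3 e).2 ⟨p, hp, he⟩) h'
    · intro e
      constructor
      · rintro ⟨q', hq', h⟩
        rcases List.mem_cons.1 hq' with rfl | hq'
        · obtain ⟨p, hp, hpe⟩ := (hM3 e).1 h
          exact ⟨p, by simp [hp], hpe⟩
        · obtain ⟨p, hp, hpe⟩ := (hL3 e).1 ⟨q', hq', h⟩
          exact ⟨p, by simp [hp], hpe⟩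
      · rintro ⟨p, hp, hpe⟩
        rcases List.mem_append.1 hp with h | h
        · exact ⟨q, by simp, (hM3 e).2 ⟨p, h, hpe⟩⟩
        · obtain ⟨q', hq', h'⟩ := (hL3 e).2 ⟨p, h, hpe⟩
          exact ⟨q', by simp [hq'], h'⟩
    · intro v
      have h1 := hM4 v
      have h2 := hL4 v
      have e1 : nEnd (M ++ L) v = nEnd M v + nEnd L v := by
        simp only [nEnd, List.countP_append]; omega
      have e2 : nEnd (q :: Qs) (Sum.inl v : V ⊕ ℕ) = nEnd [q] (Sum.inl v) + nEnd Qs (Sum.inl v) := by
        have := List.countP_append (p := fun p : List (V ⊕ ℕ) => decide (p.head? = some (Sum.inl v)))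
          (l₁ := [q]) (l₂ := Qs)
        have := List.countP_append (p := fun p : List (V ⊕ ℕ) => decide (p.getLast? = some (Sum.inl v)))
          (l₁ := [q]) (l₂ := Qs)
        simp only [List.singleton_append] at *
        simp only [nEnd] at *
        omega
      have e3 : (q :: Qs).countP (fun q => decide (s((Sum.inl v : V ⊕ ℕ), Sum.inr z) ∈ pE q)) =
          [q].countP (fun q => decide (s(Sum.inl v, Sum.inr z) ∈ pE q)) +
          Qs.countP (fun q => decide (s(Sum.inl v, Sum.inr z) ∈ pE q)) := by
        rw [← List.countP_append, List.singleton_append]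
      rw [e1, e2, e3]
      omega

/-- (A) LOVÁSZ PATH DECOMPOSITION.  PROOF.  Embed `V` into the infinite type `W = V ⊕ ℕ` (or `Option (V ⊕ ℕ)`), map `E` to it,
add a new vertex `z` (e.g. `Sum.inr 0`) joined to all vertices of even positive degree of `E`.  Apply `ppd` (all
vertices except `z` now have odd degree or `0`).  Now delete `z`: a path containing `z` is `l1 ++ z :: l2`; keep those of
`l1, l2` which have length `≥ 2` (at least one edge), drop the others.  All remaining vertices are of the form
`Sum.inl v` (only vertices of positive degree occur).  A vertex `v ≠ z` is an end of at most one path before,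
and of at most one new piece created by deleting `z` (the piece ending at `v` adjacent to `z`: there is only one edge `vz`).
So it is an end at most twice in the new family. -/
theorem lovasz (E : Finset (Sym2 V)) (hE : ∀ e ∈ E, ¬ e.IsDiag) :
    ∃ Ps : List (List V), (∀ p ∈ Ps, p.Nodup ∧ 2 ≤ p.length) ∧
      Ps.Pairwise (fun p p' => ∀ e ∈ pE p, e ∉ pE p') ∧
      (∀ e, e ∈ E ↔ ∃ p ∈ Ps, e ∈ pE p) ∧ ∀ v, nEnd Ps v ≤ 2 := by
  classical
  -- the vertices of even positive degree
  set T : Finset V := (E.biUnion Sym2.toFinset).filter (fun v => dg E v % 2 = 0) with hT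
  set i : Sym2 V → Sym2 (V ⊕ ℕ) := Sym2.map Sum.inl with hi
  have hinj : Function.Injective i := Sym2.map.injective Sum.inl_injective
  set E' : Finset (Sym2 (V ⊕ ℕ)) := E.image i ∪ T.image (fun v => s(Sum.inl v, Sum.inr 0)) with hE'
  have hnz : ∀ (e : Sym2 V) (x : V ⊕ ℕ) (n : ℕ), i e ≠ s(x, Sum.inr n) := by
    intro e x n h
    have : (Sum.inr n : V ⊕ ℕ) ∈ i e := by rw [h]; simp
    rw [hi, Sym2.mem_map] at this
    obtain ⟨a, _, ha⟩ := this
    simp at ha
  have hdgpos : ∀ v, 0 < dg E v ↔ v ∈ E.biUnion Sym2.toFinset := by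
    intro v
    rw [dg, Finset.card_pos, Finset.mem_biUnion]
    constructor
    · rintro ⟨e, he⟩
      rw [Finset.mem_filter] at he
      exact ⟨e, he.1, by simpa using he.2⟩
    · rintro ⟨e, he, hv⟩
      exact ⟨e, Finset.mem_filter.2 ⟨he, by simpa using hv⟩⟩
  -- degrees in the new graph
  have hdg : ∀ v : V, dg E' (Sum.inl v) = dg E v + (if v ∈ T then 1 else 0) := by
    intro v
    have hsplit : E'.filter (fun e => (Sum.inl v : V ⊕ ℕ) ∈ e) =
        (E.filter (fun e => v ∈ e)).image i ∪
          (if v ∈ T then {s((Sum.inl v : V ⊕ ℕ), Sum.inr 0)} else ∅) := by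
      ext e
      simp only [hE', Finset.mem_filter, Finset.mem_union, Finset.mem_image]
      constructor
      · rintro ⟨⟨e0, he0, rfl⟩ | ⟨w, hw, rfl⟩, hv⟩
        · left
          refine ⟨e0, ⟨he0, ?_⟩, rfl⟩
          rw [hi, Sym2.mem_map] at hv
          obtain ⟨a, ha, hav⟩ := hv
          rw [Sum.inl.inj hav] at ha
          exact ha
        · right
          have : v = w := by
            rcases Sym2.mem_iff.1 hv with h | h
            · exact Sum.inl.inj h
            · simp at h
          subst this
          simp [hw]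
      · rintro (⟨e0, ⟨he0, hv⟩, rfl⟩ | h)
        · refine ⟨Or.inl ⟨e0, he0, rfl⟩, ?_⟩
          rw [hi, Sym2.mem_map]
          exact ⟨v, hv, rfl⟩
        · split_ifs at h with hv
          · rw [Finset.mem_singleton] at h
            subst h
            exact ⟨Or.inr ⟨v, hv, rfl⟩, by simp⟩
          · simp at h
    rw [dg, hsplit, Finset.card_union_of_disjoint, Finset.card_image_of_injective _ hinj, dg]
    · congr 1
      split_ifs <;> simp
    · rw [Finset.disjoint_left]
      intro e he he'
      rw [Finset.mem_image] at he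
      obtain ⟨e0, _, rfl⟩ := he
      split_ifs at he' with hv
      · rw [Finset.mem_singleton] at he'
        exact hnz _ _ _ he'
      · simp at he'
  have hdgr : ∀ n : ℕ, n ≠ 0 → dg E' (Sum.inr n) = 0 := by
    intro n hn
    rw [dg, Finset.card_eq_zero, Finset.filter_eq_empty_iff]
    intro e he hne
    rw [hE', Finset.mem_union, Finset.mem_image, Finset.mem_image] at he
    rcases he with ⟨e0, _, rfl⟩ | ⟨w, _, rfl⟩
    · rw [hi, Sym2.mem_map] at hne
      obtain ⟨a, _, ha⟩ := hne
      simp at ha
    · rcases Sym2.mem_iff.1 hne with h | h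
      · simp at h
      · exact hn (Sum.inr.inj h)
  have hodd : ∀ v : V, 0 < dg E' (Sum.inl v) → dg E' (Sum.inl v) % 2 = 0 → False := by
    intro v h1 h2
    rw [hdg] at h1 h2
    by_cases hv : v ∈ T
    · rw [if_pos hv] at h2
      rw [hT, Finset.mem_filter] at hv
      omega
    · rw [if_neg hv] at h1 h2
      apply hv
      rw [hT, Finset.mem_filter]
      exact ⟨(hdgpos v).1 h1, h2⟩
  have hz : ∀ x : V ⊕ ℕ, 0 < dg E' x → dg E' x % 2 = 0 → x = Sum.inr 0 := by
    intro x h1 h2
    rcases x with v | n
    · exact (hodd v h1 h2).elim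
    · by_cases hn : n = 0
      · rw [hn]
      · rw [hdgr n hn] at h1
        omega
  obtain ⟨Qs, hQ1, hQ2, hQ3, hQ4⟩ := ppd (inferInstance : Infinite (V ⊕ ℕ)) E' (by
    intro e he
    rw [hE', Finset.mem_union, Finset.mem_image, Finset.mem_image] at he
    rcases he with ⟨e0, he0, rfl⟩ | ⟨w, _, rfl⟩
    · have := hE e0 he0
      induction e0 using Sym2.ind with
      | _ x y => simpa [hi] using this
    · simp) (fun x y hx hx' hy hy' => by rw [hz x hx hx', hz y hy hy'])
  have hform : ∀ q ∈ Qs, ∀ x ∈ q, x = Sum.inr 0 ∨ ∃ v : V, x = Sum.inl v := by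
    intro q hq x hx
    obtain ⟨e, he, hxe⟩ := lov_exists_edge x q (hQ1 q hq).2 hx
    have heE : e ∈ E' := (hQ3 e).2 ⟨q, hq, he⟩
    rw [hE', Finset.mem_union, Finset.mem_image, Finset.mem_image] at heE
    rcases heE with ⟨e0, he0, rfl⟩ | ⟨w, _, rfl⟩
    · rw [hi, Sym2.mem_map] at hxe
      obtain ⟨a, _, ha⟩ := hxe
      exact Or.inr ⟨a, ha.symm⟩
    · rcases Sym2.mem_iff.1 hxe with h | h
      · exact Or.inr ⟨w, h⟩
      · exact Or.inl h
  obtain ⟨L, hL1, hL2, hL3, hL4⟩ := lov_all 0 Qs hQ1 hform hQ2
  refine ⟨L, hL1, hL2, ?_, ?_⟩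
  · intro e
    rw [← hL3 e, ← hQ3 (Sym2.map Sum.inl e), hE', Finset.mem_union, Finset.mem_image,
      Finset.mem_image]
    constructor
    · intro he
      exact Or.inl ⟨e, he, rfl⟩
    · rintro (⟨e0, he0, h⟩ | ⟨w, _, h⟩)
      · rwa [← hinj h]
      · exact (hnz _ _ _ h.symm).elim
  · intro v
    refine le_trans (hL4 v) ?_
    have h1 : nEnd Qs (Sum.inl v) ≤ 1 := by
      rw [hQ4]; omega
    have h2 : Qs.countP (fun q => decide (s((Sum.inl v : V ⊕ ℕ), Sum.inr 0) ∈ pE q)) ≤ 1 := by
      clear hL1 hL2 hL3 hL4 hform hQ1 hQ3 hQ4 h1 L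
      induction Qs with
      | nil => simp
      | cons q Qs ih =>
        rw [List.pairwise_cons] at hQ2
        rw [List.countP_cons]
        by_cases hq : s((Sum.inl v : V ⊕ ℕ), Sum.inr 0) ∈ pE q
        · have : Qs.countP (fun q => decide (s((Sum.inl v : V ⊕ ℕ), Sum.inr 0) ∈ pE q)) = 0 := by
            rw [List.countP_eq_zero]
            intro q' hq'
            simpa using hQ2.1 q' hq' _ hq
          rw [this]
          simp [hq]
        · simpa [hq] using ih hQ2.2
    omega

end Crest.Agent.EG
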