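import Crest.Agent.EG.Split
import Crest.Agent.EG.Entry
import Crest.Agent.EG.CloseUp
import Crest.Agent.EG.Lovasz

set_option autoImplicit false

namespace Crest.Agent.EG
open Finset

set_option linter.unusedSectionVars false

variable {V : Type} [DecidableEq V]

/-- the entry edges -/
private def hdN (A : Finset V) (f : V → Fin 2 → V) : Finset (Sym2 V) :=
  (A ×ˢ (univ : Finset (Fin 2))).image (fun p => s(p.1, f p.1 p.2))

private lemma hd_mem_N {A : Finset V} {f : V → Fin 2 → V} {e : Sym2 V} :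
    e ∈ hdN A f ↔ ∃ a ∈ A, ∃ i, s(a, f a i) = e := by
  unfold hdN
  rw [mem_image]
  constructor
  · rintro ⟨p, hp, rfl⟩
    exact ⟨p.1, (mem_product.1 hp).1, p.2, rfl⟩
  · rintro ⟨a, ha, i, rfl⟩
    exact ⟨(a, i), mem_product.2 ⟨ha, mem_univ _⟩, rfl⟩

private lemma hd_dg_N {A W : Finset V} {f : V → Fin 2 → V} {t : ℕ}
    (hf : ∀ a ∈ A, ∀ i, f a i ∈ W)
    (hload : ∀ x ∈ W, ((A ×ˢ (univ : Finset (Fin 2))).filter (fun p => f p.1 p.2 = x)).card ≤ t)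
    (v : V) : dg (hdN A f) v ≤ 2 + t := by
  unfold dg
  have hsub : (hdN A f).filter (fun e => v ∈ e) ⊆
      (((univ : Finset (Fin 2)).image (fun i => s(v, f v i))) ∪
      (((A ×ˢ (univ : Finset (Fin 2))).filter (fun p => f p.1 p.2 = v)).image
        (fun p => s(p.1, f p.1 p.2)))) := by
    intro e he
    rw [mem_filter, hd_mem_N] at he
    obtain ⟨⟨a, ha, i, rfl⟩, hv⟩ := he
    rw [Sym2.mem_iff] at hv
    rw [mem_union]
    rcases hv with rfl | hv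
    · left
      exact mem_image.2 ⟨i, mem_univ _, rfl⟩
    · right
      refine mem_image.2 ⟨(a, i), ?_, rfl⟩
      rw [mem_filter]
      exact ⟨mem_product.2 ⟨ha, mem_univ _⟩, hv.symm⟩
  refine (card_le_card hsub).trans ((card_union_le _ _).trans ?_)
  have h1 : ((univ : Finset (Fin 2)).image (fun i => s(v, f v i))).card ≤ 2 :=
    card_image_le.trans (by simp)
  have h2 : (((A ×ˢ (univ : Finset (Fin 2))).filter (fun p => f p.1 p.2 = v)).image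
        (fun p => s(p.1, f p.1 p.2))).card ≤ t := by
    refine card_image_le.trans ?_
    by_cases hv : v ∈ W
    · exact hload v hv
    · have : (A ×ˢ (univ : Finset (Fin 2))).filter (fun p => f p.1 p.2 = v) = ∅ := by
        rw [filter_eq_empty_iff]
        intro p hp h
        exact hv (h ▸ hf p.1 (mem_product.1 hp).1 p.2)
      rw [this]
      simp
  omega

private lemma hd_pE {p : List V} (hp : 2 ≤ p.length) {v : V} (hv : v ∈ p) :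
    ∃ e ∈ pE p, v ∈ e := by
  induction p with
  | nil => simp at hp
  | cons a l ih =>
    cases l with
    | nil => simp at hp
    | cons b l =>
      rcases List.mem_cons.1 hv with rfl | hv
      · exact ⟨s(v, b), by simp [pE], by simp⟩
      · cases l with
        | nil =>
          rw [List.mem_singleton] at hv
          subst hv
          exact ⟨s(a, v), by simp [pE], by simp⟩
        | cons c l =>
          obtain ⟨e, he, hve⟩ := ih (by simp) hv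
          refine ⟨e, ?_, hve⟩
          rw [pE]
          exact List.mem_cons_of_mem _ he

private lemma hd_three {e : Sym2 V} {u v w : V} (hv : v ∈ e) (hw : w ∈ e) (hu : u ∈ e) :
    v = w ∨ v = u ∨ w = u := by
  induction e using Sym2.ind with
  | _ x y =>
    rw [Sym2.mem_iff] at hv hw hu
    rcases hv with rfl | rfl <;> rcases hw with rfl | rfl <;> rcases hu with rfl | rfl <;> simp

private lemma hd_CD {M : ℕ} {E : Finset (Sym2 V)} {W : Finset V} (h : CD M E W) :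
    CD M (E ∩ W.sym2) W := by
  intro A hA
  refine (h A hA).trans ?_
  refine Nat.mul_le_mul_left _ ?_
  unfold eb
  refine card_le_card ?_
  intro p hp
  rw [mem_filter] at hp ⊢
  refine ⟨hp.1, mem_inter.2 ⟨hp.2, ?_⟩⟩
  have h1 := mem_product.1 hp.1
  rw [mk_mem_sym2_iff]
  exact ⟨hA h1.1, (mem_sdiff.1 h1.2).1⟩

/-- one of the three parts -/
private lemma hd_part (M1 t : ℕ) (hM : 1 ≤ M1) (ht : 1 ≤ t) (E : Finset (Sym2 V)) (S W : Finset V)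
    (hS : Supp E S) (hCD : CD M1 E W)
    (hW1 : 64 * M1 * (t + 3) ≤ W.card) (hW2 : 10000 * M1 ^ 3 * S.card ≤ W.card ^ 2)
    (Ml : Finset (Sym2 V)) (hMl : ∀ e ∈ Ml, ¬ e.IsDiag ∧ ∀ v ∈ e, v ∈ S \ W)
    (f : V → Fin 2 → V) (hf : ∀ a ∈ S \ W, ∀ i, f a i ∈ W) (hf2 : ∀ a ∈ S \ W, f a 0 ≠ f a 1)
    (hload : ∀ x ∈ W, (((S \ W) ×ˢ (univ : Finset (Fin 2))).filter
      (fun p => f p.1 p.2 = x)).card ≤ t) :
    ∃ U ⊆ E ∩ W.sym2, Dec (Ml ∪ hdN (S \ W) f ∪ U) (3 * S.card) := by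
  obtain ⟨Ps, hP1, hP2, hP3, hP4⟩ := lovasz Ml (fun e he => (hMl e he).1)
  have hcard : (S \ W).card ≤ S.card := card_le_card sdiff_subset
  have hSupp : Supp (E ∩ W.sym2) W :=
    ⟨inter_subset_right, fun e he => hS.2 e (mem_inter.1 he).1⟩
  obtain ⟨U, hU, hD⟩ := closeUp M1 t hM ht (E ∩ W.sym2) (S \ W) W sdiff_disjoint hSupp
    (hd_CD hCD) hW1 ((Nat.mul_le_mul_left _ hcard).trans hW2) Ps
    (fun p hp => ⟨(hP1 p hp).1, (hP1 p hp).2, fun v hv => by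
      obtain ⟨e, he, hve⟩ := hd_pE (hP1 p hp).2 hv
      exact (hMl e ((hP3 e).2 ⟨p, hp, he⟩)).2 v hve⟩) hP2 hP4 f hf hf2 hload
  refine ⟨U, hU, ?_⟩
  have hMeq : (Ps.flatMap pE).toFinset = Ml := by
    ext e
    rw [List.mem_toFinset, List.mem_flatMap, hP3]
  rw [hMeq] at hD
  exact hD.mono (Nat.mul_le_mul_left _ hcard)

private lemma hd_num {P k w : ℕ} (hP : 12 ≤ P) (hk : P ^ 100 ≤ k) (hw : k ≤ 2 * P * w) :
    P ^ 98 ≤ w := by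
  have h1 : P ^ 2 * P ^ 98 ≤ P ^ 2 * w := by
    calc P ^ 2 * P ^ 98 = P ^ 100 := by rw [← pow_add]
      _ ≤ k := hk
      _ ≤ 2 * P * w := hw
      _ ≤ P ^ 2 * w := Nat.mul_le_mul_right _ (by nlinarith)
  exact Nat.le_of_mul_le_mul_left h1 (by positivity)

set_option linter.unusedVariables false in
private theorem hd_p1 (E N0 N1 N2 I0 I1 I2 M0 M1 M2 U0 U1 U2 Er : Prop)
  (hEr : Er ↔ ((E ∧ ¬ ((N0 ∨ N1) ∨ N2)) ∧ ¬ ((I0 ∨ I1) ∨ I2)))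
  (hI0 : I0 → E) (hI1 : I1 → E) (hI2 : I2 → E)
  (hN0 : N0 → E) (hN1 : N1 → E) (hN2 : N2 → E)
  (q2 : N0 → ¬ N1 ∧ ¬ N2 ∧ ¬ I0 ∧ ¬ I1 ∧ ¬ I2)
  (q3 : N1 → ¬ N2 ∧ ¬ I0 ∧ ¬ I1 ∧ ¬ I2) (q4 : N2 → ¬ I0 ∧ ¬ I1 ∧ ¬ I2)
  (q5 : I0 → ¬ I1 ∧ ¬ I2) (q6 : I1 → ¬ I2)
  (q7 : M0 → Er ∧ ¬ M1 ∧ ¬ M2) (q8 : M1 → Er ∧ ¬ M2) (q9 : M2 → Er)
  (hc : Er → M0 ∨ M1 ∨ M2)
  (hU0 : U0 → I0) (hU1 : U1 → I1) (hU2 : U2 → I2) :
  (E ∧ ¬ ((I0 ∧ ¬ ((U0 ∨ U1) ∨ U2) ∨ I1 ∧ ¬ ((U0 ∨ U1) ∨ U2)) ∨ I2 ∧ ¬ ((U0 ∨ U1) ∨ U2))) ↔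
  ((((M0 ∨ N0) ∨ U0) ∨ (M1 ∨ N1) ∨ U1) ∨ (M2 ∨ N2) ∨ U2) := by
  grind
set_option linter.unusedVariables false in
private theorem hd_p2 (E N0 N1 N2 I0 I1 I2 M0 M1 M2 U0 U1 U2 Er : Prop)
  (hEr : Er ↔ ((E ∧ ¬ ((N0 ∨ N1) ∨ N2)) ∧ ¬ ((I0 ∨ I1) ∨ I2)))
  (q2 : N0 → ¬ N1 ∧ ¬ N2 ∧ ¬ I0 ∧ ¬ I1 ∧ ¬ I2)
  (q3 : N1 → ¬ N2 ∧ ¬ I0 ∧ ¬ I1 ∧ ¬ I2) (q4 : N2 → ¬ I0 ∧ ¬ I1 ∧ ¬ I2)
  (q5 : I0 → ¬ I1 ∧ ¬ I2) (q6 : I1 → ¬ I2)
  (q7 : M0 → Er ∧ ¬ M1 ∧ ¬ M2) (q8 : M1 → Er ∧ ¬ M2) (q9 : M2 → Er)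
  (hU0 : U0 → I0) (hU1 : U1 → I1) (hU2 : U2 → I2)
  (h1 : (M0 ∨ N0) ∨ U0) (h2 : (M1 ∨ N1) ∨ U1) : False := by
  grind
set_option linter.unusedVariables false in
private theorem hd_p3 (E N0 N1 N2 I0 I1 I2 M0 M1 M2 U0 U1 U2 Er : Prop)
  (hEr : Er ↔ ((E ∧ ¬ ((N0 ∨ N1) ∨ N2)) ∧ ¬ ((I0 ∨ I1) ∨ I2)))
  (q2 : N0 → ¬ N1 ∧ ¬ N2 ∧ ¬ I0 ∧ ¬ I1 ∧ ¬ I2)
  (q3 : N1 → ¬ N2 ∧ ¬ I0 ∧ ¬ I1 ∧ ¬ I2) (q4 : N2 → ¬ I0 ∧ ¬ I1 ∧ ¬ I2)
  (q5 : I0 → ¬ I1 ∧ ¬ I2) (q6 : I1 → ¬ I2)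
  (q7 : M0 → Er ∧ ¬ M1 ∧ ¬ M2) (q8 : M1 → Er ∧ ¬ M2) (q9 : M2 → Er)
  (hU0 : U0 → I0) (hU1 : U1 → I1) (hU2 : U2 → I2)
  (h1 : ((M0 ∨ N0) ∨ U0) ∨ (M1 ∨ N1) ∨ U1) (h2 : (M2 ∨ N2) ∨ U2) : False := by
  grind

set_option maxHeartbeats 2000000 in
/-- (D) HUB THEOREM.  PROOF.  `W` from `split3`, `M1 = 2^14 M^4 m^5`, `k = |S|`, `t = 16 M m`.
Entries: for `l = 0, 1, 2` successively apply `entry` with `A_l = S \ W l`, `W l`, `B` = all entry edges reserved for smaller `l`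
(`B` has degree `≤ 2 (2 + t)` at every vertex: `2` as `a`, `≤ t` as `x`, for each of the two earlier `l`).
Hypothesis: `t dgIn E (W l) a ≥ 16Mm k/(4Mm) = 4k > 2k + t(2(2+t)) + t`.
All entry edges of all `l` are different sets: `N_l = {s(a, f_l a i)}`, pairwise disjoint, none is inside any `W l'`
(one end in `W l`, the other outside `W l`).
Rest: `E° = {e ∈ E \ (N_0 ∪ N_1 ∪ N_2) : e is inside no W l}`.  Each `e ∈ E°` has two ends, so it misses some `W l`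
(if each of the three disjoint `W l` met `e` ...): partition `E°` into `M_0, M_1, M_2`, `M_l` supported in `S \ W l`.
`lovasz (M_l)` gives paths in `S \ W l` (all vertices of paths with `≥ 1` edge are on edges of `M_l`).
`closeUp` with `E := E ∩ (W l).sym2`, `A = S \ W l` gives `U_l ⊆ E ∩ (W l).sym2` and `Dec (M_l ∪ N_l ∪ U_l) (3k)`.
(`CD` is inherited by `E ∩ (W l).sym2`; `|W l| ≥ dgIn ≥ k/(4Mm)`, so
`|W l|^2 ≥ k^2/(16 M^2m^2) ≥ 10000 M1^3 k` as `k ≥ (2Mm)^100`.)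
`R l = (E ∩ (W l).sym2) \ U_l`.  `E \ (R 0 ∪ R 1 ∪ R 2) = ⋃_l (M_l ∪ N_l ∪ U_l)` (disjoint): total `9k`. -/
theorem hubDec (M m : ℕ) (hM : 1 ≤ M) (hm : 6 ≤ m) (E : Finset (Sym2 V)) (S : Finset V)
    (hS : Supp E S) (hCD : CD M E S) (hk : (2 * M * m) ^ 100 ≤ S.card) :
    ∃ (W : Fin 3 → Finset V) (R : Fin 3 → Finset (Sym2 V)),
      (∀ i, W i ⊆ S ∧ m * (W i).card ≤ 2 * S.card ∧ Supp (R i) (W i) ∧ R i ⊆ E) ∧
      (∀ i j, i ≠ j → Disjoint (R i) (R j)) ∧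
      Dec (E \ (R 0 ∪ R 1 ∪ R 2)) (9 * S.card) := by
  classical
  obtain ⟨W, hWS, hWd, hWc, hWdg, hWCD⟩ := split3 M m hM hm E S hS hCD hk
  set P : ℕ := 2 * M * m with hP
  set k : ℕ := S.card with hkk
  set t : ℕ := 16 * M * m with ht
  set M1 : ℕ := 2 ^ 14 * M ^ 4 * m ^ 5 with hM1
  have hMm : 6 ≤ M * m := by nlinarith
  have hP12 : 12 ≤ P := by rw [hP]; nlinarith
  have htP : t = 8 * P := by rw [ht, hP]; ring
  have hkpos : 0 < k := lt_of_lt_of_le (by positivity) hk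
  obtain ⟨v0, hv0⟩ : S.Nonempty := card_pos.1 hkpos
  have hdgle : ∀ i v, dgIn E (W i) v ≤ (W i).card := fun i v => card_filter_le _ _
  have hWk : ∀ i, k ≤ 2 * P * (W i).card := by
    intro i
    refine (hWdg i v0 hv0).trans ?_
    have : 4 * M * m = 2 * P := by rw [hP]; ring
    rw [this]
    exact Nat.mul_le_mul_left _ (hdgle i v0)
  have hW98 : ∀ i, P ^ 98 ≤ (W i).card := fun i => hd_num hP12 hk (hWk i)
  have hM1pos : 1 ≤ M1 := by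
    rw [hM1]
    have : 0 < 2 ^ 14 * M ^ 4 * m ^ 5 := by positivity
    omega
  have hM1P : M1 ≤ P ^ 14 := by
    have h1 : 2 ^ 5 * (M ^ 4 * m ^ 5) ≤ P ^ 5 := by
      have : P ^ 5 = 2 ^ 5 * (M ^ 5 * m ^ 5) := by rw [hP]; ring
      rw [this]
      refine Nat.mul_le_mul_left _ (Nat.mul_le_mul_right _ ?_)
      exact Nat.pow_le_pow_right hM (by norm_num)
    have h2 : 2 ^ 9 ≤ P ^ 9 := Nat.pow_le_pow_left (by omega) 9
    calc M1 = 2 ^ 9 * (2 ^ 5 * (M ^ 4 * m ^ 5)) := by rw [hM1]; ring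
      _ ≤ P ^ 9 * P ^ 5 := Nat.mul_le_mul h2 h1
      _ = P ^ 14 := by rw [← pow_add]
  have hW1 : ∀ i, 64 * M1 * (t + 3) ≤ (W i).card := by
    intro i
    have h1 : 64 ≤ P ^ 2 := by nlinarith
    have h2 : t + 3 ≤ P ^ 2 := by rw [htP]; nlinarith
    calc 64 * M1 * (t + 3) ≤ P ^ 2 * P ^ 14 * P ^ 2 :=
          Nat.mul_le_mul (Nat.mul_le_mul h1 hM1P) h2
      _ = P ^ 18 := by rw [← pow_add, ← pow_add]
      _ ≤ P ^ 98 := Nat.pow_le_pow_right (by omega) (by norm_num)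
      _ ≤ _ := hW98 i
  have hW2 : ∀ i, 10000 * M1 ^ 3 * S.card ≤ (W i).card ^ 2 := by
    intro i
    have h1 : 10000 ≤ P ^ 4 := by
      calc 10000 ≤ 12 ^ 4 := by norm_num
        _ ≤ P ^ 4 := Nat.pow_le_pow_left hP12 4
    have h2 : M1 ^ 3 ≤ P ^ 42 := by
      calc M1 ^ 3 ≤ (P ^ 14) ^ 3 := Nat.pow_le_pow_left hM1P 3
        _ = P ^ 42 := by rw [← pow_mul]
    have h3 : 2 * P ≤ P ^ 2 := by nlinarith
    calc 10000 * M1 ^ 3 * S.card ≤ P ^ 4 * P ^ 42 * (2 * P * (W i).card) :=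
          Nat.mul_le_mul (Nat.mul_le_mul h1 h2) (hWk i)
      _ ≤ P ^ 4 * P ^ 42 * (P ^ 2 * (W i).card) :=
          Nat.mul_le_mul_left _ (Nat.mul_le_mul_right _ h3)
      _ = P ^ 48 * (W i).card := by ring
      _ ≤ P ^ 98 * (W i).card :=
          Nat.mul_le_mul_right _ (Nat.pow_le_pow_right (by omega) (by norm_num))
      _ ≤ (W i).card * (W i).card := Nat.mul_le_mul_right _ (hW98 i)
      _ = (W i).card ^ 2 := by ring
  -- entries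
  have hent : ∀ i, ∀ B : Finset (Sym2 V), (∀ v, dg B v ≤ 2 * (2 + t)) →
      ∀ a ∈ S \ W i, 2 * (S \ W i).card + t * dg B a + t < t * dgIn E (W i) a := by
    intro i B hB a ha
    have h1 : (S \ W i).card ≤ k := card_le_card sdiff_subset
    have h2 := hWdg i a (mem_sdiff.1 ha).1
    have h3 : 4 * k ≤ t * dgIn E (W i) a := by
      have : t * dgIn E (W i) a = 4 * (4 * M * m * dgIn E (W i) a) := by rw [ht]; ring
      rw [this]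
      exact Nat.mul_le_mul_left _ h2
    have h4 : t * dg B a ≤ t * (2 * (2 + t)) := Nat.mul_le_mul_left _ (hB a)
    have h5 : t * (2 * (2 + t)) + t < 2 * k := by
      have h6 : P ^ 4 ≤ k := (Nat.pow_le_pow_right (by omega) (by norm_num)).trans hk
      have h7 : t * (2 * (2 + t)) + t = 128 * P ^ 2 + 40 * P := by rw [htP]; ring
      have h8 : 144 * P ^ 2 ≤ P ^ 4 := by
        calc 144 * P ^ 2 = 12 ^ 2 * P ^ 2 := by norm_num
          _ ≤ P ^ 2 * P ^ 2 := Nat.mul_le_mul_right _ (Nat.pow_le_pow_left hP12 2)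
          _ = P ^ 4 := by ring
      have h9 : P ≤ P ^ 2 := by nlinarith
      rw [h7]
      omega
    omega
  have hAW : ∀ i, Disjoint (S \ W i) (W i) := fun i => sdiff_disjoint
  have ht1 : 1 ≤ t := by rw [htP]; omega
  obtain ⟨f0, hf0, hf0', hl0⟩ := entry E ∅ (S \ W 0) (W 0) (hAW 0) t ht1
    (hent 0 ∅ (fun v => by simp [dg]))
  have hd0 := hd_dg_N (t := t) (fun a ha i => (hf0 a ha i).1) hl0
  obtain ⟨f1, hf1, hf1', hl1⟩ := entry E (hdN (S \ W 0) f0) (S \ W 1) (W 1) (hAW 1) t ht1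
    (hent 1 _ (fun v => (hd0 v).trans (by omega)))
  have hd1 := hd_dg_N (t := t) (fun a ha i => (hf1 a ha i).1) hl1
  have hdgU : ∀ (B C : Finset (Sym2 V)) v, dg (B ∪ C) v ≤ dg B v + dg C v := by
    intro B C v
    unfold dg
    rw [filter_union]
    exact card_union_le _ _
  obtain ⟨f2, hf2, hf2', hl2⟩ := entry E (hdN (S \ W 0) f0 ∪ hdN (S \ W 1) f1) (S \ W 2) (W 2)
    (hAW 2) t ht1 (hent 2 _ (fun v => (hdgU _ _ v).trans (by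
      have := hd0 v
      have := hd1 v
      omega)))
  set N0 := hdN (S \ W 0) f0 with hN0
  set N1 := hdN (S \ W 1) f1 with hN1
  set N2 := hdN (S \ W 2) f2 with hN2
  -- the inner edges
  set I : Fin 3 → Finset (Sym2 V) := fun i => E ∩ (W i).sym2 with hI
  -- the rest
  set Er : Finset (Sym2 V) := (E \ (N0 ∪ N1 ∪ N2)) \ (I 0 ∪ I 1 ∪ I 2) with hEr
  set M0 : Finset (Sym2 V) := Er.filter (fun e => ∀ v ∈ e, v ∉ W 0) with hM0
  set Mm1 : Finset (Sym2 V) := Er.filter (fun e => (∀ v ∈ e, v ∉ W 1) ∧ ¬ ∀ v ∈ e, v ∉ W 0) with hMm1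
  set M2 : Finset (Sym2 V) := Er.filter (fun e => (∀ v ∈ e, v ∉ W 2) ∧ (¬ ∀ v ∈ e, v ∉ W 1) ∧
    ¬ ∀ v ∈ e, v ∉ W 0) with hM2
  have hErE : ∀ e ∈ Er, e ∈ E := fun e he => (mem_sdiff.1 (mem_sdiff.1 he).1).1
  have hES : ∀ e ∈ E, ∀ v ∈ e, v ∈ S := fun e he v hv => mem_sym2_iff.1 (hS.1 he) v hv
  have hMS : ∀ i, ∀ e ∈ Er, (∀ v ∈ e, v ∉ W i) → ¬ e.IsDiag ∧ ∀ v ∈ e, v ∈ S \ W i := by
    intro i e he hv
    exact ⟨hS.2 e (hErE e he), fun v hve => mem_sdiff.2 ⟨hES e (hErE e he) v hve, hv v hve⟩⟩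
  obtain ⟨U0, hU0, hD0⟩ := hd_part M1 t hM1pos ht1 E S (W 0) hS (hWCD 0) (hW1 0) (hW2 0) M0
    (fun e he => hMS 0 e (mem_filter.1 he).1 (mem_filter.1 he).2) f0
    (fun a ha i => (hf0 a ha i).1) hf0' hl0
  obtain ⟨U1, hU1, hD1⟩ := hd_part M1 t hM1pos ht1 E S (W 1) hS (hWCD 1) (hW1 1) (hW2 1) Mm1
    (fun e he => hMS 1 e (mem_filter.1 he).1 (mem_filter.1 he).2.1) f1
    (fun a ha i => (hf1 a ha i).1) hf1' hl1
  obtain ⟨U2, hU2, hD2⟩ := hd_part M1 t hM1pos ht1 E S (W 2) hS (hWCD 2) (hW1 2) (hW2 2) M2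
    (fun e he => hMS 2 e (mem_filter.1 he).1 (mem_filter.1 he).2.1) f2
    (fun a ha i => (hf2 a ha i).1) hf2' hl2
  rw [← hN0] at hD0
  rw [← hN1] at hD1
  rw [← hN2] at hD2
  -- basic facts
  have hN0E : N0 ⊆ E := by
    intro e he
    obtain ⟨a, ha, i, rfl⟩ := hd_mem_N.1 he
    exact (hf0 a ha i).2.1
  have hN1E : N1 ⊆ E := by
    intro e he
    obtain ⟨a, ha, i, rfl⟩ := hd_mem_N.1 he
    exact (hf1 a ha i).2.1
  have hN2E : N2 ⊆ E := by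
    intro e he
    obtain ⟨a, ha, i, rfl⟩ := hd_mem_N.1 he
    exact (hf2 a ha i).2.1
  have hN01 : Disjoint N0 N1 := by
    rw [disjoint_right]
    intro e he
    obtain ⟨a, ha, i, rfl⟩ := hd_mem_N.1 he
    exact (hf1 a ha i).2.2
  have hN2' : ∀ e ∈ N2, e ∉ N0 ∪ N1 := by
    intro e he
    obtain ⟨a, ha, i, rfl⟩ := hd_mem_N.1 he
    exact (hf2 a ha i).2.2
  have hWne : ∀ i j v, v ∈ W i → v ∈ W j → i = j := by
    intro i j v hi hj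
    by_contra hij
    exact (disjoint_left.1 (hWd i j hij)) hi hj
  have hNI : ∀ (l : Fin 3) (f : V → Fin 2 → V), (∀ a ∈ S \ W l, ∀ i, f a i ∈ W l) →
      ∀ i, Disjoint (hdN (S \ W l) f) (I i) := by
    intro l f hf i
    rw [disjoint_left]
    intro e he hei
    obtain ⟨a, ha, j, rfl⟩ := hd_mem_N.1 he
    have h1 := (mem_inter.1 hei).2
    rw [mk_mem_sym2_iff] at h1
    have h2 := hWne l i _ (hf a ha j) h1.2
    subst h2
    exact (mem_sdiff.1 ha).2 h1.1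
  have hNI0 := hNI 0 f0 (fun a ha i => (hf0 a ha i).1)
  have hNI1 := hNI 1 f1 (fun a ha i => (hf1 a ha i).1)
  have hNI2 := hNI 2 f2 (fun a ha i => (hf2 a ha i).1)
  rw [← hN0] at hNI0
  rw [← hN1] at hNI1
  rw [← hN2] at hNI2
  have hII : ∀ i j, i ≠ j → Disjoint (I i) (I j) := by
    intro i j hij
    rw [disjoint_left]
    intro e hei hej
    have h1 := (mem_inter.1 hei).2
    have h2 := (mem_inter.1 hej).2
    induction e using Sym2.ind with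
    | _ x y =>
      rw [mk_mem_sym2_iff] at h1 h2
      exact hij (hWne i j x h1.1 h2.1)
  have hcover : ∀ e ∈ Er, e ∈ M0 ∨ e ∈ Mm1 ∨ e ∈ M2 := by
    intro e he
    by_cases h0 : ∀ v ∈ e, v ∉ W 0
    · left; exact mem_filter.2 ⟨he, h0⟩
    · by_cases h1 : ∀ v ∈ e, v ∉ W 1
      · right; left; exact mem_filter.2 ⟨he, h1, h0⟩
      · right; right
        refine mem_filter.2 ⟨he, ?_, h1, h0⟩
        by_contra h2
        push Not at h0 h1 h2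
        obtain ⟨v, hv, hv0⟩ := h0
        obtain ⟨w, hw, hw1⟩ := h1
        obtain ⟨u, hu, hu2⟩ := h2
        have hvw : v ≠ w := by
          rintro rfl
          exact absurd (hWne 0 1 v hv0 hw1) (by decide)
        have hvu : v ≠ u := by
          rintro rfl
          exact absurd (hWne 0 2 v hv0 hu2) (by decide)
        have hwu : w ≠ u := by
          rintro rfl
          exact absurd (hWne 1 2 w hw1 hu2) (by decide)
        rcases hd_three hv hw hu with h | h | h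
        · exact hvw h
        · exact hvu h
        · exact hwu h
  have hUI0 : U0 ⊆ I 0 := hU0
  have hUI1 : U1 ⊆ I 1 := hU1
  have hUI2 : U2 ⊆ I 2 := hU2
  -- propositional membership lemmas
  have q2 : ∀ e, e ∈ N0 → e ∉ N1 ∧ e ∉ N2 ∧ e ∉ I 0 ∧ e ∉ I 1 ∧ e ∉ I 2 := by
    intro e he
    refine ⟨disjoint_left.1 hN01 he, fun h => hN2' e h (mem_union_left _ he),
      disjoint_left.1 (hNI0 0) he, disjoint_left.1 (hNI0 1) he, disjoint_left.1 (hNI0 2) he⟩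
  have q3 : ∀ e, e ∈ N1 → e ∉ N2 ∧ e ∉ I 0 ∧ e ∉ I 1 ∧ e ∉ I 2 := by
    intro e he
    refine ⟨fun h => hN2' e h (mem_union_right _ he),
      disjoint_left.1 (hNI1 0) he, disjoint_left.1 (hNI1 1) he, disjoint_left.1 (hNI1 2) he⟩
  have q4 : ∀ e, e ∈ N2 → e ∉ I 0 ∧ e ∉ I 1 ∧ e ∉ I 2 := by
    intro e he
    refine ⟨disjoint_left.1 (hNI2 0) he, disjoint_left.1 (hNI2 1) he, disjoint_left.1 (hNI2 2) he⟩
  have q5 : ∀ e, e ∈ I 0 → e ∉ I 1 ∧ e ∉ I 2 := fun e he =>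
    ⟨disjoint_left.1 (hII 0 1 (by decide)) he, disjoint_left.1 (hII 0 2 (by decide)) he⟩
  have q6 : ∀ e, e ∈ I 1 → e ∉ I 2 := fun e he => disjoint_left.1 (hII 1 2 (by decide)) he
  have q7 : ∀ e, e ∈ M0 → e ∈ Er ∧ e ∉ Mm1 ∧ e ∉ M2 := by
    intro e he
    have h := mem_filter.1 he
    exact ⟨h.1, fun h' => (mem_filter.1 h').2.2 h.2, fun h' => (mem_filter.1 h').2.2.2 h.2⟩
  have q8 : ∀ e, e ∈ Mm1 → e ∈ Er ∧ e ∉ M2 := by
    intro e he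
    have h := mem_filter.1 he
    exact ⟨h.1, fun h' => (mem_filter.1 h').2.2.1 h.2.1⟩
  have q9 : ∀ e, e ∈ M2 → e ∈ Er := fun e he => (mem_filter.1 he).1
  have qI : ∀ i e, e ∈ I i → e ∈ E := fun i e he => (mem_inter.1 he).1
  -- the final decomposition
  refine ⟨W, fun i => I i \ (U0 ∪ U1 ∪ U2), ?_, ?_, ?_⟩
  · intro i
    refine ⟨hWS i, hWc i, ⟨?_, ?_⟩, ?_⟩
    · intro e he
      exact (mem_inter.1 (mem_sdiff.1 he).1).2
    · intro e he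
      exact hS.2 e (mem_inter.1 (mem_sdiff.1 he).1).1
    · intro e he
      exact (mem_inter.1 (mem_sdiff.1 he).1).1
  · intro i j hij
    exact disjoint_of_subset_left sdiff_subset
      (disjoint_of_subset_right sdiff_subset (hII i j hij))
  · have hErm : ∀ e, e ∈ Er ↔ ((e ∈ E ∧ ¬ ((e ∈ N0 ∨ e ∈ N1) ∨ e ∈ N2)) ∧
        ¬ ((e ∈ I 0 ∨ e ∈ I 1) ∨ e ∈ I 2)) := by
      intro e
      rw [hEr, mem_sdiff, mem_sdiff, mem_union, mem_union, mem_union, mem_union]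
    have hfin : E \ (I 0 \ (U0 ∪ U1 ∪ U2) ∪ I 1 \ (U0 ∪ U1 ∪ U2) ∪ I 2 \ (U0 ∪ U1 ∪ U2)) =
        (M0 ∪ N0 ∪ U0) ∪ (Mm1 ∪ N1 ∪ U1) ∪ (M2 ∪ N2 ∪ U2) := by
      ext e
      simp only [mem_sdiff, mem_union]
      exact hd_p1 _ _ _ _ _ _ _ _ _ _ _ _ _ _ (hErm e) (qI 0 e) (qI 1 e) (qI 2 e)
        (fun h => hN0E h) (fun h => hN1E h) (fun h => hN2E h) (q2 e) (q3 e) (q4 e) (q5 e) (q6 e)
        (q7 e) (q8 e) (q9 e) (hcover e) (fun h => hUI0 h) (fun h => hUI1 h) (fun h => hUI2 h)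
    change Dec (E \ (I 0 \ (U0 ∪ U1 ∪ U2) ∪ I 1 \ (U0 ∪ U1 ∪ U2) ∪ I 2 \ (U0 ∪ U1 ∪ U2))) _
    rw [hfin]
    have hdis1 : Disjoint (M0 ∪ N0 ∪ U0) (Mm1 ∪ N1 ∪ U1) := by
      rw [disjoint_left]
      intro e h1 h2
      simp only [mem_union] at h1 h2
      exact hd_p2 _ _ _ _ _ _ _ _ _ _ _ _ _ _ (hErm e) (q2 e) (q3 e) (q4 e) (q5 e) (q6 e)
        (q7 e) (q8 e) (q9 e) (fun h => hUI0 h) (fun h => hUI1 h) (fun h => hUI2 h) h1 h2
    have hdis2 : Disjoint ((M0 ∪ N0 ∪ U0) ∪ (Mm1 ∪ N1 ∪ U1)) (M2 ∪ N2 ∪ U2) := by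
      rw [disjoint_left]
      intro e h1 h2
      simp only [mem_union] at h1 h2
      exact hd_p3 _ _ _ _ _ _ _ _ _ _ _ _ _ _ (hErm e) (q2 e) (q3 e) (q4 e) (q5 e) (q6 e)
        (q7 e) (q8 e) (q9 e) (fun h => hUI0 h) (fun h => hUI1 h) (fun h => hUI2 h) h1 h2
    refine (Dec.union (Dec.union hD0 hD1 hdis1) hD2 hdis2).mono ?_
    omega

end Crest.Agent.EG
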