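import Crest.Agent.EG.HubDec
import Crest.Agent.EG.LongCyc

set_option autoImplicit false

namespace Crest.Agent.EG
open Finset

variable {V : Type} [DecidableEq V]

private theorem hubsDec_eb_comm (E : Finset (Sym2 V)) (A B : Finset V) : eb E A B = eb E B A := by
  unfold eb
  refine Finset.card_bij (fun p _ => (p.2, p.1)) ?_ ?_ ?_
  · intro p hp
    simp only [Finset.mem_filter, Finset.mem_product] at hp ⊢
    refine ⟨⟨hp.1.2, hp.1.1⟩, ?_⟩
    rw [Sym2.eq_swap]; exact hp.2
  · intro p _ q _ h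
    simp only [Prod.mk.injEq] at h
    exact Prod.ext h.2 h.1
  · intro p hp
    simp only [Finset.mem_filter, Finset.mem_product] at hp
    refine ⟨(p.2, p.1), ?_, rfl⟩
    simp only [Finset.mem_filter, Finset.mem_product]
    refine ⟨⟨hp.1.2, hp.1.1⟩, ?_⟩
    rw [Sym2.eq_swap]; exact hp.2

private theorem hubsDec_eb_le (U : Finset (Sym2 V)) (A B : Finset V) :
    eb U A B ≤ ∑ z ∈ A, dg U z := by
  have h1 : ((A ×ˢ B).filter (fun p => s(p.1, p.2) ∈ U)).card =
      ∑ z ∈ A, (((A ×ˢ B).filter (fun p => s(p.1, p.2) ∈ U)).filter (fun p => p.1 = z)).card := by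
    apply Finset.card_eq_sum_card_fiberwise
    intro p hp
    have hp' := Finset.mem_coe.1 hp
    rw [Finset.mem_filter, Finset.mem_product] at hp'
    exact hp'.1.1
  unfold eb
  rw [h1]
  apply Finset.sum_le_sum
  intro z _
  unfold dg
  apply Finset.card_le_card_of_injOn (fun p => s(p.1, p.2))
  · intro p hp
    have hp' := Finset.mem_coe.1 hp
    simp only [Finset.mem_filter, Finset.mem_product] at hp'
    apply Finset.mem_coe.2
    simp only [Finset.mem_filter]
    refine ⟨hp'.1.2, ?_⟩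
    rw [← hp'.2]; exact Sym2.mem_mk_left _ _
  · intro p hp q hq h
    have hp' := (Finset.mem_filter.1 (Finset.mem_coe.1 hp)).2
    have hq' := (Finset.mem_filter.1 (Finset.mem_coe.1 hq)).2
    simp only [Sym2.eq_iff] at h
    rcases h with h | h
    · exact Prod.ext h.1 h.2
    · apply Prod.ext
      · rw [hp', hq']
      · rw [h.2, ← h.1, hp', hq']

private theorem hubsDec_eb_split (E U : Finset (Sym2 V)) (A B : Finset V) :
    eb E A B ≤ eb (E \ U) A B + eb U A B := by
  unfold eb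
  rw [← Finset.card_union_add_card_inter]
  refine le_trans (Finset.card_le_card ?_) (Nat.le_add_right _ _)
  intro p hp
  simp only [Finset.mem_filter, Finset.mem_union, Finset.mem_sdiff] at hp ⊢
  tauto

private theorem hubsDec_aux (M : ℕ) (E U : Finset (Sym2 V)) (S A B : Finset V)
    (hAS : A ⊆ S) (hAB : A.card ≤ B.card) (hS : S.card = A.card + B.card)
    (h : A.card * B.card ≤ M * eb E A B)
    (hU : ∀ z ∈ S, 8 * M * dg U z ≤ S.card) :
    A.card * B.card ≤ 2 * M * eb (E \ U) A B := by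
  have h1 := hubsDec_eb_le U A B
  have h2 := hubsDec_eb_split E U A B
  have h3 : 4 * M * (∑ z ∈ A, dg U z) ≤ A.card * B.card := by
    rw [Finset.mul_sum]
    calc ∑ z ∈ A, 4 * M * dg U z ≤ ∑ z ∈ A, B.card := by
          apply Finset.sum_le_sum
          intro z hz
          have := hU z (hAS hz)
          have h5 : 8 * M * dg U z = 2 * (4 * M * dg U z) := by ring
          rw [h5] at this
          omega
      _ = A.card * B.card := by rw [Finset.sum_const, smul_eq_mul]
  have h4 : 4 * M * eb U A B ≤ A.card * B.card :=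
    le_trans (Nat.mul_le_mul_left _ h1) h3
  have h5 : M * eb E A B ≤ M * (eb (E \ U) A B + eb U A B) := Nat.mul_le_mul_left _ h2
  nlinarith

/-- cut-density survives removal of few edges at each vertex.
PROOF.  `A ⊆ S`, `B = S \ A`; by symmetry (`eb E A B = eb E B A`) `|A| ≤ |B|`, so `|S| ≤ 2|B|`.
`eb U A B ≤ ∑_{z∈A} dg U z ≤ |A||S|/(8M) ≤ |A||B|/(4M)`, and `eb (E \ U) A B ≥ eb E A B - eb U A B ≥ |A||B|/M - |A||B|/(4M)`. -/
theorem CD.sdiff (M : ℕ) (hM : 1 ≤ M) (E U : Finset (Sym2 V)) (S : Finset V) (h : CD M E S)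
    (hU : ∀ z ∈ S, 8 * M * dg U z ≤ S.card) : CD (2 * M) (E \ U) S := by
  intro A hA
  have hc : S.card = A.card + (S \ A).card := by
    have := Finset.card_sdiff_add_card_eq_card hA
    omega
  rcases le_total A.card (S \ A).card with hle | hle
  · exact hubsDec_aux M E U S A (S \ A) hA hle hc (h A hA) hU
  · have h1 := hubsDec_aux M E U S (S \ A) A Finset.sdiff_subset hle (by omega)
      (by rw [hubsDec_eb_comm, mul_comm]; exact h A hA) hU
    rw [hubsDec_eb_comm, mul_comm] at h1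
    exact h1

private theorem hubsDec_one (C0 M k : ℕ) (hM : 1 ≤ M) (S : Finset V) (h : Hub V)
    (hs : Supp h.2 h.1) (hsub : h.1 ⊆ S) (hkc : k ≤ h.1.card) (hcd : CD M h.2 h.1)
    (hk : (2 * (2 * M) * 6144) ^ 100 ≤ k)
    (hIH : ∀ (S' : Finset V) (E' : Finset (Sym2 V)), S'.card < S.card → Supp E' S' →
      Dec E' (1024 * C0 * S'.card))
    (U : Finset (Sym2 V)) (hU : ∀ z ∈ h.1, 8 * M * dg (U ∩ h.2) z ≤ h.1.card) :
    Dec (h.2 \ U) ((9 + C0) * h.1.card) := by
  have hkpos : 1 ≤ k := le_trans (Nat.one_le_pow _ _ (by positivity)) hk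
  have hE : h.2 \ U = h.2 \ (U ∩ h.2) := by
    ext e; simp only [Finset.mem_sdiff, Finset.mem_inter]; tauto
  have hcd' : CD (2 * M) (h.2 \ U) h.1 := by
    rw [hE]; exact CD.sdiff M hM h.2 (U ∩ h.2) h.1 hcd hU
  have hs' : Supp (h.2 \ U) h.1 :=
    ⟨fun e he => hs.1 (Finset.mem_sdiff.1 he).1, fun e he => hs.2 e (Finset.mem_sdiff.1 he).1⟩
  obtain ⟨W, R, h1, h2, h3⟩ := hubDec (2 * M) 6144 (by omega) (by norm_num) (h.2 \ U) h.1 hs' hcd'
    (le_trans hk hkc)
  have hS : h.1.card ≤ S.card := Finset.card_le_card hsub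
  have hW : ∀ i, (W i).card < S.card := by
    intro i
    have := (h1 i).2.1
    omega
  have hR : ∀ i, Dec (R i) (1024 * C0 * (W i).card) := fun i => hIH (W i) (R i) (hW i) (h1 i).2.2.1
  have hd01 := h2 0 1 (by decide)
  have hd02 := h2 0 2 (by decide)
  have hd12 := h2 1 2 (by decide)
  have hu1 := (hR 0).union (hR 1) hd01
  have hu2 := hu1.union (hR 2) (Finset.disjoint_union_left.2 ⟨hd02, hd12⟩)
  have hu3 := h3.union hu2 Finset.sdiff_disjoint
  have hsubR : R 0 ∪ R 1 ∪ R 2 ⊆ h.2 \ U :=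
    Finset.union_subset (Finset.union_subset (h1 0).2.2.2 (h1 1).2.2.2) (h1 2).2.2.2
  rw [Finset.sdiff_union_of_subset hsubR] at hu3
  refine hu3.mono ?_
  have e0 := (h1 0).2.1
  have e1 := (h1 1).2.1
  have e2 := (h1 2).2.1
  have e3 : 1024 * ((W 0).card + (W 1).card + (W 2).card) ≤ h.1.card := by omega
  have e4 : C0 * (1024 * ((W 0).card + (W 1).card + (W 2).card)) ≤ C0 * h.1.card :=
    Nat.mul_le_mul_left _ e3
  nlinarith

/-- (I6) DECOMPOSING A LIST OF HUBS, the edges `U` being removed, using the main theorem for smaller vertex sets (`hIH`).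
PROOF.  Induction on the list `H`.  For a hub `h`: `E' = h.2 \ U` is `2M`-cut-dense on `h.1` (`CD.sdiff`, applied with
`U ∩ h.2`), `hubDec (2M) 6144` gives `W`, `R`; `Dec (E' \ ⋃ R) (9|h.1|)`; `6144 |W i| ≤ 2|h.1|` so `|W i| < |S|` and
`hIH` gives `Dec (R i) (1024 C0 |W i|)`, `∑_i 1024 C0 |W i| ≤ C0 |h.1|` (`6144 * 1024 C0 * ∑|W i| ≤ 6 * 1024 C0 |h.1|`).
(`k ≥ 1`, so `h.1`, `S` are nonempty.)  `Dec.union`: the edge sets of different hubs are disjoint. -/
theorem hubsDec (C0 M k : ℕ) (hM : 1 ≤ M) (S : Finset V) (H : List (Hub V)) (hH : HubSys M k S H)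
    (hk : (2 * (2 * M) * 6144) ^ 100 ≤ k)
    (hIH : ∀ (S' : Finset V) (E' : Finset (Sym2 V)), S'.card < S.card → Supp E' S' →
      Dec E' (1024 * C0 * S'.card))
    (U : Finset (Sym2 V)) (hU : ∀ h ∈ H, ∀ z ∈ h.1, 8 * M * dg (U ∩ h.2) z ≤ h.1.card) :
    Dec (hubE H \ U) ((9 + C0) * (H.map (fun h => h.1.card)).sum) := by
  induction H with
  | nil =>
    have : hubE ([] : List (Hub V)) \ U = ∅ := by simp [hubE]
    rw [this]
    exact Dec.empty.mono (Nat.zero_le _)
  | cons h H ih =>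
    have hH' : HubSys M k S H := ⟨fun x hx => hH.1 x (List.mem_cons_of_mem _ hx),
      (List.pairwise_cons.1 hH.2).2⟩
    have ih' := ih hH' (fun x hx => hU x (List.mem_cons_of_mem _ hx))
    obtain ⟨a1, a2, a3, a4⟩ := hH.1 h List.mem_cons_self
    have h1 := hubsDec_one C0 M k hM S h a1 a2 a3 a4 hk hIH U (hU h List.mem_cons_self)
    have hdisj : Disjoint (h.2 \ U) (hubE H \ U) := by
      refine Finset.disjoint_of_subset_left Finset.sdiff_subset
        (Finset.disjoint_of_subset_right Finset.sdiff_subset ?_)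
      have hp := (List.pairwise_cons.1 hH.2).1
      clear ih ih' hH hH' hU h1 a1 a2 a3 a4
      induction H with
      | nil => simp [hubE]
      | cons g H ihg =>
        have e1 : hubE (g :: H) = g.2 ∪ hubE H := rfl
        rw [e1, Finset.disjoint_union_right]
        exact ⟨hp g List.mem_cons_self, ihg (fun x hx => hp x (List.mem_cons_of_mem _ hx))⟩
    have h2 := h1.union ih' hdisj
    have e2 : hubE (h :: H) \ U = (h.2 \ U) ∪ (hubE H \ U) := by
      change (h.2 ∪ hubE H) \ U = _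
      rw [Finset.union_sdiff_distrib]
    rw [e2]
    refine h2.mono ?_
    rw [List.map_cons, List.sum_cons, mul_add]

end Crest.Agent.EG
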