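import Crest.Agent.EG.CDefs
import Crest.Agent.EG.Link

set_option autoImplicit false

namespace Crest.Agent.EG
open Finset

variable {V : Type} [DecidableEq V]

omit [DecidableEq V] in
private theorem lp_pE_append (l : List V) (a : V) (t : List V) :
    pE (l ++ a :: t) = pE (l ++ [a]) ++ pE (a :: t) := by
  induction l with
  | nil => simp [pE]
  | cons c l ih =>
    cases l with
    | nil => simp [pE]
    | cons d l' =>
      simp only [List.cons_append, pE] at ih ⊢
      rw [ih]

omit [DecidableEq V] in
private theorem lp_mem_pE (l : List V) (e : Sym2 V) (he : e ∈ pE l) (v : V) (hv : v ∈ e) :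
    v ∈ l := by
  induction l with
  | nil => simp [pE] at he
  | cons c l ih =>
    cases l with
    | nil => simp [pE] at he
    | cons d l' =>
      simp only [pE, List.mem_cons] at he
      rcases he with rfl | he
      · rw [Sym2.mem_iff] at hv
        rcases hv with rfl | rfl <;> simp
      · exact List.mem_cons_of_mem _ (ih he)

omit [DecidableEq V] in
private theorem lp_pE_glue (P t : List V) (x' : V) (h : P.getLast? = some x') :
    pE (P ++ t) = pE P ++ pE (x' :: t) := by
  obtain ⟨P0, rfl⟩ := List.getLast?_eq_some_iff.1 h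
  rw [List.append_assoc, List.singleton_append, lp_pE_append]

omit [DecidableEq V] in
private theorem lp_pE_length (l : List V) : (pE l).length = l.length - 1 := by
  induction l with
  | nil => simp [pE]
  | cons c l ih =>
    cases l with
    | nil => simp [pE]
    | cons d l' => simp only [pE, List.length_cons, ih]; simp

private theorem lp_dg_union (A B : Finset (Sym2 V)) (z : V) : dg (A ∪ B) z ≤ dg A z + dg B z := by
  unfold dg
  rw [Finset.filter_union]
  exact Finset.card_union_le _ _

private theorem lp_dg_mono {A B : Finset (Sym2 V)} (h : A ⊆ B) (z : V) : dg A z ≤ dg B z :=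
  Finset.card_le_card (Finset.filter_subset_filter _ h)

private theorem lp_dg_zero (A : Finset (Sym2 V)) (z : V) (h : ∀ e ∈ A, z ∉ e) : dg A z = 0 := by
  unfold dg
  rw [Finset.card_eq_zero, Finset.filter_eq_empty_iff]
  exact fun e he => h e he

private theorem lp_dg_cons (a b : V) (l : List V) (z : V) :
    dg (pE (a :: b :: l)).toFinset z ≤ (if z = a ∨ z = b then 1 else 0) + dg (pE (b :: l)).toFinset z := by
  rw [pE, List.toFinset_cons, Finset.insert_eq]
  refine (lp_dg_union _ _ z).trans (Nat.add_le_add_right ?_ _)
  unfold dg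
  rw [Finset.filter_singleton]
  split_ifs with h1 h2 h2
  · simp
  · exact absurd (Sym2.mem_iff.1 h1) h2
  · simp
  · simp

private theorem lp_dg_notMem (l : List V) (z : V) (h : z ∉ l) : dg (pE l).toFinset z = 0 :=
  lp_dg_zero _ _ fun e he hz => h (lp_mem_pE l e (List.mem_toFinset.1 he) z hz)

private theorem lp_dg_head (l : List V) (z : V) (h : (z :: l).Nodup) :
    dg (pE (z :: l)).toFinset z ≤ 1 := by
  cases l with
  | nil => simp [pE, dg]
  | cons b l =>
    refine (lp_dg_cons z b l z).trans ?_
    rw [lp_dg_notMem (b :: l) z (List.nodup_cons.1 h).1]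
    simp

private theorem lp_dg_last (l : List V) (z : V) (h : l.Nodup) (hl : l.getLast? = some z) :
    dg (pE l).toFinset z ≤ 1 := by
  induction l with
  | nil => simp at hl
  | cons a l ih =>
    cases l with
    | nil => simp [pE, dg]
    | cons b l =>
      have hl' : (b :: l).getLast? = some z := by rw [← hl, List.getLast?_cons_cons]
      have hz : z ∈ b :: l := List.mem_of_getLast? hl'
      have hza : z ≠ a := fun e => (List.nodup_cons.1 h).1 (e ▸ hz)
      by_cases hzb : z = b
      · cases l with
        | nil => 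
          refine (lp_dg_cons a b [] z).trans ?_
          have : dg (pE [b]).toFinset z = 0 := by simp [pE, dg]
          rw [this]; split_ifs <;> simp
        | cons c l =>
          exfalso
          rw [List.getLast?_cons_cons] at hl'
          have := List.mem_of_getLast? hl'
          rw [hzb] at this
          exact (List.nodup_cons.1 (List.nodup_cons.1 h).2).1 this
      · refine (lp_dg_cons a b l z).trans ?_
        rw [if_neg (by tauto), Nat.zero_add]
        exact ih (List.nodup_cons.1 h).2 hl'

private theorem lp_dg_two (l : List V) (z : V) (h : l.Nodup) :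
    dg (pE l).toFinset z ≤ 2 := by
  induction l with
  | nil => simp [pE, dg]
  | cons a l ih =>
    cases l with
    | nil => simp [pE, dg]
    | cons b l =>
      by_cases hza : z = a
      · subst hza
        exact (lp_dg_head _ _ h).trans (by norm_num)
      · by_cases hzb : z = b
        · subst hzb
          refine (lp_dg_cons a z l z).trans ?_
          rw [if_pos (Or.inr rfl)]
          have := lp_dg_head l z (List.nodup_cons.1 h).2
          omega
        · refine (lp_dg_cons a b l z).trans ?_
          rw [if_neg (by tauto), Nat.zero_add]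
          exact ih (List.nodup_cons.1 h).2

omit [DecidableEq V] in
private theorem lp_steps_append (x : V) (R : Rt V) (o : Option (Hub V)) (y : V) :
    steps x (R ++ [(o, y)]) = steps x R ++ [(endV x R, o, y)] := by
  induction R generalizing x with
  | nil => simp [steps, endV]
  | cons p R ih =>
    obtain ⟨o', y'⟩ := p
    simp only [List.cons_append, steps, endV, ih]

omit [DecidableEq V] in
private theorem lp_endV_append (x : V) (R : Rt V) (o : Option (Hub V)) (y : V) :
    endV x (R ++ [(o, y)]) = y := by
  induction R generalizing x with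
  | nil => simp [endV]
  | cons p R ih =>
    obtain ⟨o', y'⟩ := p
    simp only [List.cons_append, endV, ih]

omit [DecidableEq V] in
private theorem lp_steps_append2 (x : V) (R R' : Rt V) :
    steps x (R ++ R') = steps x R ++ steps (endV x R) R' := by
  induction R generalizing x with
  | nil => simp [steps, endV]
  | cons p R ih =>
    obtain ⟨o', y'⟩ := p
    simp only [List.cons_append, steps, endV, ih]

omit [DecidableEq V] in
private theorem lp_endV_mem (x : V) (R : Rt V) : endV x R ∈ rtV x R := by
  induction R generalizing x with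
  | nil => simp [endV, rtV]
  | cons p R ih =>
    obtain ⟨o', y'⟩ := p
    simp only [endV, rtV, List.map_cons, List.mem_cons]
    have := ih y'
    simp only [rtV, List.mem_cons] at this
    exact Or.inr this

omit [DecidableEq V] in
/-- every route vertex (if there is a step) is an end of a step -/
private theorem lp_rtV_step (x : V) (R : Rt V) (hR : R ≠ []) :
    ∀ v ∈ rtV x R, ∃ st ∈ steps x R, v = st.1 ∨ v = st.2.2 := by
  induction R generalizing x with
  | nil => exact absurd rfl hR
  | cons p R ih =>
    obtain ⟨o', y'⟩ := p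
    intro v hv
    simp only [rtV, List.map_cons, List.mem_cons] at hv
    rcases hv with hv | hv | hv
    · exact ⟨(x, o', y'), by simp [steps], Or.inl hv⟩
    · exact ⟨(x, o', y'), by simp [steps], Or.inr hv⟩
    · have hR' : R ≠ [] := by rintro rfl; simp at hv
      obtain ⟨st, hst, h⟩ := ih y' hR' v (by simp only [rtV, List.mem_cons]; exact Or.inr hv)
      exact ⟨st, by simp only [steps, List.mem_cons]; exact Or.inr hst, h⟩

/-- the number of route vertices in a set is at most twice the number of steps whose reach meets it -/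
private theorem lp_rtV_count (M : ℕ) (U : Finset (Sym2 V)) (Z : Finset V)
    (sts : List (V × Option (Hub V) × V)) (B : Finset V) (hB : ∀ v ∈ B, v ∈ Z ∧ ∃ st ∈ sts, v = st.1 ∨ v = st.2.2) :
    B.card ≤ 2 * sts.countP (fun st => decide (¬ Disjoint (reach M U st) Z)) := by
  induction sts generalizing B with
  | nil =>
    have : B = ∅ := by
      rw [Finset.eq_empty_iff_forall_notMem]
      intro v hv
      obtain ⟨_, st, hst, _⟩ := hB v hv
      simp at hst
    simp [this]
  | cons st sts ih =>
    have h1 := ih (B \ {st.1, st.2.2}) (by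
      intro v hv
      rw [Finset.mem_sdiff, Finset.mem_insert, Finset.mem_singleton] at hv
      obtain ⟨hZ, st', hst', h⟩ := hB v hv.1
      refine ⟨hZ, st', ?_, h⟩
      rcases List.mem_cons.1 hst' with rfl | h'
      · exact absurd h hv.2
      · exact h')
    rw [List.countP_cons]
    by_cases hd : Disjoint (reach M U st) Z
    · have h2 : B \ {st.1, st.2.2} = B := by
        rw [Finset.sdiff_eq_self_iff_disjoint, Finset.disjoint_left]
        intro v hv hv'
        refine Finset.disjoint_left.1 hd ?_ (hB v hv).1
        unfold reach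
        exact Finset.mem_union_right _ hv'
      rw [h2] at h1
      refine h1.trans ?_
      omega
    · have h2 : B.card ≤ (B \ {st.1, st.2.2}).card + ({st.1, st.2.2} : Finset V).card := by
        have := Finset.card_le_card (s := B) (t := (B \ {st.1, st.2.2}) ∪ {st.1, st.2.2})
          (by intro v hv; rw [Finset.mem_union, Finset.mem_sdiff]; tauto)
        exact this.trans (Finset.card_union_le _ _)
      have h3 : ({st.1, st.2.2} : Finset V).card ≤ 2 := Finset.card_le_two
      rw [if_pos (by simpa using hd)]
      omega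

private theorem lp_FE_append (sts : List (V × Option (Hub V) × V)) (x y : V) (o : Option (Hub V)) :
    FE (sts ++ [(x, o, y)]) = FE sts ∪ (if o = none then {s(x, y)} else ∅) := by
  unfold FE
  rw [List.filter_append, List.map_append, List.toFinset_append]
  congr 1
  by_cases h : o = none
  · simp [h]
  · simp [h]

private theorem lp_hub_mem (H : List (Hub V)) (h : Hub V) (hh : h ∈ H) : h.2 ⊆ hubE H := by
  induction H with
  | nil => simp at hh
  | cons g H ih =>
    rw [hubE, List.foldr_cons]
    rcases List.mem_cons.1 hh with rfl | hh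
    · exact Finset.subset_union_left
    · exact (ih hh).trans Finset.subset_union_right

private structure LPInv (M : ℕ) (H : List (Hub V)) (U : Finset (Sym2 V)) (x : V) (A : List V)
    (R' : Rt V) (P : List V) (X : Finset (Sym2 V)) : Prop where
  head : P.head? = some x
  last : P.getLast? = some (endV x R')
  nd : P.Nodup
  len : R'.length + 1 ≤ P.length
  inA : ∀ v ∈ P, v ∈ A → v ∈ rtV x R'
  cntP : ∀ h ∈ H, (P.toFinset ∩ (h.1 \ Sat M U h)).card ≤ 8 * M * (steps x R').countP
    (fun st => decide (¬ Disjoint (reach M U st) (h.1 \ Sat M U h))) + 1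
  XU : X ⊆ hubE H \ U
  XP : (pE P).toFinset = X ∪ FE (steps x R')
  cX : ∀ h ∈ H, (X ∩ h.2).card ≤ 8 * M * (steps x R').countP (fun st => decide (st.2.1 = some h))
  dA : ∀ h ∈ H, ∀ z ∈ A, dg (X ∩ h.2) z ≤
    (steps x R').countP (fun st => decide (st.2.1 = some h ∧ (st.1 = z ∨ st.2.2 = z)))
  dN : ∀ h ∈ H, ∀ z ∉ A, dg (X ∩ h.2) z ≤ if z ∈ Sat M U h then 0 else 2

private theorem lp_base (M : ℕ) (H : List (Hub V)) (U : Finset (Sym2 V)) (x : V) (A : List V) :
    LPInv M H U x A [] [x] ∅ where
  head := rfl
  last := rfl
  nd := List.nodup_singleton x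
  len := le_refl _
  inA := by intro v hv _; simpa [rtV] using hv
  cntP := by
    intro h _
    refine (Finset.card_le_card Finset.inter_subset_left).trans ?_
    simp
  XU := Finset.empty_subset _
  XP := by simp [pE, FE, steps]
  cX := by intro h _; simp
  dA := by intro h _ z _; simp [dg]
  dN := by intro h _ z _; simp [dg]

private theorem lp_card_new (Z : Finset V) (P t : List V) :
    ((P ++ t).toFinset ∩ Z).card ≤ (P.toFinset ∩ Z).card + (t.toFinset ∩ Z).card := by
  rw [List.toFinset_append, Finset.union_inter_distrib_right]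
  exact Finset.card_union_le _ _

/-- the counting invariant -/
private theorem lp_cnt_step (M : ℕ) (U : Finset (Sym2 V)) (Z : Finset V) (P t : List V)
    (c : ℕ) (st : V × Option (Hub V) × V) (sts : List (V × Option (Hub V) × V))
    (h : (P.toFinset ∩ Z).card ≤ 8 * M * sts.countP (fun st => decide (¬ Disjoint (reach M U st) Z)) + c)
    (ht : ∀ v ∈ t, v ∈ reach M U st) (htl : t.length ≤ 8 * M) :
    ((P ++ t).toFinset ∩ Z).card ≤
      8 * M * (sts ++ [st]).countP (fun st => decide (¬ Disjoint (reach M U st) Z)) + c := by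
  refine (lp_card_new Z P t).trans ?_
  rw [List.countP_append, List.countP_singleton]
  by_cases hd : Disjoint (reach M U st) Z
  · have h2 : t.toFinset ∩ Z = ∅ := by
      rw [Finset.eq_empty_iff_forall_notMem]
      intro v hv
      rw [Finset.mem_inter, List.mem_toFinset] at hv
      exact Finset.disjoint_left.1 hd (ht v hv.1) hv.2
    rw [h2]
    simp only [hd, not_true_eq_false, decide_false, Finset.card_empty]
    simpa using h
  · have h2 : (t.toFinset ∩ Z).card ≤ 8 * M :=
      ((Finset.card_le_card Finset.inter_subset_left).trans (List.toFinset_card_le t)).trans htl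
    simp only [hd, not_false_eq_true, decide_true, if_true]
    rw [Nat.mul_add, Nat.mul_one]
    omega

private theorem lp_step {M k T : ℕ} {S : Finset V} {F0 : Finset (Sym2 V)} {H : List (Hub V)}
    {L : Hub V → Finset V} {π : V → V} (cs : CS M k T S F0 H L π) {Fc U : Finset (Sym2 V)}
    (inv : Inv M F0 H L Fc U) (N : ℕ) (hN : 400 * M ^ 2 * (N + 1) ≤ k)
    (x : V) (R : Rt V) (hnd : (rtV x R).Nodup) (hv : ∀ st ∈ steps x R, VR Fc H st)
    (hc : ∀ h, (∃ st ∈ steps x R, st.2.1 = some h) →
      (steps x R).countP (fun st => decide (¬ Disjoint (reach M U st) (h.1 \ Sat M U h))) ≤ N)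
    (R' R'' : Rt V) (o : Option (Hub V)) (y : V) (hR : R = R' ++ (o, y) :: R'')
    (P : List V) (X : Finset (Sym2 V)) (I : LPInv M H U x (rtV x R) R' P X) :
    ∃ (P' : List V) (X' : Finset (Sym2 V)), LPInv M H U x (rtV x R) (R' ++ [(o, y)]) P' X' := by
  have hM := cs.hM
  set x' := endV x R' with hx'
  have hstm : (x', o, y) ∈ steps x R := by
    rw [hR, lp_steps_append2]
    simp [steps, hx']
  have hrtV : rtV x R = rtV x R' ++ y :: R''.map Prod.snd := by
    rw [hR]; simp [rtV]
  have hyA : y ∈ rtV x R := by rw [hrtV]; simp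
  have hx'R : x' ∈ rtV x R' := lp_endV_mem x R'
  have hx'A : x' ∈ rtV x R := by rw [hrtV]; exact List.mem_append_left _ hx'R
  have hyR' : y ∉ rtV x R' := by
    intro h
    rw [hrtV] at hnd
    exact (List.nodup_append.1 hnd).2.2 y h y (by simp) rfl
  have hyP : y ∉ P := fun h => hyR' (I.inA y h hyA)
  have hxy : x' ≠ y := fun h => hyR' (h ▸ hx'R)
  have hVR := hv _ hstm
  have hrt' : rtV x (R' ++ [(o, y)]) = rtV x R' ++ [y] := by simp [rtV]
  cases o with
  | none =>
    refine ⟨P ++ [y], X, ?_⟩
    have hstep : steps x (R' ++ [(none, y)]) = steps x R' ++ [(x', none, y)] := lp_steps_append _ _ _ _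
    refine ⟨?_, ?_, ?_, ?_, ?_, ?_, I.XU, ?_, ?_, ?_, I.dN⟩
    · rw [List.head?_append, I.head]; rfl
    · rw [lp_endV_append]; simp
    · rw [List.nodup_append]
      refine ⟨I.nd, List.nodup_singleton y, ?_⟩
      intro a ha b hb
      rw [List.mem_singleton] at hb
      subst hb
      exact fun h => hyP (h ▸ ha)
    · have := I.len
      simp only [List.length_append, List.length_singleton]
      omega
    · intro v hvP hvA
      rw [hrt', List.mem_append]
      rcases List.mem_append.1 hvP with h | h
      · exact Or.inl (I.inA v h hvA)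
      · exact Or.inr h
    · intro h hh
      rw [hstep]
      refine lp_cnt_step M U _ P [y] 1 _ _ (I.cntP h hh) ?_ (by simp; omega)
      intro v hv'
      rw [List.mem_singleton] at hv'
      subst hv'
      unfold reach
      simp
    · rw [hstep, lp_FE_append, lp_pE_glue P [y] x' I.last, List.toFinset_append, I.XP, if_pos rfl,
        ← Finset.union_assoc]
      congr 1
    · intro h hh
      rw [hstep, List.countP_append]
      exact (I.cX h hh).trans (Nat.mul_le_mul_left _ (Nat.le_add_right _ _))
    · intro h hh z hz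
      rw [hstep, List.countP_append]
      exact (I.dA h hh z hz).trans (Nat.le_add_right _ _)
  | some h0 =>
    obtain ⟨hh0, hx'h, hyh⟩ := hVR.2 h0 rfl
    simp only at hx'h hyh
    obtain ⟨hsupp, hhS, hk, hCD⟩ := cs.hub.1 h0 hh0
    have hstep : steps x (R' ++ [(some h0, y)]) = steps x R' ++ [(x', some h0, y)] :=
      lp_steps_append _ _ _ _
    set D : Finset V := (Sat M U h0 ∪ P.toFinset ∪ (rtV x R).toFinset) \ {x', y} with hD
    have hcN := hc h0 ⟨_, hstm, rfl⟩
    have hcR' : (steps x R').countP (fun st => decide (¬ Disjoint (reach M U st) (h0.1 \ Sat M U h0))) ≤ N := by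
      refine le_trans ?_ hcN
      rw [hR, lp_steps_append2, List.countP_append]
      exact Nat.le_add_right _ _
    have hA1 : ((rtV x R).toFinset ∩ (h0.1 \ Sat M U h0)).card ≤ 2 * N := by
      refine (lp_rtV_count M U (h0.1 \ Sat M U h0) (steps x R) _ ?_).trans (Nat.mul_le_mul_left _ hcN)
      intro v hv'
      rw [Finset.mem_inter, List.mem_toFinset] at hv'
      refine ⟨hv'.2, lp_rtV_step x R ?_ v hv'.1⟩
      rw [hR]; simp
    have hP1 : (P.toFinset ∩ (h0.1 \ Sat M U h0)).card ≤ 8 * M * N + 1 :=
      (I.cntP h0 hh0).trans (Nat.add_le_add_right (Nat.mul_le_mul_left _ hcR') _)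
    have hDcard : (D ∩ h0.1).card ≤ (Sat M U h0).card + (8 * M * N + 1) + 2 * N := by
      have hsub : D ∩ h0.1 ⊆ (Sat M U h0 ∪ (P.toFinset ∩ (h0.1 \ Sat M U h0))) ∪
          ((rtV x R).toFinset ∩ (h0.1 \ Sat M U h0)) := by
        intro v hv'
        rw [hD, Finset.mem_inter, Finset.mem_sdiff, Finset.mem_union, Finset.mem_union] at hv'
        simp only [Finset.mem_union, Finset.mem_inter, Finset.mem_sdiff]
        tauto
      refine (Finset.card_le_card hsub).trans ?_
      refine (Finset.card_union_le _ _).trans (Nat.add_le_add ?_ hA1)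
      exact (Finset.card_union_le _ _).trans (Nat.add_le_add_left hP1 _)
    have hsat := Inv.sat cs inv h0 hh0
    have hDb : 8 * M * (D ∩ h0.1).card ≤ h0.1.card := by
      have h1 : 8 * M * (D ∩ h0.1).card ≤ 8 * M * ((Sat M U h0).card + (8 * M * N + 1) + 2 * N) :=
        Nat.mul_le_mul_left _ hDcard
      have h2 : 400 * M ^ 2 * (N + 1) ≤ h0.1.card := hN.trans hk
      have h3 : M ≤ M ^ 2 := by nlinarith
      have h4 : M * N ≤ M ^ 2 * N := Nat.mul_le_mul_right _ h3
      have h5 : 8 * M * ((Sat M U h0).card + (8 * M * N + 1) + 2 * N) =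
        8 * (M * (Sat M U h0).card) + 64 * (M ^ 2 * N) + 16 * (M * N) + 8 * M := by ring
      have h6 : 400 * M ^ 2 * (N + 1) = 400 * (M ^ 2 * N) + 400 * M ^ 2 := by ring
      have h7 : 16 * M * (Sat M U h0).card = 16 * (M * (Sat M U h0).card) := by ring
      rw [h5] at h1
      rw [h6] at h2
      rw [h7] at hsat
      omega
    obtain ⟨q, ⟨hqh, hql, hqn, hqE⟩, hqV, hqlen⟩ := link M hM h0.2 (U ∩ h0.2) h0.1 D hCD
      (Inv.deg cs inv h0 hh0) hDb x' y hx'h hyh (by simp [hD]) (by simp [hD]) hxy
    -- q = x' :: t
    obtain ⟨t, rfl⟩ : ∃ t, q = x' :: t := by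
      cases q with
      | nil => simp at hqh
      | cons a t => 
        simp only [List.head?_cons, Option.some.injEq] at hqh
        exact ⟨t, by rw [hqh]⟩
    have ht0 : t ≠ [] := by
      rintro rfl
      simp at hql
      exact hxy hql
    have htl : t.getLast? = some y := by
      cases t with
      | nil => exact absurd rfl ht0
      | cons b t => rw [← hql, List.getLast?_cons_cons]
    have htx' : x' ∉ t := (List.nodup_cons.1 hqn).1
    have htP : ∀ v ∈ t, v ∉ P := by
      intro v hvt hvP
      have h1 := (hqV v (List.mem_cons_of_mem _ hvt)).2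
      have h2 : v ≠ x' := fun e => htx' (e ▸ hvt)
      have h3 : v ≠ y := fun e => hyP (e ▸ hvP)
      apply h1
      rw [hD, Finset.mem_sdiff, Finset.mem_union, Finset.mem_union, List.mem_toFinset]
      refine ⟨Or.inl (Or.inr hvP), ?_⟩
      simp [h2, h3]
    have htA : ∀ v ∈ t, v ≠ y → v ∉ rtV x R ∧ v ∉ Sat M U h0 := by
      intro v hvt hvy
      have h1 := (hqV v (List.mem_cons_of_mem _ hvt)).2
      have h2 : v ≠ x' := fun e => htx' (e ▸ hvt)
      constructor
      · intro hvA
        apply h1
        rw [hD, Finset.mem_sdiff, Finset.mem_union, List.mem_toFinset]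
        refine ⟨Or.inr hvA, ?_⟩
        simp [h2, hvy]
      · intro hvA
        apply h1
        rw [hD, Finset.mem_sdiff, Finset.mem_union, Finset.mem_union]
        refine ⟨Or.inl (Or.inl hvA), ?_⟩
        simp [h2, hvy]
    set Q := (pE (x' :: t)).toFinset with hQ
    have hQsub : Q ⊆ h0.2 \ U := by
      intro e he
      have := hqE e (List.mem_toFinset.1 he)
      rw [Finset.mem_sdiff, Finset.mem_inter] at this
      rw [Finset.mem_sdiff]
      tauto
    have hXsub : X ⊆ (pE P).toFinset := by rw [I.XP]; exact Finset.subset_union_left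
    have hXP0 : ∀ z, z ∉ P → ∀ B ⊆ X, dg B z = 0 := by
      intro z hz B hB
      refine lp_dg_zero _ _ fun e he hze => hz ?_
      exact lp_mem_pE P e (List.mem_toFinset.1 (hXsub (hB he))) z hze
    have hQcard : Q.card ≤ 8 * M := by
      refine (List.toFinset_card_le _).trans ?_
      rw [lp_pE_length]
      omega
    have hQo : ∀ h ∈ H, h ≠ h0 → Q ∩ h.2 = ∅ := by
      intro h hh hne
      haveI hsym : Std.Symm (fun (h h' : Hub V) => Disjoint h.2 h'.2) := ⟨fun a b hab => hab.symm⟩
      have hdis : Disjoint h.2 h0.2 := List.Pairwise.forall cs.hub.2 hh hh0 hne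
      rw [Finset.eq_empty_iff_forall_notMem]
      intro e he
      rw [Finset.mem_inter] at he
      exact Finset.disjoint_left.1 hdis he.2 (Finset.mem_sdiff.1 (hQsub he.1)).1
    refine ⟨P ++ t, X ∪ Q, ?_⟩
    refine ⟨?_, ?_, ?_, ?_, ?_, ?_, ?_, ?_, ?_, ?_, ?_⟩
    · rw [List.head?_append, I.head]; rfl
    · rw [lp_endV_append, List.getLast?_append, htl]; rfl
    · rw [List.nodup_append]
      refine ⟨I.nd, (List.nodup_cons.1 hqn).2, ?_⟩
      intro a ha b hb hab
      exact htP b hb (hab ▸ ha)
    · have := I.len
      have h1 : 1 ≤ t.length := List.length_pos_iff.2 ht0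
      simp only [List.length_append, List.length_singleton]
      omega
    · intro v hvP hvA
      rw [hrt', List.mem_append]
      rcases List.mem_append.1 hvP with h | h
      · exact Or.inl (I.inA v h hvA)
      · right
        by_cases hvy : v = y
        · simp [hvy]
        · exact absurd hvA (htA v h hvy).1
    · intro h hh
      rw [hstep]
      refine lp_cnt_step M U _ P t 1 _ _ (I.cntP h hh) ?_ (by simp only [List.length_cons] at hqlen; omega)
      intro v hv'
      unfold reach
      by_cases hvy : v = y
      · simp [hvy]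
      · rw [Finset.mem_union]
        left
        exact Finset.mem_sdiff.2 ⟨(hqV v (List.mem_cons_of_mem _ hv')).1, (htA v hv' hvy).2⟩
    · refine Finset.union_subset I.XU ?_
      intro e he
      have := Finset.mem_sdiff.1 (hQsub he)
      exact Finset.mem_sdiff.2 ⟨lp_hub_mem H h0 hh0 this.1, this.2⟩
    · rw [hstep, lp_FE_append, lp_pE_glue P t x' I.last, List.toFinset_append, I.XP, if_neg (by simp),
        Finset.union_empty, ← hQ]
      ext e
      simp only [Finset.mem_union]
      tauto
    · intro h hh
      rw [hstep, List.countP_append, List.countP_singleton, Finset.union_inter_distrib_right, Nat.mul_add]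
      refine (Finset.card_union_le _ _).trans (Nat.add_le_add (I.cX h hh) ?_)
      by_cases hne : h = h0
      · subst hne
        simp only [decide_true, if_true, Nat.mul_one]
        exact (Finset.card_le_card Finset.inter_subset_left).trans hQcard
      · rw [hQo h hh hne]; simp
    · intro h hh z hz
      rw [hstep, List.countP_append, List.countP_singleton, Finset.union_inter_distrib_right]
      refine (lp_dg_union _ _ z).trans (Nat.add_le_add (I.dA h hh z hz) ?_)
      by_cases hne : h = h0
      · subst hne
        have hQm : dg (Q ∩ h.2) z ≤ dg Q z := lp_dg_mono Finset.inter_subset_left z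
        refine hQm.trans ?_
        by_cases hzx : z = x'
        · subst hzx
          simp only [true_or, and_self, decide_true, if_true]
          exact lp_dg_head t _ hqn
        · by_cases hzy : z = y
          · subst hzy
            simp only [or_true, and_self, decide_true, if_true]
            exact lp_dg_last _ _ hqn hql
          · have : z ∉ x' :: t := by
              intro hzt
              rcases List.mem_cons.1 hzt with h' | h'
              · exact hzx h'
              · exact (htA z h' hzy).1 hz
            rw [hQ, lp_dg_notMem _ _ this]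
            exact Nat.zero_le _
      · rw [hQo h hh hne]; simp [dg]
    · intro h hh z hz
      rw [Finset.union_inter_distrib_right]
      by_cases hne : h = h0
      · subst hne
        by_cases hzt : z ∈ x' :: t
        · have hzx : z ≠ x' := fun e => hz (e ▸ hx'A)
          have hzy : z ≠ y := fun e => hz (e ▸ hyA)
          have hzt' : z ∈ t := by
            rcases List.mem_cons.1 hzt with h' | h'
            · exact absurd h' hzx
            · exact h'
          have h1 := htP z hzt'
          have h2 := (htA z hzt' hzy).2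
          refine (lp_dg_union _ _ z).trans ?_
          rw [hXP0 z h1 _ Finset.inter_subset_left, if_neg h2, Nat.zero_add]
          exact (lp_dg_mono Finset.inter_subset_left z).trans (lp_dg_two _ _ hqn)
        · have h3 : dg (Q ∩ h.2) z = 0 := by
            have h4 : dg (Q ∩ h.2) z ≤ dg Q z := lp_dg_mono Finset.inter_subset_left z
            rw [hQ, lp_dg_notMem _ _ hzt, ← hQ] at h4
            omega
          refine (lp_dg_union _ _ z).trans ?_
          rw [h3, Nat.add_zero]
          exact I.dN h hh z hz
      · rw [hQo h hh hne, Finset.union_empty]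
        exact I.dN h hh z hz

private theorem lp_all {M k T : ℕ} {S : Finset V} {F0 : Finset (Sym2 V)} {H : List (Hub V)}
    {L : Hub V → Finset V} {π : V → V} (cs : CS M k T S F0 H L π) {Fc U : Finset (Sym2 V)}
    (inv : Inv M F0 H L Fc U) (N : ℕ) (hN : 400 * M ^ 2 * (N + 1) ≤ k)
    (x : V) (R : Rt V) (hnd : (rtV x R).Nodup) (hv : ∀ st ∈ steps x R, VR Fc H st)
    (hc : ∀ h, (∃ st ∈ steps x R, st.2.1 = some h) →
      (steps x R).countP (fun st => decide (¬ Disjoint (reach M U st) (h.1 \ Sat M U h))) ≤ N)
    (R' : Rt V) : ∀ R'' : Rt V, R = R' ++ R'' →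
    ∃ (P' : List V) (X' : Finset (Sym2 V)), LPInv M H U x (rtV x R) R' P' X' := by
  induction R' using List.reverseRecOn with
  | nil => 
    intro R'' _
    exact ⟨[x], ∅, lp_base M H U x _⟩
  | append_singleton R' p ih =>
    intro R'' hR
    obtain ⟨o, y⟩ := p
    rw [List.append_assoc, List.singleton_append] at hR
    obtain ⟨P, X, I⟩ := ih _ hR
    exact lp_step cs inv N hN x R hnd hv hc R' R'' o y hR P X I

/-- (H1) LIFTING A ROUTE TO A REAL PATH.
PROOF.  Put `A = rtV x R` (nodup).  Induction over the prefixes `R'` of `R` (`R = R' ++ R''`, `List.reverseRecOn` or induction on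
`R''`): there is a list `P` with: head `x`, last `endV x R'`, nodup, `|R'| + 1 ≤ |P|`; (1) `v ∈ P`, `v ∈ A` ⇒ `v ∈ rtV x R'`;
(2) every `v ∈ P` is in `reach` of some step of `steps x R'` or `v = x`, more precisely for every `h ∈ H`:
`#{v ∈ P : v ∈ h.1 \ Sat h} ≤ 8M * countP (steps x R') (reach meets h.1 \ Sat h) + 1`; (3) the last three conclusions for `R'` (with `z ∈ A` /
`z ∉ A` in place of `z ∈ rtV x R`, counting steps of `R'`), where `X` = union of the edges of the links; every vertex of a link
which is not an end of its step is `∉ A` and `∉ Sat`.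
STEP `(o,y)`, `x' = endV x R'`: `o = none`: `P ++ [y]` (`y ∉ P` by (1)).  `o = some h`: `D = (Sat h ∪ P ∪ A) \ {x', y}`; by (2), by the
hypothesis `hc` and since each `v ∈ A` is in the reach of a step, `|D ∩ h.1| ≤ |Sat h| + 8MN + 1 + 2N`, and so
`8 M |D ∩ h.1| ≤ |h.1|/2 + 8M(8MN + 2N + 1) ≤ |h.1|` (`Inv.sat`, `hN`).  `link` with `E := h.2`, `U := U ∩ h.2`, `S := h.1`
(`Inv.deg`; `x' ≠ y` as `rtV` nodup) gives a path `q` from `x'` to `y` of `≤ 8M` vertices; new `P' = P ++ q.tail`,
`X' = X ∪ (pE q).toFinset`.  `q` has `≤ 8M - 1` edges; its inner vertices are `∉ D` so `∉ A`, `∉ P`, `∉ Sat h`, and lie in `h.1`,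
i.e. in the `reach` of the step.  Edges of `q` contain a vertex outside `P` or are ... (all edges of `q` have at least one end
`≠ x'`, which is not in `P`), so `X ∩ (pE q) = ∅`; not needed.
`dg (pE q) z ≤ 2` for all `z`, `≤ 1` for the ends `x', y`.  For hubs `h' ≠ h` the new edges are not in `h'.2`
(disjoint edge sets), for `h' = h` (equal pairs) they are. -/
theorem liftPath {M k T : ℕ} {S : Finset V} {F0 : Finset (Sym2 V)} {H : List (Hub V)}
    {L : Hub V → Finset V} {π : V → V} (cs : CS M k T S F0 H L π) {Fc U : Finset (Sym2 V)}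
    (inv : Inv M F0 H L Fc U) (N : ℕ) (hN : 400 * M ^ 2 * (N + 1) ≤ k)
    (x : V) (R : Rt V) (hnd : (rtV x R).Nodup) (hv : ∀ st ∈ steps x R, VR Fc H st)
    (hc : ∀ h, (∃ st ∈ steps x R, st.2.1 = some h) →
      (steps x R).countP (fun st => decide (¬ Disjoint (reach M U st) (h.1 \ Sat M U h))) ≤ N) :
    ∃ (P : List V) (X : Finset (Sym2 V)), P.head? = some x ∧ P.getLast? = some (endV x R) ∧ P.Nodup ∧
      R.length + 1 ≤ P.length ∧ X ⊆ hubE H \ U ∧ (pE P).toFinset = X ∪ FE (steps x R) ∧
      (∀ h ∈ H, (X ∩ h.2).card ≤ 8 * M * (steps x R).countP (fun st => decide (st.2.1 = some h))) ∧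
      (∀ h ∈ H, ∀ z ∈ rtV x R, dg (X ∩ h.2) z ≤
        (steps x R).countP (fun st => decide (st.2.1 = some h ∧ (st.1 = z ∨ st.2.2 = z)))) ∧
      (∀ h ∈ H, ∀ z ∉ rtV x R, dg (X ∩ h.2) z ≤ if z ∈ Sat M U h then 0 else 2) := by
  obtain ⟨P, X, I⟩ := lp_all cs inv N hN x R hnd hv hc R [] (by simp)
  exact ⟨P, X, I.head, I.last, I.nd, I.len, I.XU, I.XP, I.cX, I.dA, I.dN⟩

end Crest.Agent.EG
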