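import Crest.Agent.EG.Stage

set_option autoImplicit false

namespace Crest.Agent.EG
open Finset

variable {V : Type} [DecidableEq V]

/-- (I4) ITERATED STAGES.  PROOF.  Recursion on `r`: `Er 0 = E`, apply `stage` with `l = l r`, `d = D (r+1)`, `k = k r` to
`Er r`, `Er (r+1) = E1`.  (Induction on `R`, extending the functions by `Function.update`; or recursion on
`{E // Supp E S}` with `Classical.choice`.)  `|Er (r+1)| ≤ 2 D (r+1) |S|` by `stage`. -/
theorem stages (E : Finset (Sym2 V)) (S : Finset V) (hS : Supp E S) (R M : ℕ) (l D k : ℕ → ℕ)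
    (hM : 1 ≤ M) (h0 : E.card ≤ 2 * D 0 * S.card)
    (hr : ∀ r < R, 3 ≤ l r ∧ 1 ≤ D (r + 1) ∧ 1 ≤ k r ∧ 300 * l r ≤ M * D (r + 1) ∧ 100 * k r ≤ D (r + 1)) :
    ∃ (Er Ec : ℕ → Finset (Sym2 V)) (c a : ℕ → ℕ) (H : ℕ → List (Hub V)), Er 0 = E ∧
      (∀ r ≤ R, Supp (Er r) S ∧ (Er r).card ≤ 2 * D r * S.card) ∧
      ∀ r < R, Dec (Ec r) (c r) ∧ c r * l r ≤ (Er r).card ∧ HubSys M (k r) S (H r) ∧
        Er r = Ec r ∪ Er (r + 1) ∪ hubE (H r) ∧ Disjoint (Ec r) (Er (r + 1)) ∧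
        Disjoint (Ec r) (hubE (H r)) ∧ Disjoint (Er (r + 1)) (hubE (H r)) ∧ a r ≤ S.card ∧
        ((H r).map (fun h => h.1.card)).sum ≤ 2 * a r ∧ 24 * a r ≤ 25 * (hubV (H r)).card ∧
        (Er r \ Ec r).card ≤ D (r + 1) * S.card + 3 * l r * a r := by
  have hst : ∀ (r : ℕ) (E' : Finset (Sym2 V)), ∃ (Ec E1 : Finset (Sym2 V)) (c a : ℕ)
      (H : List (Hub V)), (r < R → Supp E' S →
      Dec Ec c ∧ c * l r ≤ E'.card ∧ HubSys M (k r) S H ∧
      E' = Ec ∪ E1 ∪ hubE H ∧ Disjoint Ec E1 ∧ Disjoint Ec (hubE H) ∧ Disjoint E1 (hubE H) ∧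
      E1.card ≤ 2 * D (r + 1) * S.card ∧ a ≤ S.card ∧
      (H.map (fun h => h.1.card)).sum ≤ 2 * a ∧ 24 * a ≤ 25 * (hubV H).card ∧
      (E' \ Ec).card ≤ D (r + 1) * S.card + 3 * l r * a) := by
    intro r E'
    by_cases h1 : r < R
    · by_cases h2 : Supp E' S
      · obtain ⟨hl, hd, hk, hMd, hkd⟩ := hr r h1
        obtain ⟨Ec, E1, c, a, H, h⟩ := stage E' S h2 (l r) (D (r + 1)) (k r) M hl hd hk hM hMd hkd
        exact ⟨Ec, E1, c, a, H, fun _ _ => h⟩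
      · exact ⟨∅, ∅, 0, 0, [], fun _ h => absurd h h2⟩
    · exact ⟨∅, ∅, 0, 0, [], fun h _ => absurd h h1⟩
  choose Ecf E1f cf af Hf hf using hst
  let Er : ℕ → Finset (Sym2 V) := fun n => Nat.rec E (fun r E' => E1f r E') n
  have hEr0 : Er 0 = E := rfl
  have hErs : ∀ r, Er (r + 1) = E1f r (Er r) := fun r => rfl
  have hsupp : ∀ r ≤ R, Supp (Er r) S ∧ (Er r).card ≤ 2 * D r * S.card := by
    intro r
    induction r with
    | zero => intro _; exact ⟨hS, h0⟩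
    | succ r ih =>
      intro hrR
      obtain ⟨ih1, _⟩ := ih (by omega)
      obtain ⟨_, _, _, h4, _, _, _, h8, _⟩ := hf r (Er r) (by omega) ih1
      rw [hErs]
      have hsub : E1f r (Er r) ⊆ Er r := by
        intro e he
        rw [h4, Finset.mem_union, Finset.mem_union]
        exact Or.inl (Or.inr he)
      exact ⟨⟨hsub.trans ih1.1, fun e he => ih1.2 e (hsub he)⟩, h8⟩
  refine ⟨Er, fun r => Ecf r (Er r), fun r => cf r (Er r), fun r => af r (Er r),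
    fun r => Hf r (Er r), hEr0, hsupp, ?_⟩
  intro r hrR
  obtain ⟨h1, h2, h3, h4, h5, h6, h7, _, h9, h10, h11, h12⟩ :=
    hf r (Er r) hrR (hsupp r hrR.le).1
  exact ⟨h1, h2, h3, h4, h5, h6, h7, h9, h10, h11, h12⟩

/-- (I5) UNROLLING.  If every `Er r` (`r < N`) splits as `Ec r ∪ Er (r+1) ∪ X r` disjointly, and `Ec r`, `X r`, `Er N` are
decomposed, then so is `Er 0`.  PROOF.  Induction on `N`, `Dec.union`. -/
theorem unroll (N : ℕ) (Er Ec X : ℕ → Finset (Sym2 V)) (c x : ℕ → ℕ) (mN : ℕ)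
    (h : ∀ r < N, Er r = Ec r ∪ Er (r + 1) ∪ X r ∧ Disjoint (Ec r) (Er (r + 1)) ∧
      Disjoint (Ec r) (X r) ∧ Disjoint (Er (r + 1)) (X r) ∧ Dec (Ec r) (c r) ∧ Dec (X r) (x r))
    (hN : Dec (Er N) mN) :
    Dec (Er 0) (∑ r ∈ range N, (c r + x r) + mN) := by
  induction N generalizing mN with
  | zero => simpa using hN
  | succ N ih =>
    obtain ⟨h1, h2, h3, h4, h5, h6⟩ := h N (Nat.lt_succ_self N)
    have h7 : Dec (Er N) (c N + mN + x N) := by
      rw [h1]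
      refine Dec.union (Dec.union h5 hN h2) h6 ?_
      rw [Finset.disjoint_union_left]
      exact ⟨h3, h4⟩
    have h8 := ih (c N + mN + x N) (fun r hr => h r (by omega)) h7
    rw [Finset.sum_range_succ]
    exact Dec.mono h8 (by omega)

end Crest.Agent.EG
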