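import Crest.Agent.EG.Params
import Crest.Agent.EG.Stages
import Crest.Agent.EG.HubsDec
import Crest.Agent.EG.Contract

set_option autoImplicit false

namespace Crest.Agent.EG
open Finset

/-- double counting -/
private theorem mn_deg_sum {V : Type} [DecidableEq V] (E : Finset (Sym2 V)) (T : Finset V) :
    ∑ v ∈ T, dg E v ≤ 2 * E.card := by
  unfold dg
  simp only [card_filter]
  rw [sum_comm]
  calc ∑ e ∈ E, ∑ v ∈ T, (if v ∈ e then 1 else 0) ≤ ∑ e ∈ E, 2 := by
        refine sum_le_sum fun e _ => ?_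
        rw [← card_filter]
        induction e using Sym2.ind with
        | _ x y =>
          refine (card_le_card (t := {x, y}) ?_).trans (card_le_two)
          intro v hv
          rw [mem_filter, Sym2.mem_iff] at hv
          rw [mem_insert, mem_singleton]
          exact hv.2
    _ = 2 * E.card := by rw [sum_const, smul_eq_mul, mul_comm]

/-- `(t + 1) #{v ∈ A : t < dg F v} ≤ 2 |F|` -/
private theorem mn_bad {V : Type} [DecidableEq V] (F : Finset (Sym2 V)) (A : Finset V) (t : ℕ) :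
    (t + 1) * (A.filter (fun v => t < dg F v)).card ≤ 2 * F.card := by
  refine le_trans ?_ (mn_deg_sum F (A.filter (fun v => t < dg F v)))
  rw [mul_comm, ← smul_eq_mul, ← sum_const]
  refine sum_le_sum fun v hv => ?_
  rw [mem_filter] at hv
  exact hv.2

/-- an edge set supported in the empty set is empty -/
private theorem mn_supp_empty {V : Type} [DecidableEq V] {S : Finset V} {E : Finset (Sym2 V)}
    (h : Supp E S) (hS : S.card = 0) : E = ∅ := by
  rw [card_eq_zero] at hS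
  subst hS
  simpa using h.1

/-- subset of a supported set -/
private theorem mn_supp_sub {V : Type} [DecidableEq V] {S : Finset V} {E E' : Finset (Sym2 V)}
    (h : Supp E S) (h' : E' ⊆ E) : Supp E' S :=
  ⟨h'.trans h.1, fun e he => h.2 e (h' he)⟩

/-- the number of hubs -/
private theorem mn_len {V : Type} (k : ℕ) (H : List (Hub V)) (h : ∀ x ∈ H, k ≤ x.1.card) :
    H.length * k ≤ (H.map (fun h => h.1.card)).sum := by
  induction H with
  | nil => simp
  | cons x H ih =>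
    have h1 := ih (fun y hy => h y (List.mem_cons_of_mem _ hy))
    have h2 := h x List.mem_cons_self
    simp only [List.length_cons, List.map_cons, List.sum_cons]
    rw [add_mul]
    omega

/-- hubs are edge subsets of the union -/
private theorem mn_sub_hubE {V : Type} [DecidableEq V] (H : List (Hub V)) :
    ∀ h ∈ H, h.2 ⊆ hubE H := by
  induction H with
  | nil => intro h hh; simp at hh
  | cons x H ih =>
    intro h hh
    rcases List.mem_cons.1 hh with rfl | hh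
    · exact subset_union_left
    · exact (ih h hh).trans subset_union_right

/-- `log` bound -/
private theorem mn_log (e n L : ℕ) (hL : 2 ≤ L) (h : 4 * e ≤ 2 ^ L * n) :
    Nat.log 2 (e / n) + 2 ≤ L := by
  obtain ⟨l, rfl⟩ : ∃ l, L = l + 2 := ⟨L - 2, by omega⟩
  have h1 : e / n ≤ 2 ^ l := by
    apply Nat.div_le_of_le_mul
    rw [pow_add] at h
    nlinarith
  have h2 : Nat.log 2 (e / n) ≤ Nat.log 2 (2 ^ l) := Nat.log_mono_right h1
  rw [Nat.log_pow (by norm_num)] at h2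
  omega

/-- `log` bound, strict version -/
private theorem mn_log' (e n L : ℕ) (hL : 2 ≤ L) (h : 2 * e < 2 ^ L * n) :
    Nat.log 2 (e / n) + 2 ≤ L := by
  obtain ⟨l, rfl⟩ : ∃ l, L = l + 2 := ⟨L - 2, by omega⟩
  have h1 : e / n < 2 ^ (l + 1) := by
    apply Nat.div_lt_of_lt_mul
    rw [pow_add] at h
    rw [pow_succ]
    nlinarith
  rcases Nat.eq_zero_or_pos (e / n) with h0 | h0
  · rw [h0]; simp
  · have h2 : Nat.log 2 (e / n) < l + 1 := Nat.log_lt_of_lt_pow (by omega) h1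
    omega

/-- number of removed long cycles -/
private theorem mn_c (c D L n e x : ℕ) (hD : 1 ≤ D) (hL : 1 ≤ L) (h : c * (D * L ^ 3) ≤ e + 3 * (D * L ^ 3) * (2 * x))
    (he : e ≤ 2 * D * n) : (c : ℝ) ≤ 2 * n / L ^ 3 + 6 * x := by
  have hL3 : (0 : ℝ) < (L : ℝ) ^ 3 := by positivity
  have h1 : D * (c * L ^ 3) ≤ D * (2 * n + 6 * L ^ 3 * x) := by nlinarith
  have h2 : c * L ^ 3 ≤ 2 * n + 6 * L ^ 3 * x := Nat.le_of_mul_le_mul_left h1 hD
  have h3 : (c : ℝ) * L ^ 3 ≤ 2 * n + 6 * L ^ 3 * x := by exact_mod_cast h2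
  have h4 : 2 * (n : ℝ) / L ^ 3 + 6 * x = (2 * n + 6 * L ^ 3 * x) / L ^ 3 := by
    field_simp
  rw [h4, le_div_iff₀ hL3]
  exact h3

private theorem mn_union1 {α : Type} [DecidableEq α] (A B C U : Finset α) (h : U ⊆ C) :
    A ∪ B ∪ C = A ∪ (B ∪ U) ∪ (C \ U) := by
  ext e
  simp only [mem_union, mem_sdiff]
  have := @h e
  tauto

private theorem mn_union2 {α : Type} [DecidableEq α] (A B C U : Finset α) :
    A ∪ B ∪ C ∪ U = A ∪ (B ∪ U) ∪ C := by
  ext e
  simp only [mem_union]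
  tauto

/-- assembling the decompositions of all stages -/
private theorem mn_assemble {V : Type} [DecidableEq V] (j R : ℕ) (hj : j + 4 < R)
    (Er Ec Hb : ℕ → Finset (Sym2 V)) (c x : ℕ → ℕ) (U : Finset (Sym2 V)) (mN : ℕ)
    (hst : ∀ r < R, Dec (Ec r) (c r) ∧ Er r = Ec r ∪ Er (r + 1) ∪ Hb r ∧ Disjoint (Ec r) (Er (r + 1)) ∧
        Disjoint (Ec r) (Hb r) ∧ Disjoint (Er (r + 1)) (Hb r)) (hU1 : U ⊆ Hb j)
    (hhub : ∀ r < R, r ≠ j → Dec (Hb r) (x r)) (hhubj : Dec (Hb j \ U) (x j))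
    (hN : Dec (Er (j + 5) ∪ U) mN) :
    Dec (Er 0) (∑ r ∈ range (j + 5), (c r + x r) + mN) := by
  -- antitone
  have hanti1 : ∀ r < R, Er (r + 1) ⊆ Er r := by
    intro r hr
    obtain ⟨_, h4, _⟩ := hst r hr
    rw [h4]
    exact subset_union_right.trans subset_union_left
  have hanti : ∀ r s, r ≤ s → s ≤ R → Er s ⊆ Er r := by
    intro r s hrs
    induction s, hrs using Nat.le_induction with
    | base => intro _; exact Subset.refl _
    | succ s hs ih => intro h; exact (hanti1 s (by omega)).trans (ih (by omega))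
  obtain ⟨hs1, hs4, hs5, hs6, hs7⟩ := hst j (by omega)
  let Er' : ℕ → Finset (Sym2 V) := fun r => if r ≤ j then Er r else Er r ∪ U
  let X : ℕ → Finset (Sym2 V) := fun r => if r = j then Hb j \ U else Hb r
  have e0 : Er' 0 = Er 0 := if_pos (by omega)
  rw [← e0]
  refine unroll (j + 5) Er' Ec X c x mN ?_ ?_
  · intro r hr
    obtain ⟨g1, g4, g5, g6, g7⟩ := hst r (by omega)
    rcases lt_trichotomy r j with hrj | hrj | hrj
    · have e1 : Er' r = Er r := if_pos (by omega)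
      have e2 : Er' (r + 1) = Er (r + 1) := if_pos (by omega)
      have e3 : X r = Hb r := if_neg (by omega)
      rw [e1, e2, e3]
      exact ⟨g4, g5, g6, g7, g1, hhub r (by omega) (by omega)⟩
    · subst hrj
      have e1 : Er' r = Er r := if_pos (by omega)
      have e2 : Er' (r + 1) = Er (r + 1) ∪ U := if_neg (by omega)
      have e3 : X r = Hb r \ U := if_pos rfl
      rw [e1, e2, e3]
      refine ⟨?_, ?_, ?_, ?_, g1, hhubj⟩
      · rw [g4]
        exact mn_union1 _ _ _ _ hU1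
      · rw [disjoint_union_right]
        exact ⟨g5, disjoint_of_subset_right hU1 g6⟩
      · exact disjoint_of_subset_right sdiff_subset g6
      · rw [disjoint_union_left]
        exact ⟨disjoint_of_subset_right sdiff_subset g7, disjoint_sdiff⟩
    · have e1 : Er' r = Er r ∪ U := if_neg (by omega)
      have e2 : Er' (r + 1) = Er (r + 1) ∪ U := if_neg (by omega)
      have e3 : X r = Hb r := if_neg (by omega)
      have hrr : Er r ⊆ Er (j + 1) := hanti (j + 1) r (by omega) (by omega)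
      have hdU : Disjoint (Er (j + 1)) U := disjoint_of_subset_right hU1 hs7
      have hc1 : Ec r ⊆ Er r := by rw [g4]; exact subset_union_left.trans subset_union_left
      have hc2 : Hb r ⊆ Er r := by
        conv_rhs => rw [g4]
        exact subset_union_right
      rw [e1, e2, e3]
      refine ⟨?_, ?_, ?_, ?_, g1, hhub r (by omega) (by omega)⟩
      · conv_lhs => rw [g4]
        exact mn_union2 _ _ _ _
      · rw [disjoint_union_right]
        exact ⟨g5, disjoint_of_subset_left (hc1.trans hrr) hdU⟩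
      · exact g6
      · rw [disjoint_union_left]
        exact ⟨g7, (disjoint_of_subset_left (hc2.trans hrr) hdU).symm⟩
  · have e1 : Er' (j + 5) = Er (j + 5) ∪ U := if_neg (by omega)
    rw [e1]
    exact hN

/-- the total number of parts -/
private theorem mn_total (C0 j a : ℕ) (c x : ℕ → ℕ) (m' cc : ℕ) (y : ℝ)
    (hc : ∀ r ∈ range (j + 5), ((c r : ℕ) : ℝ) ≤ y) (hcc : (cc : ℝ) ≤ y + 6 * a)
    (hx : ∑ r ∈ range (j + 5), x r ≤ 64 * a) :
    ((∑ r ∈ range (j + 5), (c r + (9 + C0) * x r) + (m' + cc) : ℕ) : ℝ) ≤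
      m' + (j + 6) * y + (582 + 64 * C0) * a := by
  have hsum3 : (∑ r ∈ range (j + 5), (x r : ℝ)) ≤ 64 * a := by
    exact_mod_cast hx
  have hsum1 : (∑ r ∈ range (j + 5), (c r : ℝ)) ≤ (j + 5) * y := by
    calc (∑ r ∈ range (j + 5), (c r : ℝ)) ≤ ∑ r ∈ range (j + 5), y := sum_le_sum hc
      _ = (j + 5) * y := by
        rw [sum_const, card_range, nsmul_eq_mul]
        push_cast
        ring
  rw [sum_add_distrib, ← mul_sum]
  push_cast
  have h9 : ((9 : ℝ) + C0) * (∑ r ∈ range (j + 5), (x r : ℝ)) ≤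
      (9 + C0) * (64 * a) := mul_le_mul_of_nonneg_left hsum3 (by positivity)
  linarith

/-- case B of the induction step -/
private theorem mn_caseB (C0 : ℕ) (hC0 : 10 ≤ C0) (V : Type) [DecidableEq V] (S : Finset V)
    (E : Finset (Sym2 V)) (L R M : ℕ) (D k T : ℕ → ℕ) (hL : 100 ≤ L) (hn : 1 ≤ S.card)
    (hRL : R + 2 ≤ L) (hM : 1 ≤ M)
    (hD : ∀ r ≤ R, 1 ≤ D r)
    (hP : ∀ r < R, 1 ≤ D (r + 1) ∧ 16 * D (r + 1) ≤ 2 ^ L ∧ 300 * (D r * L ^ 3) ≤ M * D (r + 1) ∧
      200 ≤ k r ∧ 100 * k r ≤ D (r + 1) ∧ (2 * (2 * M) * 6144) ^ 100 ≤ k r)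
    (hT : ∀ j, j + 4 < R → 10 ^ 6 * M ^ 3 * (T j + 1) ≤ k j ∧ 10 ^ 6 * M ^ 2 * (D (j + 5) * L ^ 3) ≤ k j ∧
      9600 * L ^ 3 * D (j + 5) ≤ T j + 1)
    (hIH : ∀ (S' : Finset V) (E' : Finset (Sym2 V)), Supp E' S' → 1 ≤ S'.card → S'.card < S.card →
      ∃ m' : ℕ, Dec E' m' ∧ (m' : ℝ) ≤ S'.card * (1024 * C0 - 1 / (Nat.log 2 (E'.card / S'.card) + 1)))
    (Er Ec : ℕ → Finset (Sym2 V)) (c a : ℕ → ℕ) (H : ℕ → List (Hub V)) (hE0 : Er 0 = E)
    (hEr : ∀ r ≤ R, Supp (Er r) S ∧ (Er r).card ≤ 2 * D r * S.card)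
    (hst : ∀ r < R, Dec (Ec r) (c r) ∧ c r * (D r * L ^ 3) ≤ (Er r).card ∧ HubSys M (k r) S (H r) ∧
        Er r = Ec r ∪ Er (r + 1) ∪ hubE (H r) ∧ Disjoint (Ec r) (Er (r + 1)) ∧
        Disjoint (Ec r) (hubE (H r)) ∧ Disjoint (Er (r + 1)) (hubE (H r)) ∧ a r ≤ S.card ∧
        ((H r).map (fun h => h.1.card)).sum ≤ 2 * a r ∧ 24 * a r ≤ 25 * (hubV (H r)).card ∧
        (Er r \ Ec r).card ≤ D (r + 1) * S.card + 3 * (D r * L ^ 3) * a r)
    (j : ℕ) (hj : j + 4 < R) (hnj : S.card ≤ 24 * L ^ 3 * a j) (hsum : ∑ r ∈ range (j + 5), a r ≤ 32 * a j) :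
    ∃ m : ℕ, Dec E m ∧ (m : ℝ) ≤ S.card * (1024 * C0 - 1 / (L + 1)) := by
  have hL3 : 3 ≤ L ^ 3 := by
    calc 3 ≤ 100 ^ 3 := by norm_num
      _ ≤ L ^ 3 := Nat.pow_le_pow_left hL 3
  -- antitone
  have hanti1 : ∀ r < R, Er (r + 1) ⊆ Er r := by
    intro r hr
    obtain ⟨_, _, _, h4, _⟩ := hst r hr
    rw [h4]
    exact subset_union_right.trans subset_union_left
  have hanti : ∀ r s, r ≤ s → s ≤ R → Er s ⊆ Er r := by
    intro r s hrs
    induction s, hrs using Nat.le_induction with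
    | base => intro _; exact Subset.refl _
    | succ s hs ih => intro h; exact (hanti1 s (by omega)).trans (ih (by omega))
  obtain ⟨hTj1, hTj2, hTj3⟩ := hT j hj
  have hPj4 : 200 ≤ k j := (hP j (by omega)).2.2.2.1
  obtain ⟨hs1, hs2, hs3, hs4, hs5, hs6, hs7, hs8, hs9, hs10, hs11⟩ := hst j (by omega)
  obtain ⟨hF1, hF2⟩ := hEr (j + 5) (by omega)
  have hFj : Er (j + 5) ⊆ Er (j + 1) := hanti (j + 1) (j + 5) (by omega) (by omega)
  have hDj5 : 1 ≤ D (j + 5) := hD (j + 5) (by omega)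
  have hDj5' : 16 * D (j + 5) ≤ 2 ^ L := (hP (j + 4) (by omega)).2.1
  have hl3 : 3 ≤ D (j + 5) * L ^ 3 := by nlinarith
  obtain ⟨S', E', cc, hS', hE'F, hS'S, hcount, hcc, hlift⟩ :=
    contract (Er (j + 5)) S hF1 (H j) M (k j) (T j) (D (j + 5) * L ^ 3) hM hs3
      (disjoint_of_subset_left hFj hs7) hl3 hTj1 hTj2
  -- counting
  have hbad : 2400 * L ^ 3 * ((hubV (H j)).filter (fun v => T j < dg (Er (j + 5)) v)).card ≤ S.card := by
    have h1 := mn_bad (Er (j + 5)) (hubV (H j)) (T j)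
    set b := ((hubV (H j)).filter (fun v => T j < dg (Er (j + 5)) v)).card
    have h2 : 9600 * L ^ 3 * D (j + 5) * b ≤ (T j + 1) * b := Nat.mul_le_mul_right b hTj3
    have h3 : D (j + 5) * (2400 * L ^ 3 * b) ≤ D (j + 5) * S.card := by nlinarith
    exact Nat.le_of_mul_le_mul_left h3 hDj5
  have hbad2 : 100 * ((hubV (H j)).filter (fun v => T j < dg (Er (j + 5)) v)).card ≤ a j := by
    have h3 : (24 * L ^ 3) * (100 * ((hubV (H j)).filter (fun v => T j < dg (Er (j + 5)) v)).card) ≤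
        (24 * L ^ 3) * a j := by
      refine le_trans (le_of_eq (by ring)) (hbad.trans hnj)
    exact Nat.le_of_mul_le_mul_left h3 (by omega)
  have hlen : 100 * (H j).length ≤ a j := by
    have h1 := mn_len (k j) (H j) (fun x hx => (hs3.1 x hx).2.2.1)
    have h2 : (H j).length * 200 ≤ (H j).length * k j := Nat.mul_le_mul_left _ hPj4
    omega
  have hn' : 100 * S'.card + 92 * a j ≤ 100 * S.card := by omega
  have haj : 1 ≤ a j := by
    rcases Nat.eq_zero_or_pos (a j) with h0 | h0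
    · rw [h0] at hnj; omega
    · exact h0
  have hS'lt : S'.card < S.card := by omega
  -- IH for the contracted graph
  obtain ⟨m', lam', hm'D, hm'le, hlam⟩ : ∃ (m' lam' : ℕ), Dec E' m' ∧
      (m' : ℝ) ≤ S'.card * (1024 * C0 - 1 / (lam' + 1)) ∧ (S.card ≤ 2 * S'.card → lam' + 2 ≤ L) := by
    rcases Nat.eq_zero_or_pos S'.card with h0 | h0
    · refine ⟨0, 0, ?_, ?_, fun _ => by omega⟩
      · rw [mn_supp_empty hS' h0]; exact Dec.empty
      · rw [h0]; simp
    · obtain ⟨m', h1, h2⟩ := hIH S' E' hS' h0 hS'lt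
      refine ⟨m', _, h1, h2, fun h3 => ?_⟩
      apply mn_log _ _ _ (by omega)
      have h4 : E'.card ≤ 2 * D (j + 5) * (2 * S'.card) :=
        hE'F.trans (hF2.trans (Nat.mul_le_mul_left _ h3))
      calc 4 * E'.card ≤ 4 * (2 * D (j + 5) * (2 * S'.card)) := Nat.mul_le_mul_left 4 h4
        _ = 16 * D (j + 5) * S'.card := by ring
        _ ≤ 2 ^ L * S'.card := Nat.mul_le_mul_right _ hDj5'
  obtain ⟨U, hU1, hU2, hU3⟩ := hlift m' hm'D
  -- hubs
  have hIH2 : ∀ (S' : Finset V) (E' : Finset (Sym2 V)), S'.card < S.card → Supp E' S' →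
      Dec E' (1024 * C0 * S'.card) := by
    intro S1 E1 h1 h2
    rcases Nat.eq_zero_or_pos S1.card with h0 | h0
    · rw [mn_supp_empty h2 h0]; exact Dec.mono Dec.empty (Nat.zero_le _)
    · obtain ⟨m1, h3, h4⟩ := hIH S1 E1 h2 h0 h1
      refine Dec.mono h3 ?_
      have h5 : (0 : ℝ) ≤ 1 / ((Nat.log 2 (E1.card / S1.card) : ℕ) + 1) := by positivity
      have h6 : (m1 : ℝ) ≤ S1.card * (1024 * C0) := by
        refine h4.trans (mul_le_mul_of_nonneg_left (by linarith) (by positivity))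
      have h7 : (m1 : ℝ) ≤ ((1024 * C0 * S1.card : ℕ) : ℝ) := by
        push_cast
        linarith
      exact_mod_cast h7
  have hhub : ∀ r < R, r ≠ j → Dec (hubE (H r)) ((9 + C0) * ((H r).map (fun h => h.1.card)).sum) := by
    intro r hr _
    have h3 := (hst r hr).2.2.1
    have h := hubsDec C0 M (k r) hM S (H r) h3 (hP r hr).2.2.2.2.2 hIH2 ∅ (by
      intro h _ z _
      simp [dg])
    rwa [sdiff_empty] at h
  have hhubj : Dec (hubE (H j) \ U) ((9 + C0) * ((H j).map (fun h => h.1.card)).sum) :=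
    hubsDec C0 M (k j) hM S (H j) hs3 (hP j (by omega)).2.2.2.2.2 hIH2 U hU2
  -- assembly
  have hall := mn_assemble j R hj Er Ec (fun r => hubE (H r)) c
    (fun r => (9 + C0) * ((H r).map (fun h => h.1.card)).sum) U (m' + cc)
    (fun r hr => ⟨(hst r hr).1, (hst r hr).2.2.2.1, (hst r hr).2.2.2.2.1, (hst r hr).2.2.2.2.2.1,
      (hst r hr).2.2.2.2.2.2.1⟩) hU1 hhub hhubj hU3
  rw [hE0] at hall
  refine ⟨_, hall, ?_⟩
  apply finalIneq C0 S.card S'.card (a j) L lam' j m' _ hC0 hL (by omega) hn' hs8 hm'le hlam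
  -- number of parts
  have hcr : ∀ r ∈ range (j + 5), ((c r : ℕ) : ℝ) ≤ 2 * S.card / L ^ 3 := by
    intro r hr
    rw [mem_range] at hr
    obtain ⟨_, g2, _⟩ := hst r (by omega)
    have h := mn_c (c r) (D r) L S.card (Er r).card 0 (hD r (by omega)) (by omega)
      (by simpa using g2) ((hEr r (by omega)).2)
    simpa using h
  have hccr : (cc : ℝ) ≤ 2 * S.card / L ^ 3 + 6 * a j := by
    apply mn_c cc (D (j + 5)) L S.card (Er (j + 5)).card (a j) hDj5 (by omega) _ hF2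
    refine hcc.trans ?_
    have := Nat.mul_le_mul_left (3 * (D (j + 5) * L ^ 3)) hs9
    omega
  have hsum2 : ∑ r ∈ range (j + 5), ((H r).map (fun h => h.1.card)).sum ≤ 64 * a j := by
    calc ∑ r ∈ range (j + 5), ((H r).map (fun h => h.1.card)).sum ≤ ∑ r ∈ range (j + 5), 2 * a r := by
          refine sum_le_sum fun r hr => ?_
          rw [mem_range] at hr
          exact (hst r (by omega)).2.2.2.2.2.2.2.2.1
      _ = 2 * ∑ r ∈ range (j + 5), a r := by rw [mul_sum]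
      _ ≤ 64 * a j := by omega
  have hfin := mn_total C0 j (a j) c (fun r => ((H r).map (fun h => h.1.card)).sum) m' cc
    (2 * S.card / L ^ 3) hcr hccr hsum2
  exact hfin

/-- (I7) INDUCTION STEP.  `n = |S| ≥ 1`, `L ≥ L0` (from `params`), `2^L n ≤ |E| < 2^(L+1) n`.
PROOF.  Parameters `R M D k T` from `params`; `l r = D r * L^3` (`≥ 3`).  `stages` (`|E| ≤ 2 D 0 n`).
CASE A: `2 |E \ Ec 0| < 2^L n`.  Then `|E \ Ec 0| < |E|`, IH (same `S`, fewer edges): `lam' = log2(|E\Ec 0|/n) ≤ L - 2`,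
`c 0 ≤ |E|/l 0 ≤ 2 D 0 n/(D 0 L^3) = 2n/L^3`; `2n/L^3 + n (C - 1/(L-1)) ≤ n (C - 1/(L+1))`
(`finalIneq` with `n' = n`, `a = 0`, `j = 0`).
CASE B: `2^L n ≤ 2 |E \ Ec 0| ≤ 2 D 1 n + 6 D 0 L^3 a 0 ≤ 2^L n/8 + 12·2^L L^3 a 0`, so `(7/8) n ≤ 12 L^3 a 0`,
`n ≤ 24 L^3 a 0`, `a 0 ≥ 1`, `n < 2^(R-4) a 0`.  `argmax` gives `j`.  `F = Er (j+5)`, `|F| ≤ 2 D (j+5) n`.
`contract F S (H j) M (k j) (T j) (D (j+5) L^3)` gives `S' E' cc`.  (`F` and `hubE (H j)` are disjoint: `Er (j+5) ⊆ Er (j+1)`.)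
 * `#{v : T j < dg F v} (T j + 1) ≤ 2|F| ≤ 4 D(j+5) n` and `9600 L^3 D(j+5) ≤ T j + 1` give
   `2400 L^3 #bad ≤ n ≤ 24 L^3 a 0`, so `100 #bad ≤ a 0 ≤ a j`.
 * `#H * 200 ≤ #H k ≤ ∑|h| ≤ 2 a j`, so `100 #H ≤ a j`.
 * hence `100 |S'| + 96 a j ≤ 100 n + a j + a j + 2 a j`, i.e. `100|S'| + 92 a j ≤ 100 n`; so `|S'| < n`.
 * `cc D(j+5)L^3 ≤ |F| + 6 D(j+5)L^3 a j` so `cc ≤ 2n/L^3 + 6 a j`; `c r ≤ 2n/L^3`.
IH for `(E', S')` (if `|S'| ≥ 1`; if `|S'| = 0` then `E' = ∅`, `m' = 0`): `m' ≤ |S'| (C - 1/(lam'+1))`.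
If `n ≤ 2|S'|`: `|E'| ≤ |F| ≤ 2 D(j+5) n ≤ 4 D(j+5)|S'| ≤ 2^L |S'|/4`, so `lam' ≤ L - 2`.
Get `U`; `hubsDec` for `H j` with `U` and for `H r`, `r ≤ j + 4`, `r ≠ j` with `∅` (`hIH` follows from IH as `C - 1/(lam+1) ≤ C`;
for empty `S'` trivial).  Assemble with `unroll` (`N = j + 5`, at `r = j` use `X r = hubE (H j) \ U` and put `U` into the
last set: apply `unroll` to `Er' r = Er r` for ... or directly: `E = ⋃_{r ≤ j+4} (Ec r ∪ hubE (H r)) ∪ F` disjoint;
`U ⊆ hubE (H j)`.  E.g. use `unroll` with `Er' r = Er r \ (hubE (H j) ...)`: simplest is `Er' r = Er r ∪ U` for `r > j` and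
`Er' r = Er r` for `r ≤ j`, `X j = hubE (H j) \ U`.)
Number of parts `≤ ∑_{r<j+5} c r + (9 + C0) ∑_{r<j+5} 2 a r + m' + cc ≤ m' + (j+6) 2n/L^3 + (64 (9 + C0) + 6) a j`;
`finalIneq`. -/
theorem mainStep : ∃ L0 : ℕ, 100 ≤ L0 ∧ ∀ (C0 : ℕ), 10 ≤ C0 → ∀ (V : Type) [DecidableEq V] (S : Finset V)
    (E : Finset (Sym2 V)) (L : ℕ), Supp E S → 1 ≤ S.card → L0 ≤ L → Nat.log 2 (E.card / S.card) = L →
    (∀ (S' : Finset V) (E' : Finset (Sym2 V)), Supp E' S' → 1 ≤ S'.card →
      (S'.card < S.card ∨ (S'.card = S.card ∧ E'.card < E.card)) →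
      ∃ m' : ℕ, Dec E' m' ∧ (m' : ℝ) ≤ S'.card * (1024 * C0 - 1 / (Nat.log 2 (E'.card / S'.card) + 1))) →
    ∃ m : ℕ, Dec E m ∧ (m : ℝ) ≤ S.card * (1024 * C0 - 1 / (L + 1)) := by
  obtain ⟨L0, hL0, hpar⟩ := params
  refine ⟨L0, hL0, ?_⟩
  intro C0 hC0 V _ S E L hS hn hL hlog hIH
  obtain ⟨R, M, D, k, T, hR, hRL3, hRL, hM, hD0, hD0', hP, hT⟩ := hpar L hL
  have hL100 : 100 ≤ L := hL0.trans hL
  have hL3 : 3 ≤ L ^ 3 := by
    calc 3 ≤ 100 ^ 3 := by norm_num
      _ ≤ L ^ 3 := Nat.pow_le_pow_left hL100 3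
  have hlow : 2 ^ L * S.card ≤ E.card := by
    have h1 : 2 ^ L ≤ E.card / S.card := by
      rw [← hlog]
      apply Nat.pow_log_le_self
      intro h0
      rw [h0] at hlog
      simp at hlog
      omega
    exact (Nat.le_div_iff_mul_le hn).1 h1
  have hup : E.card < 2 ^ (L + 1) * S.card := by
    have h1 : E.card / S.card < 2 ^ (L + 1) := by
      rw [← hlog]
      exact Nat.lt_pow_succ_log_self (by norm_num) _
    exact (Nat.div_lt_iff_lt_mul hn).1 h1
  have hD : ∀ r ≤ R, 1 ≤ D r := by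
    intro r hr
    rcases Nat.eq_zero_or_pos r with h0 | h0
    · rw [h0]
      exact (Nat.one_le_two_pow).trans hD0
    · obtain ⟨s, rfl⟩ : ∃ s, r = s + 1 := ⟨r - 1, by omega⟩
      exact (hP s (by omega)).1
  obtain ⟨Er, Ec, c, a, H, hE0, hEr, hst⟩ := stages E S hS R M (fun r => D r * L ^ 3) D k hM
    (by
      have h1 : 2 ^ (L + 1) ≤ 2 * D 0 := by rw [pow_succ]; omega
      exact hup.le.trans (Nat.mul_le_mul_right _ h1))
    (by
      intro r hr
      obtain ⟨h1, h2, h3, h4, h5, h6⟩ := hP r hr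
      have := hD r hr.le
      refine ⟨by nlinarith, h1, by omega, h3, h5⟩)
  by_cases hA : 2 * (E \ Ec 0).card < 2 ^ L * S.card
  · -- case A
    obtain ⟨g1, g2, g3, g4, _⟩ := hst 0 (by omega)
    have hEcE : Ec 0 ⊆ E := by
      rw [← hE0]
      conv_rhs => rw [g4]
      exact subset_union_left.trans subset_union_left
    obtain ⟨m', hm', hm'le⟩ := hIH S (E \ Ec 0) (mn_supp_sub hS sdiff_subset) hn
      (Or.inr ⟨rfl, by omega⟩)
    refine ⟨c 0 + m', ?_, ?_⟩
    · have h1 := Dec.union g1 hm' disjoint_sdiff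
      rwa [union_sdiff_of_subset hEcE] at h1
    · have hlam := mn_log' (E \ Ec 0).card S.card L (by omega) hA
      refine finalIneq C0 S.card S.card 0 L _ 0 m' _ hC0 hL100 (by omega) (by omega) (by omega)
        hm'le (fun _ => hlam) ?_
      have h := mn_c (c 0) (D 0) L S.card (Er 0).card 0 (hD 0 (by omega)) (by omega)
        (by simpa using g2) ((hEr 0 (by omega)).2)
      have h2 : (0 : ℝ) ≤ 2 * S.card / L ^ 3 := by positivity
      push_cast at h ⊢
      linarith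
  · -- case B
    rw [not_lt] at hA
    obtain ⟨g1, g2, g3, g4, g5, g6, g7, g8, g9, g10, g11⟩ := hst 0 (by omega)
    rw [hE0] at g11
    have hn24 : S.card ≤ 24 * L ^ 3 * a 0 := by
      have h1 : 16 * D (0 + 1) ≤ 2 ^ L := (hP 0 (by omega)).2.1
      have h2 : 2 ^ L * S.card ≤ 2 * (D (0 + 1) * S.card + 3 * (D 0 * L ^ 3) * a 0) :=
        hA.trans (Nat.mul_le_mul_left 2 g11)
      have h3 : 16 * D (0 + 1) * S.card ≤ 2 ^ L * S.card := Nat.mul_le_mul_right _ h1
      have h4 : D 0 * (L ^ 3 * a 0) ≤ 2 ^ (L + 1) * (L ^ 3 * a 0) := Nat.mul_le_mul_right _ hD0'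
      have h5 : 2 ^ L * (7 * S.card) ≤ 2 ^ L * (96 * L ^ 3 * a 0) := by
        have e1 : 2 ^ (L + 1) * (L ^ 3 * a 0) = 2 * (2 ^ L * (L ^ 3 * a 0)) := by ring
        have e2 : 2 ^ L * (96 * L ^ 3 * a 0) = 96 * (2 ^ L * (L ^ 3 * a 0)) := by ring
        have e3 : 3 * (D 0 * L ^ 3) * a 0 = 3 * (D 0 * (L ^ 3 * a 0)) := by ring
        have e4 : 16 * D (0 + 1) * S.card = 16 * (D (0 + 1) * S.card) := by ring
        have e5 : 2 ^ L * (7 * S.card) = 7 * (2 ^ L * S.card) := by ring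
        rw [e1] at h4
        rw [e3] at h2
        rw [e4] at h3
        rw [e2, e5]
        omega
      have h6 : 7 * S.card ≤ 96 * L ^ 3 * a 0 := Nat.le_of_mul_le_mul_left h5 (by positivity)
      nlinarith
    have ha0 : 1 ≤ a 0 := by
      rcases Nat.eq_zero_or_pos (a 0) with h0 | h0
      · rw [h0] at hn24; omega
      · exact h0
    have hlt : S.card < 2 ^ (R - 4) * a 0 :=
      lt_of_le_of_lt hn24 (Nat.mul_lt_mul_of_pos_right hRL3 ha0)
    obtain ⟨j, hj, haj, hsum⟩ := argmax R S.card hR a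
      (fun r hr => (hst r hr).2.2.2.2.2.2.2.1) hlt
    refine mn_caseB C0 hC0 V S E L R M D k T hL100 hn hRL hM hD hP hT ?_ Er Ec c a H hE0 hEr hst
      j hj (hn24.trans (Nat.mul_le_mul_left _ haj)) hsum
    intro S' E' h1 h2 h3
    exact hIH S' E' h1 h2 (Or.inl h3)

/-- (I) MAIN THEOREM.  PROOF.  `C0 = 2^L0 + 10` with `L0` from `mainStep`, `C = 1024 C0`.  For nonempty `S` prove
`∃ m, Dec E m ∧ m ≤ |S| (C - 1/(log2(|E|/|S|) + 1))` by strong induction on `|S|`, then `|E|` (e.g. on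
`|S|` and for fixed `|S|` on `|E|`).  If `log2(|E|/|S|) < L0`: `|E| < 2^L0 |S|`, single edges (`Dec.single`), `m = |E| ≤
|S| (C - 1)`.  Otherwise `mainStep`.  `Dec.mono` to `C |S|`.  `S = ∅`: `E = ∅`, `Dec.empty`. -/
theorem main : ∃ C : ℕ, ∀ (V : Type) [DecidableEq V] (S : Finset V) (E : Finset (Sym2 V)),
    Supp E S → Dec E (C * S.card) := by
  obtain ⟨L0, hL0, hstep⟩ := mainStep
  refine ⟨1024 * (2 ^ L0 + 10), ?_⟩
  intro V _ S E hS
  have key : ∀ (n e : ℕ) (S : Finset V) (E : Finset (Sym2 V)), S.card = n → E.card = e → Supp E S →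
      1 ≤ S.card → ∃ m : ℕ, Dec E m ∧
        (m : ℝ) ≤ S.card * (1024 * ((2 ^ L0 + 10 : ℕ) : ℝ) - 1 / (Nat.log 2 (E.card / S.card) + 1)) := by
    intro n
    induction n using Nat.strong_induction_on with
    | _ n ihn =>
      intro e
      induction e using Nat.strong_induction_on with
      | _ e ihe =>
        intro S E hn he hS h1
        rcases lt_or_ge (Nat.log 2 (E.card / S.card)) L0 with hlog | hlog
        · refine ⟨E.card, Dec.single E hS.2, ?_⟩
          have h2 : E.card / S.card < 2 ^ L0 := Nat.lt_pow_of_log_lt (by norm_num) hlog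
          have h3 : E.card < 2 ^ L0 * S.card := (Nat.div_lt_iff_lt_mul h1).1 h2
          have h4 : (E.card : ℝ) ≤ 2 ^ L0 * S.card := by exact_mod_cast h3.le
          have h5 : (1 : ℝ) / (Nat.log 2 (E.card / S.card) + 1) ≤ 1 := by
            rw [div_le_one (by positivity)]
            have : (0 : ℝ) ≤ (Nat.log 2 (E.card / S.card) : ℕ) := by positivity
            linarith
          have h6 : (2 : ℝ) ^ L0 ≤ 1024 * ((2 ^ L0 + 10 : ℕ) : ℝ) -
              1 / (Nat.log 2 (E.card / S.card) + 1) := by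
            push_cast
            have : (0 : ℝ) ≤ 2 ^ L0 := by positivity
            linarith
          refine h4.trans ?_
          rw [mul_comm]
          exact mul_le_mul_of_nonneg_left h6 (by positivity)
        · refine hstep (2 ^ L0 + 10) (Nat.le_add_left 10 _) V S E _ hS h1 hlog rfl ?_
          intro S' E' h2 h3 h4
          rcases h4 with h4 | ⟨h4, h5⟩
          · exact ihn S'.card (by omega) E'.card S' E' rfl rfl h2 h3
          · exact ihe E'.card (by omega) S' E' (by omega) rfl h2 h3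
  rcases Nat.eq_zero_or_pos S.card with h0 | h0
  · rw [mn_supp_empty hS h0]; exact Dec.mono Dec.empty (Nat.zero_le _)
  · obtain ⟨m, h1, h2⟩ := key S.card E.card S E rfl rfl hS h0
    refine Dec.mono h1 ?_
    have h5 : (0 : ℝ) ≤ 1 / ((Nat.log 2 (E.card / S.card) : ℕ) + 1) := by positivity
    have h6 : (m : ℝ) ≤ S.card * (1024 * ((2 ^ L0 + 10 : ℕ) : ℝ)) :=
      h2.trans (mul_le_mul_of_nonneg_left (by linarith) (by positivity))
    have h7 : (m : ℝ) ≤ ((1024 * (2 ^ L0 + 10) * S.card : ℕ) : ℝ) := by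
      rw [Nat.cast_mul, Nat.cast_mul]
      push_cast at h6 ⊢
      linarith
    exact_mod_cast h7

end Crest.Agent.EG
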