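import Crest.Agent.EG.PPDDefs

set_option autoImplicit false

namespace Crest.Agent.EG
open Finset

variable {V : Type} [DecidableEq V]

omit [DecidableEq V] in
private theorem unsubdiv_pE_append (l : List V) (a : V) (t : List V) :
    pE (l ++ a :: t) = pE (l ++ [a]) ++ pE (a :: t) := by
  induction l with
  | nil => simp [pE]
  | cons c l ih =>
    cases l with
    | nil => simp [pE]
    | cons d l' =>
      simp only [List.cons_append, pE] at ih ⊢
      rw [ih]

omit [DecidableEq V] in
private theorem unsubdiv_mem_pE (l : List V) (e : Sym2 V) (he : e ∈ pE l) (v : V) (hv : v ∈ e) :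
    v ∈ l := by
  induction l with
  | nil => simp [pE] at he
  | cons c l ih =>
    cases l with
    | nil => simp [pE] at he
    | cons d l' =>
      simp only [pE, List.mem_cons] at he
      rcases he with rfl | he
      · rw [Sym2.mem_iff] at hv
        rcases hv with rfl | rfl <;> simp
      · exact List.mem_cons_of_mem _ (ih he)

private theorem unsubdiv_dg_insert (E : Finset (Sym2 V)) (e : Sym2 V) (he : e ∉ E) (v : V) :
    dg (insert e E) v = dg E v + (if v ∈ e then 1 else 0) := by
  unfold dg
  rw [Finset.filter_insert]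
  split_ifs with h
  · rw [Finset.card_insert_of_notMem (fun h' => he (Finset.mem_filter.1 h').1)]
  · rfl

private theorem unsubdiv_dg_erase (E : Finset (Sym2 V)) (e : Sym2 V) (he : e ∈ E) (v : V) :
    dg E v = dg (E.erase e) v + (if v ∈ e then 1 else 0) := by
  have h := unsubdiv_dg_insert (E.erase e) e (Finset.notMem_erase e E) v
  rwa [Finset.insert_erase he] at h

/-- (A2) SUBDIVISION.  Let `s` be an isolated vertex of `E`, `xy ∈ E`, and suppose `E - xy + xs + sy` has a PPD.  Then `E` has one.
PROOF.  `dg s = 2` is even so `s` is not an end, the path containing `s` is `... x s y ...` (or reversed)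
since `xs`, `sy` are the only edges at `s`; delete `s` from it. -/
theorem unsubdiv (E : Finset (Sym2 V)) (hE : ∀ e ∈ E, ¬ e.IsDiag) (x y s : V) (hxy : s(x, y) ∈ E)
    (hs : dg E s = 0) (Ps : List (List V))
    (hP : PPD (insert s(x, s) (insert s(s, y) (E.erase s(x, y)))) Ps) :
    ∃ Ps' : List (List V), PPD E Ps' := by
  obtain ⟨hP1, hP2, hP3, hP4⟩ := hP
  have hsE : ∀ e ∈ E, s ∉ e := by
    intro e he hse
    unfold dg at hs
    rw [Finset.card_eq_zero] at hs
    have : e ∈ E.filter (fun e => s ∈ e) := Finset.mem_filter.2 ⟨he, hse⟩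
    rw [hs] at this
    exact Finset.notMem_empty _ this
  have hxs : x ≠ s := by
    rintro rfl
    exact hsE _ hxy (Sym2.mem_mk_left _ _)
  have hys : y ≠ s := by
    rintro rfl
    exact hsE _ hxy (Sym2.mem_mk_right _ _)
  have hxyne : x ≠ y := by
    intro h
    exact hE _ hxy (by rw [Sym2.mk_isDiag_iff]; exact h)
  set E1 := insert s(x, s) (insert s(s, y) (E.erase s(x, y))) with hE1
  have hdg : ∀ v, dg E1 v % 2 = dg E v % 2 := by
    intro v
    rw [hE1, unsubdiv_dg_insert, unsubdiv_dg_insert, unsubdiv_dg_erase E _ hxy v]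
    · simp only [Sym2.mem_iff]
      by_cases h1 : v = x
      · subst h1
        simp [hxs, hxyne]
      · by_cases h2 : v = y
        · subst h2
          simp [hys, Ne.symm hxyne]
        · by_cases h3 : v = s
          · subst h3
            simp [h1, h2]
            omega
          · simp [h1, h2, h3]
    · intro h
      exact hsE _ (Finset.mem_of_mem_erase h) (Sym2.mem_mk_left _ _)
    · intro h
      rw [Finset.mem_insert] at h
      rcases h with h | h
      · rw [Sym2.eq_iff] at h
        rcases h with ⟨h, _⟩ | ⟨h, _⟩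
        · exact hxs h
        · exact hxyne h
      · exact hsE _ (Finset.mem_of_mem_erase h) (Sym2.mem_mk_right _ _)
  -- edges of `E1` at `s`
  have hE1s : ∀ v, s(v, s) ∈ E1 → v = x ∨ v = y := by
    intro v hv
    rw [hE1, Finset.mem_insert, Finset.mem_insert] at hv
    rcases hv with h | h | h
    · rw [Sym2.eq_iff] at h
      rcases h with ⟨h, _⟩ | ⟨h, h'⟩
      · exact Or.inl h
      · exact absurd h'.symm hxs
    · rw [Sym2.eq_iff] at h
      rcases h with ⟨_, h⟩ | ⟨h, _⟩
      · exact absurd h.symm hys
      · exact Or.inr h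
    · exact absurd (Sym2.mem_mk_right _ _) (hsE _ (Finset.mem_of_mem_erase h))
  have hE1E : ∀ e ∈ E1, s ∉ e → e ∈ E ∧ e ≠ s(x, y) := by
    intro e he hse
    rw [hE1, Finset.mem_insert, Finset.mem_insert] at he
    rcases he with h | h | h
    · exact absurd (h ▸ Sym2.mem_mk_right _ _) hse
    · exact absurd (h ▸ Sym2.mem_mk_left _ _) hse
    · exact ⟨Finset.mem_of_mem_erase h, Finset.ne_of_mem_erase h⟩
  have hEE1 : ∀ e ∈ E, e ≠ s(x, y) → e ∈ E1 := by
    intro e he hne
    rw [hE1, Finset.mem_insert, Finset.mem_insert]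
    exact Or.inr (Or.inr (Finset.mem_erase.2 ⟨hne, he⟩))
  have hxyE1 : s(x, y) ∉ E1 := by
    intro h
    have hns : s ∉ s(x, y) := by
      rw [Sym2.mem_iff]
      rintro (h | h)
      · exact hxs h.symm
      · exact hys h.symm
    exact (hE1E _ h hns).2 rfl
  -- no path ends in `s`
  have hend : nEnd Ps s = 0 := by
    rw [hP4 s, hdg s, hs]
  have hend' : ∀ p ∈ Ps, p.head? ≠ some s ∧ p.getLast? ≠ some s := by
    intro p hp
    unfold nEnd at hend
    have h1 : Ps.countP (fun p => decide (p.head? = some s)) = 0 := by omega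
    have h2 : Ps.countP (fun p => decide (p.getLast? = some s)) = 0 := by omega
    rw [List.countP_eq_zero] at h1 h2
    refine ⟨fun h => h1 p hp (by simpa using h), fun h => h2 p hp (by simpa using h)⟩
  -- the path through `s`
  obtain ⟨p, hpPs, hpe⟩ := (hP3 s(x, s)).1 (by rw [hE1]; exact Finset.mem_insert_self _ _)
  have hsp : s ∈ p := unsubdiv_mem_pE p _ hpe s (Sym2.mem_mk_right _ _)
  obtain ⟨l1, l2, hp12⟩ := List.append_of_mem hsp
  have hl1 : l1 ≠ [] := by
    rintro rfl
    exact (hend' p hpPs).1 (by rw [hp12]; rfl)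
  have hl2 : l2 ≠ [] := by
    rintro rfl
    exact (hend' p hpPs).2 (by rw [hp12]; simp)
  obtain ⟨l1', a, rfl⟩ : ∃ l a, l1 = l ++ [a] := ⟨l1.dropLast, l1.getLast hl1,
    (List.dropLast_append_getLast hl1).symm⟩
  obtain ⟨b, l2', rfl⟩ : ∃ b l, l2 = b :: l := List.exists_cons_of_ne_nil hl2
  have hp' : p = l1' ++ a :: s :: b :: l2' := by rw [hp12]; simp
  have hnd := (hP1 p hpPs).1
  have hpE : pE p = pE (l1' ++ [a]) ++ (s(a, s) :: s(s, b) :: pE (b :: l2')) := by
    rw [hp', unsubdiv_pE_append]; rfl
  have hpE1 : ∀ e ∈ pE p, e ∈ E1 := fun e he => (hP3 e).2 ⟨p, hpPs, he⟩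
  have ha : a = x ∨ a = y := hE1s a (hpE1 _ (by rw [hpE]; simp))
  have hb : b = x ∨ b = y := hE1s b (hpE1 _ (by rw [hpE, Sym2.eq_swap (a := b)]; simp))
  have hab : a ≠ b := by
    rw [hp'] at hnd
    have h1 := hnd.of_append_right
    simp only [List.nodup_cons, List.mem_cons, not_or] at h1
    exact h1.1.2.1
  have hsab : s(a, b) = s(x, y) := by
    rcases ha with rfl | rfl
    · rcases hb with rfl | rfl
      · exact absurd rfl hab
      · rfl
    · rcases hb with rfl | rfl
      · exact Sym2.eq_swap
      · exact absurd rfl hab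
  have hsx : s(x, s) ∈ pE p ∧ s(s, y) ∈ pE p := by
    rw [hpE]
    rcases ha with rfl | rfl
    · rcases hb with rfl | rfl
      · exact absurd rfl hab
      · simp
    · rcases hb with rfl | rfl
      · rw [Sym2.eq_swap (a := b) (b := s), Sym2.eq_swap (a := s) (b := a)]
        simp
      · exact absurd rfl hab
  -- the edges of the two pieces do not contain `s`
  have hns1 : ∀ e ∈ pE (l1' ++ [a]), s ∉ e := by
    intro e he hse
    have h1 := unsubdiv_mem_pE _ _ he s hse
    rw [hp12] at hnd
    have h2 := List.disjoint_of_nodup_append hnd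
    exact h2 h1 (by simp)
  have hns2 : ∀ e ∈ pE (b :: l2'), s ∉ e := by
    intro e he hse
    have h1 := unsubdiv_mem_pE _ _ he s hse
    rw [hp12] at hnd
    have h2 := hnd.of_append_right
    rw [List.nodup_cons] at h2
    exact h2.1 h1
  obtain ⟨A, B, hAB⟩ := List.append_of_mem hpPs
  set q := l1' ++ a :: b :: l2' with hq
  have hqE : pE q = pE (l1' ++ [a]) ++ (s(a, b) :: pE (b :: l2')) := by
    rw [hq, unsubdiv_pE_append]; rfl
  -- members of `pE q`
  have hqmem : ∀ e ∈ pE q, e = s(x, y) ∨ (e ∈ pE p ∧ s ∉ e) := by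
    intro e he
    rw [hqE] at he
    simp only [List.mem_append, List.mem_cons] at he
    rcases he with h | h | h
    · exact Or.inr ⟨by rw [hpE]; simp [h], hns1 e h⟩
    · exact Or.inl (h.trans hsab)
    · exact Or.inr ⟨by rw [hpE]; simp [h], hns2 e h⟩
  rw [hAB] at hP2
  have hpw := List.pairwise_append.1 hP2
  obtain ⟨hA, hpB, hAB'⟩ := hpw
  rw [List.pairwise_cons] at hpB
  have hdisj : ∀ r, r ∈ A ∨ r ∈ B → ∀ e ∈ pE p, e ∉ pE r := by
    intro r hr e he her
    rcases hr with hr | hr
    · exact hAB' r hr p (by simp) e her he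
    · exact hpB.1 r hr e he her
  have hmemAB : ∀ r, r ∈ A ∨ r ∈ B → r ∈ Ps := by
    intro r hr
    rw [hAB]
    rcases hr with hr | hr
    · simp [hr]
    · simp [hr]
  have hqdisj : ∀ r, r ∈ A ∨ r ∈ B → ∀ e ∈ pE q, e ∉ pE r := by
    intro r hr e he her
    rcases hqmem e he with rfl | h
    · exact hxyE1 ((hP3 _).2 ⟨r, hmemAB r hr, her⟩)
    · exact hdisj r hr e h.1 her
  refine ⟨A ++ q :: B, ?_, ?_, ?_, ?_⟩
  · intro r hr
    simp only [List.mem_append, List.mem_cons] at hr
    rcases hr with hr | rfl | hr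
    · exact hP1 r (hmemAB r (Or.inl hr))
    · refine ⟨?_, ?_⟩
      · refine List.Nodup.sublist ?_ hnd
        rw [hp']
        exact List.Sublist.append_left
          (List.Sublist.cons_cons a (List.sublist_cons_self s (b :: l2'))) l1'
      · rw [hq]; simp; omega
    · exact hP1 r (hmemAB r (Or.inr hr))
  · rw [List.pairwise_append, List.pairwise_cons]
    refine ⟨hA, ⟨fun r hr => hqdisj r (Or.inr hr), hpB.2⟩, ?_⟩
    intro r hr r' hr'
    rw [List.mem_cons] at hr'
    rcases hr' with rfl | hr'
    · intro e he heq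
      exact hqdisj r (Or.inl hr) e heq he
    · exact hAB' r hr r' (by simp [hr'])
  · intro e
    constructor
    · intro he
      by_cases hexy : e = s(x, y)
      · refine ⟨q, by simp, ?_⟩
        rw [hqE, hexy, ← hsab]; simp
      · obtain ⟨r, hr, her⟩ := (hP3 e).1 (hEE1 e he hexy)
        rw [hAB] at hr
        simp only [List.mem_append, List.mem_cons] at hr
        rcases hr with hr | rfl | hr
        · exact ⟨r, by simp [hr], her⟩
        · refine ⟨q, by simp, ?_⟩
          rw [hpE] at her
          simp only [List.mem_append, List.mem_cons] at her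
          rw [hqE]
          rcases her with h | h | h | h
          · simp [h]
          · exact absurd (h ▸ Sym2.mem_mk_right _ _) (hsE e he)
          · exact absurd (h ▸ Sym2.mem_mk_left _ _) (hsE e he)
          · simp [h]
        · exact ⟨r, by simp [hr], her⟩
    · rintro ⟨r, hr, her⟩
      simp only [List.mem_append, List.mem_cons] at hr
      have hgen : ∀ r, r ∈ A ∨ r ∈ B → e ∈ pE r → e ∈ E := by
        intro r hr her
        have h1 : e ∈ E1 := (hP3 e).2 ⟨r, hmemAB r hr, her⟩
        rw [hE1, Finset.mem_insert, Finset.mem_insert] at h1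
        rcases h1 with h | h | h
        · exact absurd her (hdisj r hr e (h ▸ hsx.1))
        · exact absurd her (hdisj r hr e (h ▸ hsx.2))
        · exact Finset.mem_of_mem_erase h
      rcases hr with hr | rfl | hr
      · exact hgen r (Or.inl hr) her
      · rcases hqmem e her with rfl | h
        · exact hxy
        · exact (hE1E e (hpE1 e h.1) h.2).1
      · exact hgen r (Or.inr hr) her
  · intro v
    rw [← hdg v, ← hP4 v, hAB]
    unfold nEnd
    have h1 : q.head? = p.head? := by
      rw [hq, hp']
      cases l1' <;> simp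
    have h2 : q.getLast? = p.getLast? := by
      rw [hq, hp']
      simp [List.getLast?_append]
    simp only [List.countP_append, List.countP_cons, h1, h2]

end Crest.Agent.EG
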