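import Crest.Agent.EG.Reroute
import Crest.Agent.EG.Unsubdiv

set_option autoImplicit false

namespace Crest.Agent.EG
open Finset

variable {V : Type} [DecidableEq V]

private lemma dg_insert_ppd {E : Finset (Sym2 V)} {e : Sym2 V} (he : e ∉ E) (v : V) :
    dg (insert e E) v = dg E v + (if v ∈ e then 1 else 0) := by
  unfold dg
  rw [filter_insert]
  split_ifs with h
  · rw [card_insert_of_notMem (fun h' => he (mem_filter.mp h').1)]
  · rfl

private lemma dg_erase_ppd {E : Finset (Sym2 V)} {e : Sym2 V} (he : e ∈ E) (v : V) :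
    dg E v = dg (E.erase e) v + (if v ∈ e then 1 else 0) := by
  rw [← dg_insert_ppd (notMem_erase e E), insert_erase he]

private lemma dg_pos_ppd {E : Finset (Sym2 V)} {v : V} (h : 0 < dg E v) :
    ∃ u, s(u, v) ∈ E := by
  obtain ⟨e, he⟩ := card_pos.mp h
  obtain ⟨he, hv⟩ := mem_filter.mp he
  obtain ⟨u, rfl⟩ := Sym2.mem_iff_exists.mp hv
  exact ⟨u, by rwa [Sym2.eq_swap]⟩

private lemma dg_pos_of_mem_ppd {E : Finset (Sym2 V)} {u v : V} (h : s(u, v) ∈ E) :
    0 < dg E u ∧ 0 < dg E v :=
  ⟨card_pos.mpr ⟨_, mem_filter.mpr ⟨h, Sym2.mem_mk_left u v⟩⟩,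
    card_pos.mpr ⟨_, mem_filter.mpr ⟨h, Sym2.mem_mk_right u v⟩⟩⟩

/-- the step: remove an edge `u x` with `x` the only possible vertex of even positive degree -/
private lemma step_ppd {E : Finset (Sym2 V)} (hE : ∀ e ∈ E, ¬ e.IsDiag)
    (ih : ∀ E' : Finset (Sym2 V), E'.card < E.card → (∀ e ∈ E', ¬ e.IsDiag) →
      (∀ x y, 0 < dg E' x → dg E' x % 2 = 0 → 0 < dg E' y → dg E' y % 2 = 0 → x = y) →
      ∃ Ps : List (List V), PPD E' Ps) {x : V} (hx : 0 < dg E x) (hx2 : dg E x % 2 = 0)
    (ho : ∀ v, v ≠ x → 0 < dg E v → dg E v % 2 = 1) : ∃ Ps : List (List V), PPD E Ps := by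
  obtain ⟨u, hu⟩ := dg_pos_ppd hx
  have hux : u ≠ x := by
    intro h
    exact hE _ hu (by rw [h]; simp)
  set E' := E.erase s(u, x) with hE'
  have hd : ∀ v, dg E v = dg E' v + (if v ∈ s(u, x) then 1 else 0) := dg_erase_ppd hu
  have hdu : dg E u = dg E' u + 1 := by rw [hd u, if_pos (Sym2.mem_mk_left u x)]
  have hdx : dg E x = dg E' x + 1 := by rw [hd x, if_pos (Sym2.mem_mk_right u x)]
  have hdv : ∀ v, v ≠ u → v ≠ x → dg E v = dg E' v := by
    intro v h1 h2
    rw [hd v, if_neg (by simp [h1, h2]), add_zero]
  have huo := ho u hux (dg_pos_of_mem_ppd hu).1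
  have hE'd : ∀ e ∈ E', ¬ e.IsDiag := fun e he => hE e (mem_of_mem_erase he)
  have key : ∀ v, v ≠ u → 0 < dg E' v → dg E' v % 2 = 1 := by
    intro v h1 h2
    by_cases h3 : v = x
    · subst h3; omega
    · have := hdv v h1 h3
      have := ho v h3 (by omega)
      omega
  obtain ⟨Ps, hPs⟩ := ih E' (card_erase_lt_of_mem hu) hE'd (fun a b ha ha2 hb hb2 => by
    have h1 : a = u := by
      by_contra hc
      have := key a hc ha
      omega
    have h2 : b = u := by
      by_contra hc
      have := key b hc hb
      omega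
    rw [h1, h2])
  have hre := reroute E' hE'd Ps hPs u x hux (notMem_erase _ _) (by omega) (by omega)
    (fun v hv => by
      have h1 := (dg_pos_of_mem_ppd hv).2
      refine key v (fun h => ?_) h1
      exact hE'd _ hv (by rw [h]; simp))
  rwa [hE', insert_erase hu] at hre

/-- (A3) `V` infinite, at most one vertex of even positive degree ⇒ perfect path decomposition.
PROOF.  Strong induction on `|E|`.
 * `x` of even positive degree: take a neighbour `u` of `x` (odd degree), `E' = E.erase s(u,x)`: in `E'` the only vertex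
   which can have even positive degree is `u`; `x` has odd degree.  Induction and `reroute`
   (all neighbours of `u` in `E'` are `≠ x` and not even positive, so odd).
 * no such `x` and all degrees `≤ 1`: the paths are the single edges (`E` is a matching).
 * no such `x` and `deg x ≥ 3` for some `x`, `xy ∈ E`: take a new vertex `s` (`Infinite V`, `E` finite: degree `0`).  Let
   `E1 = E - xy + sy` (`|E1| = |E|`), in `E1` `x` has even degree `≥ 2`, all others odd or `0`.  Let `u'` be a neighbour
   of `x` in `E1`, `E2 = E1 - u'x`, `|E2| < |E|`, only `u'` may have even positive degree in `E2`: induction gives a PPD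
   of `E2`; `reroute` (`u := u'`, `x := x`) gives one of `E1`; `reroute` (`u := x`, `x := s`; `s` has degree `1`, `x` even,
   neighbours of `x` odd) gives one of `E1 + xs`; `unsubdiv`. -/
theorem ppd (hV : Infinite V) (E : Finset (Sym2 V)) (hE : ∀ e ∈ E, ¬ e.IsDiag)
    (h1 : ∀ x y, 0 < dg E x → dg E x % 2 = 0 → 0 < dg E y → dg E y % 2 = 0 → x = y) :
    ∃ Ps : List (List V), PPD E Ps := by
  induction hn : E.card using Nat.strong_induction_on generalizing E with
  | _ n ih =>
  subst hn
  have ih' : ∀ E' : Finset (Sym2 V), E'.card < E.card → (∀ e ∈ E', ¬ e.IsDiag) →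
      (∀ x y, 0 < dg E' x → dg E' x % 2 = 0 → 0 < dg E' y → dg E' y % 2 = 0 → x = y) →
      ∃ Ps : List (List V), PPD E' Ps := fun E' hc hd hh => ih E'.card hc E' hd hh rfl
  by_cases hev : ∃ x, 0 < dg E x ∧ dg E x % 2 = 0
  · obtain ⟨x, hx, hx2⟩ := hev
    refine step_ppd hE ih' hx hx2 (fun v hv hv0 => ?_)
    by_contra hc
    exact hv (h1 v x hv0 (by omega) hx hx2)
  · have hodd : ∀ v, 0 < dg E v → dg E v % 2 = 1 := by
      intro v hv
      by_contra hc
      exact hev ⟨v, hv, by omega⟩
    rcases E.eq_empty_or_nonempty with rfl | ⟨e, he⟩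
    · exact ⟨[], by simp, by simp, by simp, by simp [nEnd, dg]⟩
    by_cases h3 : ∃ x, 2 ≤ dg E x
    · obtain ⟨x, hx⟩ := h3
      have hx3 := hodd x (by omega)
      obtain ⟨y, hy⟩ := dg_pos_ppd (E := E) (v := x) (by omega)
      have hxy : s(x, y) ∈ E := by rwa [Sym2.eq_swap]
      have hne : x ≠ y := by
        intro h
        exact hE _ hxy (by rw [h]; simp)
      obtain ⟨z, hz⟩ : ∃ z, dg E z = 0 := by
        obtain ⟨z, hz⟩ := Infinite.exists_notMem_finset
          (E.biUnion (fun e => {(Quot.out e).1, (Quot.out e).2}))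
        refine ⟨z, ?_⟩
        by_contra hc
        obtain ⟨u, hu⟩ := dg_pos_ppd (Nat.pos_of_ne_zero hc)
        apply hz
        rw [mem_biUnion]
        refine ⟨_, hu, ?_⟩
        have h4 : z ∈ s(u, z) := Sym2.mem_mk_right u z
        have h5 : s(u, z) = s((Quot.out s(u, z)).1, (Quot.out s(u, z)).2) := by
          conv_lhs => rw [← Quot.out_eq s(u, z)]
        rw [h5] at h4
        simpa [Sym2.mem_iff] using h4
      have hyp := (dg_pos_of_mem_ppd hxy).2
      have hzx : z ≠ x := by rintro rfl; omega
      have hzy : z ≠ y := by rintro rfl; omega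
      have hzE : ∀ v, s(z, v) ∉ E := fun v hv => by
        have := (dg_pos_of_mem_ppd hv).1
        omega
      set E0 := E.erase s(x, y) with hE0
      have hzyE0 : s(z, y) ∉ E0 := fun h => hzE y (mem_of_mem_erase h)
      set E1 := insert s(z, y) E0 with hE1
      have hd0 : ∀ v, dg E v = dg E0 v + (if v ∈ s(x, y) then 1 else 0) := dg_erase_ppd hxy
      have hd1 : ∀ v, dg E1 v = dg E0 v + (if v ∈ s(z, y) then 1 else 0) := dg_insert_ppd hzyE0
      have hE1d : ∀ e ∈ E1, ¬ e.IsDiag := by
        intro e he
        rcases mem_insert.mp he with rfl | he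
        · simpa using hzy
        · exact hE e (mem_of_mem_erase he)
      have hx0 : dg E x = dg E0 x + 1 := by rw [hd0 x, if_pos (Sym2.mem_mk_left x y)]
      have hx1 : dg E1 x = dg E0 x := by
        rw [hd1 x, if_neg (by simp [hzx.symm, hne]), add_zero]
      have hy0 : dg E y = dg E0 y + 1 := by rw [hd0 y, if_pos (Sym2.mem_mk_right x y)]
      have hy1 : dg E1 y = dg E0 y + 1 := by rw [hd1 y, if_pos (Sym2.mem_mk_right z y)]
      have hz0 : dg E z = dg E0 z := by
        rw [hd0 z, if_neg (by simp [hzx, hzy]), add_zero]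
      have hz1 : dg E1 z = dg E0 z + 1 := by rw [hd1 z, if_pos (Sym2.mem_mk_left z y)]
      have hv1 : ∀ v, v ≠ x → v ≠ y → v ≠ z → dg E1 v = dg E v := by
        intro v a b c
        rw [hd1, hd0, if_neg (by simp [b, c]), if_neg (by simp [a, b])]
      have key : ∀ v, v ≠ x → 0 < dg E1 v → dg E1 v % 2 = 1 := by
        intro v a b
        by_cases c : v = y
        · subst c
          have := hodd v hyp
          omega
        · by_cases d : v = z
          · subst d
            omega
          · rw [hv1 v a c d] at b ⊢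
            exact hodd v b
      have hcard : E1.card = E.card := by
        rw [hE1, card_insert_of_notMem hzyE0, hE0, card_erase_add_one hxy]
      have hP1 : ∃ Ps : List (List V), PPD E1 Ps := by
        refine step_ppd hE1d (fun E' hc => ih' E' (by omega)) (x := x) (by omega) (by omega) key
      obtain ⟨Ps, hPs⟩ := hP1
      have hxz : s(x, z) ∉ E1 := by
        intro h
        rcases mem_insert.mp h with h | h
        · rw [Sym2.eq_iff] at h
          rcases h with ⟨h, _⟩ | ⟨h, _⟩
          · exact hzx h.symm
          · exact hne h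
        · exact hzE x (by rw [Sym2.eq_swap]; exact mem_of_mem_erase h)
      obtain ⟨Ps', hPs'⟩ := reroute E1 hE1d Ps hPs x z hzx.symm hxz (by omega) (by omega)
        (fun v hv => key v (fun h => hE1d _ hv (by rw [h]; simp)) (dg_pos_of_mem_ppd hv).2)
      exact unsubdiv E hE x y z hxy hz Ps' hPs'
    · have hle : ∀ v, dg E v ≤ 1 := fun v => by
        by_contra hc
        exact h3 ⟨v, by omega⟩
      induction e using Sym2.ind with
      | _ a b =>
      have hab : a ≠ b := by
        intro h
        exact hE _ he (by rw [h]; simp)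
      have hd : ∀ v, dg E v = dg (E.erase s(a, b)) v + (if v ∈ s(a, b) then 1 else 0) :=
        dg_erase_ppd he
      have hle' : ∀ v, dg (E.erase s(a, b)) v ≤ 1 := fun v => by
        have := hd v
        have := hle v
        omega
      obtain ⟨Ps, hP1, hP2, hP3, hP4⟩ := ih' (E.erase s(a, b)) (card_erase_lt_of_mem he)
        (fun e he => hE e (mem_of_mem_erase he)) (fun x y hx hx2 _ _ => by
          have := hle' x
          omega)
      refine ⟨[a, b] :: Ps, ?_, ?_, ?_, ?_⟩
      · intro p hp
        rcases List.mem_cons.mp hp with rfl | hp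
        · simp [hab]
        · exact hP1 p hp
      · rw [List.pairwise_cons]
        refine ⟨fun p hp e he he' => ?_, hP2⟩
        have h4 : e = s(a, b) := by simpa [pE] using he
        have h5 := (hP3 e).mpr ⟨p, hp, he'⟩
        rw [h4] at h5
        exact notMem_erase _ _ h5
      · intro e
        constructor
        · intro h
          by_cases h4 : e = s(a, b)
          · exact ⟨[a, b], by simp, by simp [pE, h4]⟩
          · obtain ⟨p, hp, hep⟩ := (hP3 e).mp (mem_erase.mpr ⟨h4, h⟩)
            exact ⟨p, List.mem_cons_of_mem _ hp, hep⟩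
        · rintro ⟨p, hp, hep⟩
          rcases List.mem_cons.mp hp with rfl | hp
          · have h4 : e = s(a, b) := by simpa [pE] using hep
            rw [h4]; exact he
          · exact mem_of_mem_erase ((hP3 e).mpr ⟨p, hp, hep⟩)
      · intro v
        have h4 := hP4 v
        have h5 := hd v
        have h6 := hle v
        have h7 : nEnd ([a, b] :: Ps) v = nEnd Ps v + (if v ∈ s(a, b) then 1 else 0) := by
          unfold nEnd
          rw [List.countP_cons, List.countP_cons]
          simp only [List.head?_cons, List.getLast?_cons_cons, List.getLast?_singleton,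
            Option.some.injEq, decide_eq_true_eq, Sym2.mem_iff]
          by_cases h8 : a = v
          · subst h8
            simp [hab, hab.symm]
            omega
          · by_cases h9 : b = v
            · subst h9
              simp [hab, hab.symm]
              omega
            · simp [h8, h9, Ne.symm (a := a) h8, Ne.symm (a := b) h9]
        rw [h7, h4]
        split_ifs at h5 ⊢ <;> omega

end Crest.Agent.EG
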