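import Mathlib

set_option autoImplicit false

namespace Crest.Agent.EG
open Finset

private theorem paramsPoly (l : ℕ) (hl : 100 ≤ l) :
    1700 * l + 4007 + 28 * ((l + 1) * (3 * l + 12)) ≤ 2 ^ l := by
  have h1 : 200 * l ^ 2 ≤ 2 ^ l := by
    induction l, hl using Nat.le_induction with
    | base => norm_num
    | succ n hn ih =>
      rw [pow_succ 2 n]
      nlinarith
  have h2 : 1700 * l + 4007 + 28 * ((l + 1) * (3 * l + 12)) ≤ 200 * l ^ 2 := by nlinarith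
  exact h2.trans h1

private theorem paramsDivAux (a b : ℕ) (hb : 1 ≤ b) : a ≤ (a / b + 1) * b := by
  have h := Nat.div_add_mod a b
  have h2 := Nat.mod_lt a (show 0 < b by omega)
  rw [add_mul, one_mul, mul_comm (a / b) b]
  omega

/-- (I1) PARAMETERS (pure arithmetic).  PROOF.  `ℓ = Nat.log 2 L`, `q = L^14`, `R = 3ℓ + 12`, `M = 300 L^3 q`,
`B = 2^L / q^R + 1` (natural division), `D r = B * q^(R - r)` (so `D (r+1) * q = D r` for `r < R`, `D R = B`),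
`k r = D (r+1) / 100`, `T j = k j / (10^6 M^3) - 1`.  `L0` is huge, e.g. `2^100`.
`2^ℓ ≤ L < 2^(ℓ+1)`, so `24 L^3 < 2^5 2^(3ℓ+3) = 2^(R-4)`; `R + 2 ≤ L`.  `q^R ≤ 2^(14(ℓ+1)(3ℓ+12)) ≤ 2^(L/2)` so `D 0 = B q^R ≤
2^L + q^R ≤ 2^(L+1)`, `D 0 ≥ 2^L`, `B ≥ 2^(L/2)` and `2^(L/2) ≥ 10^4 (4 M 6144)^100` (`M = 300 L^17`, so this is a
polynomial in `L`).  `16 D (r+1) ≤ 16 D 1 = 16 D 0/q ≤ 2^L`.  `300 D r L^3 = 300 L^3 q D(r+1) = M D (r+1)`.
For `j + 5 ≤ R`: `D (j+1) = q^4 D (j+5)`, so `10^6 M^2 D(j+5) L^3 = 9·10^10 L^9 q^2 D(j+5) ≤ D(j+1)/100 - 1` and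
`T j + 1 ≥ D(j+1)/(10^8 M^3) - 2 = q^4 D(j+5)/(2.7·10^15 L^9 q^3) - 2 ≥ 9600 L^3 D(j+5)` since `q = L^14`. -/
theorem params : ∃ L0 : ℕ, 100 ≤ L0 ∧ ∀ L, L0 ≤ L → ∃ (R M : ℕ) (D k T : ℕ → ℕ),
    5 ≤ R ∧ 24 * L ^ 3 < 2 ^ (R - 4) ∧ R + 2 ≤ L ∧ 1 ≤ M ∧ 2 ^ L ≤ D 0 ∧ D 0 ≤ 2 ^ (L + 1) ∧
    (∀ r < R, 1 ≤ D (r + 1) ∧ 16 * D (r + 1) ≤ 2 ^ L ∧ 300 * (D r * L ^ 3) ≤ M * D (r + 1) ∧
      200 ≤ k r ∧ 100 * k r ≤ D (r + 1) ∧ (2 * (2 * M) * 6144) ^ 100 ≤ k r) ∧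
    (∀ j, j + 4 < R → 10 ^ 6 * M ^ 3 * (T j + 1) ≤ k j ∧ 10 ^ 6 * M ^ 2 * (D (j + 5) * L ^ 3) ≤ k j ∧
      9600 * L ^ 3 * D (j + 5) ≤ T j + 1) := by
  refine ⟨2 ^ 200, by norm_num, ?_⟩
  intro L hL
  obtain ⟨l, hl⟩ : ∃ l, l = Nat.log 2 L := ⟨_, rfl⟩
  have hL0 : L ≠ 0 := by
    intro h
    rw [h] at hL
    exact absurd hL (by norm_num)
  have hLl : 2 ^ l ≤ L := by rw [hl]; exact Nat.pow_log_le_self 2 hL0
  have hLu : L < 2 ^ (l + 1) := by rw [hl]; exact Nat.lt_pow_succ_log_self (by norm_num) L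
  have hl200 : 200 ≤ l := by
    rw [hl]
    exact Nat.le_log_of_pow_le (by norm_num) hL
  have hLbig : 2 ^ 200 ≤ L := hL
  obtain ⟨P, hP⟩ : ∃ P, P = (l + 1) * (3 * l + 12) := ⟨_, rfl⟩
  have hpoly : 1700 * l + 4007 + 28 * P ≤ L := by
    rw [hP]
    exact (paramsPoly l (by omega)).trans hLl
  have hexp : 7 + 100 * (23 + 17 * (l + 1)) ≤ L - 14 * P := by
    clear hLl hLu hL hLbig
    omega
  have hL1 : 1 ≤ L := Nat.one_le_iff_ne_zero.mpr hL0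
  obtain ⟨q, hq⟩ : ∃ q, q = L ^ 14 := ⟨_, rfl⟩
  obtain ⟨R, hR⟩ : ∃ R, R = 3 * l + 12 := ⟨_, rfl⟩
  obtain ⟨M, hM⟩ : ∃ M, M = 300 * L ^ 3 * q := ⟨_, rfl⟩
  obtain ⟨B, hB⟩ : ∃ B, B = 2 ^ L / q ^ R + 1 := ⟨_, rfl⟩
  obtain ⟨N, hN⟩ : ∃ N, N = 2 * (2 * M) * 6144 := ⟨_, rfl⟩
  have hq1 : 1 ≤ q := by rw [hq]; exact Nat.one_le_pow _ _ hL1
  have hqR1 : 1 ≤ q ^ R := Nat.one_le_pow _ _ hq1
  have hM1 : 1 ≤ M := by
    rw [hM]
    have : 1 ≤ L ^ 3 := Nat.one_le_pow _ _ hL1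
    nlinarith [Nat.mul_le_mul this hq1]
  -- q^R small
  have hqR : q ^ R ≤ 2 ^ (14 * P) := by
    rw [hq, ← pow_mul]
    calc L ^ (14 * R) ≤ (2 ^ (l + 1)) ^ (14 * R) := Nat.pow_le_pow_left hLu.le _
      _ = 2 ^ (14 * P) := by
        rw [← pow_mul]
        congr 1
        rw [hR, hP]; ring
  have hBpos : 1 ≤ B := by rw [hB]; exact Nat.le_add_left 1 _
  have hBge : 2 ^ L ≤ B * q ^ R := by
    have h1 := paramsDivAux (2 ^ L) (q ^ R) hqR1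
    rw [← hB] at h1
    exact h1
  have hBle : B * q ^ R ≤ 2 ^ (L + 1) := by
    have h1 : 2 ^ L / q ^ R * q ^ R ≤ 2 ^ L := Nat.div_mul_le_self _ _
    have h2 : q ^ R ≤ 2 ^ L := by
      refine hqR.trans (Nat.pow_le_pow_right (by norm_num) ?_)
      omega
    rw [hB, add_mul, one_mul, pow_succ]
    calc 2 ^ L / q ^ R * q ^ R + q ^ R ≤ 2 ^ L + 2 ^ L := Nat.add_le_add h1 h2
      _ = 2 ^ L * 2 := by ring
  -- B large
  have hB2 : 2 ^ (L - 14 * P) ≤ B := by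
    have hsub : L - 14 * P + 14 * P = L := by
      omega
    have h1 : 2 ^ (L - 14 * P) * 2 ^ (14 * P) = 2 ^ L := by
      rw [← pow_add, hsub]
    have h2 : 2 ^ (L - 14 * P) * 2 ^ (14 * P) ≤
        B * 2 ^ (14 * P) := by
      rw [h1]
      exact hBge.trans (Nat.mul_le_mul_left _ hqR)
    exact Nat.le_of_mul_le_mul_right h2 (by positivity)
  have hMle : N ≤ 2 ^ (23 + 17 * (l + 1)) := by
    rw [hN]
    have h1 : L ^ 17 ≤ (2 ^ (l + 1)) ^ 17 := Nat.pow_le_pow_left hLu.le _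
    have h2 : M = 300 * L ^ 17 := by rw [hM, hq]; ring
    have h3 : (2 ^ (l + 1)) ^ 17 = 2 ^ (17 * (l + 1)) := by rw [← pow_mul]; ring_nf
    rw [h2, pow_add, ← h3]
    norm_num
    omega
  have hMB : 100 * N ^ 100 ≤ B := by
    have h1 : N ^ 100 ≤ (2 ^ (23 + 17 * (l + 1))) ^ 100 :=
      Nat.pow_le_pow_left hMle _
    have h2 : 100 * (2 ^ (23 + 17 * (l + 1))) ^ 100 ≤ 2 ^ (7 + 100 * (23 + 17 * (l + 1))) := by
      rw [← pow_mul, pow_add 2 7, mul_comm (23 + 17 * (l + 1)) 100]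
      exact Nat.mul_le_mul_right _ (by norm_num)
    have h3 : 2 ^ (7 + 100 * (23 + 17 * (l + 1))) ≤ 2 ^ (L - 14 * P) :=
      Nat.pow_le_pow_right Nat.two_pos hexp
    have h4 : 100 * N ^ 100 ≤ 100 * (2 ^ (23 + 17 * (l + 1))) ^ 100 := Nat.mul_le_mul_left _ h1
    refine le_trans h4 (le_trans h2 (le_trans h3 hB2))
  have hDB : ∀ r, B ≤ B * q ^ (R - r) := fun r =>
    Nat.le_mul_of_pos_right _ (Nat.pos_of_ne_zero (by positivity))
  have hDq : ∀ r, r < R → B * q ^ (R - r) = q * (B * q ^ (R - (r + 1))) := by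
    intro r hr
    have : R - r = (R - (r + 1)) + 1 := by omega
    rw [this, pow_succ]; ring
  have hDq4 : ∀ j, j + 4 < R → B * q ^ (R - (j + 1)) = q ^ 4 * (B * q ^ (R - (j + 5))) := by
    intro j hj
    have : R - (j + 1) = (R - (j + 5)) + 4 := by omega
    rw [this, pow_add]; ring
  have hkbig : ∀ r, N ^ 100 ≤ B * q ^ (R - r) / 100 := by
    intro r
    rw [Nat.le_div_iff_mul_le (by norm_num), mul_comm]
    exact hMB.trans (hDB r)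
  have hc3 : 9600 * L ^ 3 * (10 ^ 6 * M ^ 3) * 100 ≤ q ^ 4 := by
    have h2 : M = 300 * L ^ 17 := by rw [hM, hq]; ring
    have e1 : 9600 * L ^ 3 * (10 ^ 6 * M ^ 3) * 100 = 25920000000000000000 * L ^ 54 := by
      rw [h2]; ring
    have e2 : q ^ 4 = L ^ 2 * L ^ 54 := by rw [hq]; ring
    rw [e1, e2]
    refine Nat.mul_le_mul_right _ ?_
    calc 25920000000000000000 ≤ (2 ^ 200) ^ 2 := by norm_num
      _ ≤ L ^ 2 := Nat.pow_le_pow_left hLbig _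
  have hc2 : 10 ^ 6 * M ^ 2 * L ^ 3 * 100 ≤ q ^ 4 := by
    have h2 : M = 300 * L ^ 17 := by rw [hM, hq]; ring
    have e1 : 10 ^ 6 * M ^ 2 * L ^ 3 * 100 = 9000000000000 * L ^ 37 := by
      rw [h2]; ring
    have e2 : q ^ 4 = L ^ 19 * L ^ 37 := by rw [hq]; ring
    rw [e1, e2]
    refine Nat.mul_le_mul_right _ ?_
    calc 9000000000000 ≤ (2 ^ 200) ^ 1 := by norm_num
      _ ≤ L ^ 1 := Nat.pow_le_pow_left hLbig _
      _ ≤ L ^ 19 := Nat.pow_le_pow_right hL1 (by norm_num)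
  refine ⟨R, M, fun r => B * q ^ (R - r), fun r => B * q ^ (R - (r + 1)) / 100,
    fun j => B * q ^ (R - (j + 1)) / 100 / (10 ^ 6 * M ^ 3) - 1, ?_, ?_, ?_, hM1, ?_, ?_, ?_, ?_⟩
  · rw [hR]; omega
  · have h1 : R - 4 = 3 * (l + 1) + 5 := by rw [hR]; omega
    rw [h1, pow_add, mul_comm 3 (l + 1), pow_mul]
    have h2 : L ^ 3 < (2 ^ (l + 1)) ^ 3 := Nat.pow_lt_pow_left hLu (by norm_num)
    omega
  · rw [hR]; nlinarith
  · simp only [Nat.sub_zero]; exact hBge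
  · simp only [Nat.sub_zero]; exact hBle
  · intro r hr
    simp only []
    rw [← hN]
    refine ⟨hBpos.trans (hDB _), ?_, ?_, ?_, ?_, ?_⟩
    · have h1 : B * q ^ (R - (r + 1)) ≤ B * q ^ (R - 1) :=
        Nat.mul_le_mul_left _ (Nat.pow_le_pow_right hq1 (by omega))
      have h2 : B * q ^ (R - 0) = q * (B * q ^ (R - 1)) := by
        have := hDq 0 (by omega)
        simpa using this
      have h3 : 32 ≤ q := by
        calc 32 ≤ (2 ^ 200) ^ 1 := by norm_num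
          _ ≤ L ^ 1 := Nat.pow_le_pow_left hLbig _
          _ ≤ q := by rw [hq]; exact Nat.pow_le_pow_right hL1 (by norm_num)
      have h4 : 32 * (B * q ^ (R - 1)) ≤ q * (B * q ^ (R - 1)) := Nat.mul_le_mul_right _ h3
      rw [← h2, Nat.sub_zero] at h4
      have h5 := h4.trans hBle
      rw [pow_succ] at h5
      omega
    · have := hDq r hr
      rw [this, hM]
      apply le_of_eq; ring
    · refine le_trans ?_ (hkbig (r + 1))
      have hN200 : 200 ≤ N := by rw [hN]; omega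
      exact hN200.trans (Nat.le_self_pow (by norm_num) _)
    · exact Nat.mul_div_le _ _
    · exact hkbig (r + 1)
  · intro j hj
    have hdj := hDq4 j hj
    have hD5 : 1 ≤ B * q ^ (R - (j + 5)) := hBpos.trans (hDB _)
    have key3 : 9600 * L ^ 3 * (B * q ^ (R - (j + 5))) ≤
        B * q ^ (R - (j + 1)) / 100 / (10 ^ 6 * M ^ 3) := by
      rw [Nat.le_div_iff_mul_le (by positivity), Nat.le_div_iff_mul_le (by norm_num), hdj]
      calc 9600 * L ^ 3 * (B * q ^ (R - (j + 5))) * (10 ^ 6 * M ^ 3) * 100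
          = (9600 * L ^ 3 * (10 ^ 6 * M ^ 3) * 100) * (B * q ^ (R - (j + 5))) := by ring
        _ ≤ q ^ 4 * (B * q ^ (R - (j + 5))) := Nat.mul_le_mul_right _ hc3
    have hpos : 1 ≤ B * q ^ (R - (j + 1)) / 100 / (10 ^ 6 * M ^ 3) := by
      refine le_trans ?_ key3
      have h3 : 1 ≤ L ^ 3 := Nat.one_le_pow _ _ hL1
      have h4 := Nat.mul_le_mul h3 hD5
      nlinarith
    have hT : B * q ^ (R - (j + 1)) / 100 / (10 ^ 6 * M ^ 3) - 1 + 1 =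
        B * q ^ (R - (j + 1)) / 100 / (10 ^ 6 * M ^ 3) := Nat.sub_add_cancel hpos
    refine ⟨?_, ?_, ?_⟩
    · simp only [hT]
      exact Nat.mul_div_le _ _
    · show 10 ^ 6 * M ^ 2 * (B * q ^ (R - (j + 5)) * L ^ 3) ≤ B * q ^ (R - (j + 1)) / 100
      rw [Nat.le_div_iff_mul_le (by norm_num), hdj]
      calc 10 ^ 6 * M ^ 2 * (B * q ^ (R - (j + 5)) * L ^ 3) * 100
          = (10 ^ 6 * M ^ 2 * L ^ 3 * 100) * (B * q ^ (R - (j + 5))) := by ring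
        _ ≤ q ^ 4 * (B * q ^ (R - (j + 5))) := Nat.mul_le_mul_right _ hc2
    · simp only [hT]
      exact key3

/-- (I2) ARGMAX.  PROOF.  Let `j < R` maximise `a j / 2^j` (i.e. `a r * 2^j ≤ a j * 2^r` for all `r < R`; `Finset.exists_max_image`
with rational values).  `a 0 * 2^j ≤ a j ≤ n < 2^(R-4) a 0` so `j < R - 4` (`a 0 > 0` since `n < ...`).
`∑_{r ≤ j+4} a r * 2^j ≤ a j * ∑_{r ≤ j+4} 2^r < a j 2^(j+5)`. -/
theorem argmax (R n : ℕ) (hR : 5 ≤ R) (a : ℕ → ℕ) (ha : ∀ r < R, a r ≤ n) (h0 : n < 2 ^ (R - 4) * a 0) :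
    ∃ j, j + 4 < R ∧ a 0 ≤ a j ∧ ∑ r ∈ range (j + 5), a r ≤ 32 * a j := by
  obtain ⟨j, hj, hmax⟩ := Finset.exists_max_image (range R) (fun r => (a r : ℚ) / 2 ^ r)
    ⟨0, by rw [mem_range]; omega⟩
  rw [mem_range] at hj
  have hm : ∀ r < R, a r * 2 ^ j ≤ a j * 2 ^ r := by
    intro r hr
    have h := hmax r (mem_range.mpr hr)
    rw [div_le_div_iff₀ (by positivity) (by positivity)] at h
    exact_mod_cast h
  have ha0 : 0 < a 0 := by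
    rcases Nat.eq_zero_or_pos (a 0) with h | h
    · rw [h, mul_zero] at h0
      exact absurd h0 (Nat.not_lt_zero _)
    · exact h
  have hj0 := hm 0 (by omega)
  rw [pow_zero, mul_one] at hj0
  have h1 : 1 ≤ 2 ^ j := Nat.one_le_two_pow
  have hj4 : j < R - 4 := by
    have h2 : a 0 * 2 ^ j < a 0 * 2 ^ (R - 4) := by
      calc a 0 * 2 ^ j ≤ a j := hj0
        _ ≤ n := ha j hj
        _ < 2 ^ (R - 4) * a 0 := h0
        _ = a 0 * 2 ^ (R - 4) := by ring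
    have h3 := Nat.lt_of_mul_lt_mul_left h2
    exact (Nat.pow_lt_pow_iff_right (by norm_num)).mp h3
  refine ⟨j, by omega, ?_, ?_⟩
  · calc a 0 = a 0 * 1 := (mul_one _).symm
      _ ≤ a 0 * 2 ^ j := Nat.mul_le_mul_left _ h1
      _ ≤ a j := hj0
  · have h2 : (∑ r ∈ range (j + 5), a r) * 2 ^ j ≤ (32 * a j) * 2 ^ j := by
      rw [sum_mul]
      calc ∑ r ∈ range (j + 5), a r * 2 ^ j ≤ ∑ r ∈ range (j + 5), a j * 2 ^ r := by
            refine sum_le_sum ?_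
            intro r hr
            rw [mem_range] at hr
            exact hm r (by omega)
        _ = a j * ∑ r ∈ range (j + 5), 2 ^ r := by rw [mul_sum]
        _ ≤ a j * 2 ^ (j + 5) := Nat.mul_le_mul_left _ (by
            rw [Nat.geomSum_eq (by norm_num)]
            simp)
        _ = (32 * a j) * 2 ^ j := by rw [pow_add]; ring
    exact Nat.le_of_mul_le_mul_right h2 (by positivity)

/-- (I3) FINAL INEQUALITY.  `n' = |S'|`, `lam' = log2(|E'|/n')`, total number of parts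
`m'' ≤ m' + (j+6) * 2n/L^3 + (582 + 64 C0) a`.
PROOF.  `n' = 0`: `m' ≤ 0`; `2n' < n`: `m' ≤ C n' ≤ C n/2`, total `≤ (512 C0 + 64 C0 + 582 + 1) n ≤ (1024 C0 - 1) n`.
`2n' ≥ n`: `lam' + 1 ≤ L - 1` by `hlam`, `m' ≤ n' (C - 1/(L-1)) ≤ (n - 0.92 a)(C - 1/(L-1))`
`≤ n (C - 1/(L-1)) - 0.92 a (C - 1)` and `0.92 (1024 C0 - 1) ≥ 582 + 64 C0`; finally
`1/(L-1) - 1/(L+1) = 2/(L^2-1) ≥ 2 (j+6)/L^3` as `j + 6 ≤ L`. -/
theorem finalIneq (C0 n n' a L lam' j : ℕ) (m' m'' : ℝ) (hC : 10 ≤ C0) (hL : 100 ≤ L) (hj : j + 6 ≤ L)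
    (hn' : 100 * n' + 92 * a ≤ 100 * n) (ha : a ≤ n)
    (hm' : m' ≤ n' * (1024 * C0 - 1 / (lam' + 1)))
    (hlam : n ≤ 2 * n' → lam' + 2 ≤ L)
    (hm'' : m'' ≤ m' + (j + 6) * (2 * n / L ^ 3) + (582 + 64 * C0) * a) :
    m'' ≤ n * (1024 * C0 - 1 / (L + 1)) := by
  have hC' : (10 : ℝ) ≤ C0 := by exact_mod_cast hC
  have hL' : (100 : ℝ) ≤ L := by exact_mod_cast hL
  have hj' : (j : ℝ) + 6 ≤ L := by exact_mod_cast hj
  have hn0 : (0 : ℝ) ≤ n := Nat.cast_nonneg _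
  have hn'0 : (0 : ℝ) ≤ n' := Nat.cast_nonneg _
  have ha0 : (0 : ℝ) ≤ a := Nat.cast_nonneg _
  have hlam0 : (0 : ℝ) ≤ lam' := Nat.cast_nonneg _
  have hnn : 100 * (n' : ℝ) + 92 * a ≤ 100 * n := by exact_mod_cast hn'
  have han : (a : ℝ) ≤ n := by exact_mod_cast ha
  have hLpos : (0 : ℝ) < L := by linarith
  -- the error term
  have herr : ((j : ℝ) + 6) * (2 * n / (L : ℝ) ^ 3) ≤ 2 * n / (L : ℝ) ^ 2 := by
    have h1 : ((j : ℝ) + 6) * (2 * n / (L : ℝ) ^ 3) ≤ (L : ℝ) * (2 * n / (L : ℝ) ^ 3) :=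
      mul_le_mul_of_nonneg_right hj' (by positivity)
    have h2 : (L : ℝ) * (2 * n / (L : ℝ) ^ 3) = 2 * n / (L : ℝ) ^ 2 := by
      field_simp
    linarith
  have hinv : 1 / ((L : ℝ) + 1) ≤ 1 := by
    rw [div_le_one (by linarith)]
    linarith
  by_cases hcase : n ≤ 2 * n'
  · have hl := hlam hcase
    have hl' : (lam' : ℝ) + 2 ≤ L := by exact_mod_cast hl
    have h1 : 1 / ((L : ℝ) - 1) ≤ 1 / ((lam' : ℝ) + 1) :=
      one_div_le_one_div_of_le (by linarith) (by linarith)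
    have h2 : 1 / ((L : ℝ) - 1) ≤ 1 := by
      rw [div_le_one (by linarith)]
      linarith
    have h20 : 0 ≤ 1 / ((L : ℝ) - 1) := by
      apply div_nonneg <;> linarith
    have h3 : m' ≤ n' * (1024 * C0 - 1 / ((L : ℝ) - 1)) := by
      refine hm'.trans (mul_le_mul_of_nonneg_left ?_ hn'0)
      linarith
    have hpos : 0 ≤ 1024 * (C0 : ℝ) - 1 / ((L : ℝ) - 1) := by linarith
    have h4 : (n' : ℝ) * (1024 * C0 - 1 / ((L : ℝ) - 1)) ≤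
        ((n : ℝ) - 92 / 100 * a) * (1024 * C0 - 1 / ((L : ℝ) - 1)) :=
      mul_le_mul_of_nonneg_right (by linarith) hpos
    have h5 : (582 + 64 * (C0 : ℝ)) * a ≤ 92 / 100 * a * (1024 * C0 - 1 / ((L : ℝ) - 1)) := by
      have h6 : (582 + 64 * (C0 : ℝ)) ≤ 92 / 100 * (1024 * C0 - 1 / ((L : ℝ) - 1)) := by
        linarith
      nlinarith [mul_le_mul_of_nonneg_right h6 ha0]
    have h7 : 2 * (n : ℝ) / (L : ℝ) ^ 2 ≤ n * (1 / ((L : ℝ) - 1) - 1 / ((L : ℝ) + 1)) := by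
      have h8 : 1 / ((L : ℝ) - 1) - 1 / ((L : ℝ) + 1) = 2 / ((L : ℝ) ^ 2 - 1) := by
        have hne1 : (L : ℝ) - 1 ≠ 0 := by linarith
        have hne2 : (L : ℝ) + 1 ≠ 0 := by linarith
        have hne3 : (L : ℝ) ^ 2 - 1 ≠ 0 := by nlinarith
        field_simp
        ring
      have h9 : 2 / (L : ℝ) ^ 2 ≤ 2 / ((L : ℝ) ^ 2 - 1) :=
        div_le_div_of_nonneg_left (by norm_num) (by nlinarith) (by linarith)
      rw [h8]
      calc 2 * (n : ℝ) / (L : ℝ) ^ 2 = n * (2 / (L : ℝ) ^ 2) := by ring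
        _ ≤ n * (2 / ((L : ℝ) ^ 2 - 1)) := mul_le_mul_of_nonneg_left h9 hn0
    nlinarith
  · have hlt : 2 * (n' : ℝ) ≤ n := by
      have : 2 * n' < n := not_le.mp hcase
      exact_mod_cast this.le
    have h1 : 0 ≤ 1 / ((lam' : ℝ) + 1) := by positivity
    have h2 : m' ≤ n' * (1024 * C0) := by
      refine hm'.trans (mul_le_mul_of_nonneg_left ?_ hn'0)
      linarith
    have h3 : (n' : ℝ) * (1024 * C0) ≤ n / 2 * (1024 * C0) :=
      mul_le_mul_of_nonneg_right (by linarith) (by linarith)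
    have h4 : (582 + 64 * (C0 : ℝ)) * a ≤ (582 + 64 * (C0 : ℝ)) * n :=
      mul_le_mul_of_nonneg_left han (by linarith)
    have h5 : 2 * (n : ℝ) / (L : ℝ) ^ 2 ≤ n := by
      rw [div_le_iff₀ (by positivity)]
      have : (2 : ℝ) ≤ (L : ℝ) ^ 2 := by nlinarith
      nlinarith
    have h6 : (n : ℝ) * (1 / ((L : ℝ) + 1)) ≤ n := by
      calc (n : ℝ) * (1 / ((L : ℝ) + 1)) ≤ n * 1 := mul_le_mul_of_nonneg_left hinv hn0
        _ = n := mul_one _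
    have h7 : (n : ℝ) * 10 ≤ n * C0 := mul_le_mul_of_nonneg_left hC' hn0
    nlinarith

end Crest.Agent.EG
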