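import Crest.Agent.EG.Segs

set_option autoImplicit false

namespace Crest.Agent.EG
open Finset

variable {V : Type} [DecidableEq V]

private theorem p2a_segE1 (v v' : V) : segE (v, [(none, v')]) = {s(v, v')} := by
  simp [segE, FE, steps]

private theorem p2a_segE2 (v w v' : V) : segE (v, [(none, w), (none, v')]) = {s(v, w), s(w, v')} := by
  simp [segE, FE, steps]

private theorem p2a_segV1 (v v' : V) : segV (v, [(none, v')]) = {v, v'} := by
  simp [segV, rtV]

private theorem p2a_segV2 (v w v' : V) : segV (v, [(none, w), (none, v')]) = {v, w, v'} := by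
  simp [segV, rtV]

/-- uniqueness in `pairUp` -/
private theorem p2a_uniq {α : Type} (Q : List (α × α))
    (hQ : (Q.flatMap (fun p => [p.1, p.2])).Nodup) (p q : α × α) (hp : p ∈ Q) (hq : q ∈ Q) (x : α)
    (hxp : x = p.1 ∨ x = p.2) (hxq : x = q.1 ∨ x = q.2) : p = q := by
  induction Q with
  | nil => simp at hp
  | cons a Q ih =>
    rw [List.flatMap_cons, List.nodup_append] at hQ
    obtain ⟨h1, h2, h3⟩ := hQ
    have key : ∀ r ∈ Q, (x = a.1 ∨ x = a.2) → (x = r.1 ∨ x = r.2) → False := by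
      intro r hr hxa hxr
      refine h3 x ?_ x ?_ rfl
      · rcases hxa with h | h <;> simp [h]
      · rw [List.mem_flatMap]
        refine ⟨r, hr, ?_⟩
        rcases hxr with h | h <;> simp [h]
    rcases List.mem_cons.1 hp with rfl | hp' <;> rcases List.mem_cons.1 hq with rfl | hq'
    · rfl
    · exact (key q hq' hxp hxq).elim
    · exact (key p hp' hxq hxp).elim
    · exact ih h2 hp' hq'

private theorem p2a_ne {α : Type} (Q : List (α × α))
    (hQ : (Q.flatMap (fun p => [p.1, p.2])).Nodup) (p : α × α) (hp : p ∈ Q) : p.1 ≠ p.2 := by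
  rw [List.nodup_flatMap] at hQ
  have := hQ.1 p hp
  simpa using this

private theorem p2a_len {α : Type} [DecidableEq α] (Q : List (α × α)) (A : Finset α)
    (hQ : (Q.flatMap (fun p => [p.1, p.2])).Nodup) (hA : ∀ p ∈ Q, p.1 ∈ A ∧ p.2 ∈ A) :
    2 * Q.length ≤ A.card := by
  have h1 : (Q.flatMap (fun p => [p.1, p.2])).length = 2 * Q.length := by
    rw [List.length_flatMap]
    simp [mul_comm]
  rw [← h1, ← List.toFinset_card_of_nodup hQ]
  refine card_le_card ?_
  intro x hx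
  rw [List.mem_toFinset, List.mem_flatMap] at hx
  obtain ⟨p, hp, hx⟩ := hx
  obtain ⟨h1, h2⟩ := hA p hp
  simp only [List.mem_cons, List.not_mem_nil, or_false] at hx
  rcases hx with rfl | rfl <;> assumption

/-- (H10) PHASE 2A for the hub `h`.
PROOF.  `I` = segments `(v, [(none, v')])`, one for every edge `s(v,v') ∈ Fc` with `v, v' ∈ L h`, and for every `w ∈ S \ L h` the segments
`(v, [(none, w), (none, v')])` for the pairs `(v,v')` of `pairUp {v ∈ L h : s(v,w) ∈ Fc}`.  The edge sets of the segments are pairwise disjoint.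
Conflicts: segments through a vertex `v ∈ L h` use different edges of `Fc` at `v`, so there are at most `dg Fc v ≤ T`; segments through `w ∉ L h`
are the pairs at `w`, at most `|L h|/2`.  A segment has two vertices in `L h` and at most one outside: `Δ = 2 T + |L h|/2`.
`|I| ≤ ∑_{v∈L h} dg Fc v ≤ |L h| T`.  `runSegs` with `t0 = 4 (T+1)` (`400 M^2 (16(T+1)+1) ≤ 10^6 M^3 (T+1) ≤ k`):
`c ≤ Δ + 1 + |L h|/4 ≤ 2T + 1 + (3/4)|L h| ≤ |h.1|` (`L h ⊆ h.1`, `2T+1 ≤ k/4 ≤ |h.1|/4`).
`K = I.biUnion segE`: after removing it no edges are left inside `L h`, and `w` keeps at most one edge to `L h`. -/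
theorem phase2A {M k T : ℕ} {S : Finset V} {F0 : Finset (Sym2 V)} {H : List (Hub V)}
    {L : Hub V → Finset V} {π : V → V} (cs : CS M k T S F0 H L π) {Fc U : Finset (Sym2 V)}
    (inv : Inv M F0 H L Fc U) (h : Hub V) (hh : h ∈ H) :
    ∃ (K X : Finset (Sym2 V)) (c : ℕ), K ⊆ Fc ∧ X ⊆ hubE H \ U ∧ c ≤ h.1.card ∧ Dec (K ∪ X) c ∧
      Inv M F0 H L (Fc \ K) (U ∪ X) ∧ (∀ v ∈ L h, ∀ v' ∈ L h, s(v, v') ∉ Fc \ K) ∧
      ∀ w ∉ L h, ((L h).filter (fun v => s(v, w) ∈ Fc \ K)).card ≤ 1 := by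
  have hloop : ∀ e ∈ Fc, ¬ e.IsDiag := fun e he => cs.supp.2 e (inv.sub he)
  choose Q hQn hQm hQc using fun w => pairUp ((L h).filter (fun v => s(v, w) ∈ Fc))
  obtain ⟨I1, hI1⟩ : ∃ I1 : Finset (V × Rt V), I1 = (Fc ∩ (L h).sym2).image
      (fun e => ((Quot.out e).1, [(none, (Quot.out e).2)])) := ⟨_, rfl⟩
  obtain ⟨I2, hI2⟩ : ∃ I2 : Finset (V × Rt V), I2 = (S \ L h).biUnion (fun w => (Q w).toFinset.image
      (fun p => (p.1, [(none, w), (none, p.2)]))) := ⟨_, rfl⟩
  obtain ⟨I, hI⟩ : ∃ I : Finset (V × Rt V), I = I1 ∪ I2 := ⟨_, rfl⟩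
  have hout : ∀ e : Sym2 V, s((Quot.out e).1, (Quot.out e).2) = e := fun e => Quot.out_eq e
  -- type 1 segments
  have hm1 : ∀ s ∈ I1, ∃ e ∈ Fc, e ∈ (L h).sym2 ∧ s = ((Quot.out e).1, [(none, (Quot.out e).2)]) ∧
      (Quot.out e).1 ∈ L h ∧ (Quot.out e).2 ∈ L h ∧ (Quot.out e).1 ≠ (Quot.out e).2 := by
    intro s hs
    rw [hI1, mem_image] at hs
    obtain ⟨e, he, rfl⟩ := hs
    rw [mem_inter] at he
    have he2 := he.2
    rw [← hout e, mk_mem_sym2_iff] at he2
    refine ⟨e, he.1, he.2, rfl, he2.1, he2.2, ?_⟩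
    intro heq
    refine hloop e he.1 ?_
    rw [← hout e]
    exact Sym2.mk_isDiag_iff.2 heq
  have hm2 : ∀ s ∈ I2, ∃ w ∈ S, w ∉ L h ∧ ∃ p ∈ Q w, s = (p.1, [(none, w), (none, p.2)]) ∧
      p.1 ∈ L h ∧ p.2 ∈ L h ∧ p.1 ≠ p.2 ∧ s(p.1, w) ∈ Fc ∧ s(w, p.2) ∈ Fc := by
    intro s hs
    rw [hI2, mem_biUnion] at hs
    obtain ⟨w, hw, hs⟩ := hs
    rw [mem_image] at hs
    obtain ⟨p, hp, rfl⟩ := hs
    rw [List.mem_toFinset] at hp
    rw [mem_sdiff] at hw
    obtain ⟨h1, h2⟩ := hQm w p hp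
    rw [mem_filter] at h1 h2
    refine ⟨w, hw.1, hw.2, p, hp, rfl, h1.1, h2.1, p2a_ne _ (hQn w) p hp, h1.2, ?_⟩
    rw [Sym2.eq_swap]; exact h2.2
  -- an edge determines the segment
  have huniq : ∀ s ∈ I, ∀ s' ∈ I, ∀ e, e ∈ segE s → e ∈ segE s' → s = s' := by
    have aux : ∀ s ∈ I1, ∀ s' ∈ I2, ∀ e, e ∈ segE s → e ∈ segE s' → False := by
      intro s hs s' hs' e he he'
      obtain ⟨e1, -, he1, rfl, -, -, -⟩ := hm1 s hs
      obtain ⟨w, -, hw, p, -, rfl, -, -, -, -, -⟩ := hm2 s' hs'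
      rw [p2a_segE1, hout, mem_singleton] at he
      rw [p2a_segE2, mem_insert, mem_singleton] at he'
      subst he
      rcases he' with he' | he' <;> rw [he', mk_mem_sym2_iff] at he1
      · exact hw he1.2
      · exact hw he1.1
    intro s hs s' hs' e he he'
    rw [hI, mem_union] at hs hs'
    rcases hs with hs | hs <;> rcases hs' with hs' | hs'
    · obtain ⟨e1, -, he1, rfl, -, -, -⟩ := hm1 s hs
      obtain ⟨e2, -, he2, rfl, -, -, -⟩ := hm1 s' hs'
      rw [p2a_segE1, hout, mem_singleton] at he he'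
      rw [← he, ← he']
    · exact (aux s hs s' hs' e he he').elim
    · exact (aux s' hs' s hs e he' he).elim
    · obtain ⟨w, -, hw, p, hp, rfl, hp1, hp2, -, -, -⟩ := hm2 s hs
      obtain ⟨w', -, hw', q, hq, rfl, hq1, hq2, -, -, -⟩ := hm2 s' hs'
      rw [p2a_segE2, mem_insert, mem_singleton] at he he'
      obtain ⟨x, hxp, hx⟩ : ∃ x, (x = p.1 ∨ x = p.2) ∧ e = s(x, w) := by
        rcases he with he | he
        · exact ⟨p.1, Or.inl rfl, he⟩
        · exact ⟨p.2, Or.inr rfl, by rw [he, Sym2.eq_swap]⟩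
      obtain ⟨y, hyq, hy⟩ : ∃ y, (y = q.1 ∨ y = q.2) ∧ e = s(y, w') := by
        rcases he' with he' | he'
        · exact ⟨q.1, Or.inl rfl, he'⟩
        · exact ⟨q.2, Or.inr rfl, by rw [he', Sym2.eq_swap]⟩
      have hxL : x ∈ L h := by rcases hxp with rfl | rfl <;> assumption
      have hyL : y ∈ L h := by rcases hyq with rfl | rfl <;> assumption
      have hxy : s(x, w) = s(y, w') := by rw [← hx, hy]
      rw [Sym2.eq_iff] at hxy
      rcases hxy with ⟨rfl, rfl⟩ | ⟨rfl, rfl⟩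
      · rw [p2a_uniq (Q w) (hQn w) p q hp hq x hxp hyq]
      · exact (hw' hxL).elim
  -- the segments are segments
  have hseg : ∀ s ∈ I, IsSeg Fc H L h s := by
    intro s hs
    rw [hI, mem_union] at hs
    rcases hs with hs | hs
    · obtain ⟨e, he, -, rfl, h1, h2, h3⟩ := hm1 s hs
      refine Or.inl ⟨(Quot.out e).2, rfl, h1, h2, h3, ?_⟩
      simpa only [hout] using he
    · obtain ⟨w, -, hw, p, -, rfl, h1, h2, h3, h4, h5⟩ := hm2 s hs
      exact Or.inr (Or.inl ⟨w, p.2, rfl, h1, h2, hw, h3, h4, h5⟩)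
  -- the edges are in Fc
  have hsub : ∀ s ∈ I, segE s ⊆ Fc := by
    intro s hs e he
    rw [hI, mem_union] at hs
    rcases hs with hs | hs
    · obtain ⟨e1, he1, -, rfl, h1, h2, h3⟩ := hm1 s hs
      rw [p2a_segE1, hout, mem_singleton] at he
      rw [he]; exact he1
    · obtain ⟨w, -, hw, p, -, rfl, h1, h2, h3, h4, h5⟩ := hm2 s hs
      rw [p2a_segE2, mem_insert, mem_singleton] at he
      rcases he with rfl | rfl <;> assumption
  -- every vertex of a segment has an edge of the segment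
  have hinc : ∀ s ∈ I, ∀ x ∈ segV s, ∃ e ∈ segE s, x ∈ e := by
    intro s hs x hx
    rw [hI, mem_union] at hs
    rcases hs with hs | hs
    · obtain ⟨e1, he1, -, rfl, h1, h2, h3⟩ := hm1 s hs
      rw [p2a_segE1]
      rw [p2a_segV1, mem_insert, mem_singleton] at hx
      refine ⟨_, mem_singleton_self _, ?_⟩
      rw [Sym2.mem_iff]; exact hx
    · obtain ⟨w, -, hw, p, -, rfl, h1, h2, h3, h4, h5⟩ := hm2 s hs
      rw [p2a_segE2]
      rw [p2a_segV2, mem_insert, mem_insert, mem_singleton] at hx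
      rcases hx with rfl | rfl | rfl
      · exact ⟨s(p.1, w), by simp, by simp⟩
      · exact ⟨s(p.1, x), by simp, by simp⟩
      · exact ⟨s(w, p.2), by simp, by simp⟩
  have hcntL : ∀ x ∈ L h, (I.filter (fun s => x ∈ segV s)).card ≤ T := by
    intro x hx
    have h1 : (I.filter (fun s => x ∈ segV s)).card ≤ dg Fc x := by
      unfold dg
      refine card_le_card_of_forall_subsingleton (fun s e => e ∈ segE s) ?_ ?_
      · intro s hs
        rw [mem_filter] at hs
        obtain ⟨e, he, hxe⟩ := hinc s hs.1 x hs.2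
        exact ⟨e, mem_filter.2 ⟨hsub s hs.1 he, hxe⟩, he⟩
      · intro e he s hs s' hs'
        simp only [Set.mem_ofPred_eq, mem_filter] at hs hs'
        exact huniq s hs.1.1 s' hs'.1.1 e hs.2 hs'.2
    have h2 : dg Fc x ≤ dg F0 x := by
      unfold dg
      exact card_le_card (filter_subset_filter _ inv.sub)
    exact h1.trans (h2.trans (cs.deg h hh x hx))
  have hcntW : ∀ w, w ∉ L h → 2 * (I.filter (fun s => w ∈ segV s)).card ≤ (L h).card := by
    intro w hw
    have h1 : (I.filter (fun s => w ∈ segV s)) ⊆ (Q w).toFinset.image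
        (fun p => ((p.1, [(none, w), (none, p.2)]) : V × Rt V)) := by
      intro s hs
      rw [mem_filter] at hs
      obtain ⟨hs, hws⟩ := hs
      rw [hI, mem_union] at hs
      rcases hs with hs | hs
      · obtain ⟨e1, he1, -, rfl, h1, h2, h3⟩ := hm1 s hs
        rw [p2a_segV1, mem_insert, mem_singleton] at hws
        rcases hws with rfl | rfl
        · exact (hw h1).elim
        · exact (hw h2).elim
      · obtain ⟨w', -, hw', p, hp, rfl, h1, h2, h3, h4, h5⟩ := hm2 s hs
        rw [p2a_segV2, mem_insert, mem_insert, mem_singleton] at hws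
        rcases hws with rfl | rfl | rfl
        · exact (hw h1).elim
        · exact mem_image.2 ⟨p, List.mem_toFinset.2 hp, rfl⟩
        · exact (hw h2).elim
    have h2 := card_le_card h1
    have h3 : ((Q w).toFinset.image (fun p => ((p.1, [(none, w), (none, p.2)]) : V × Rt V))).card ≤
        (Q w).toFinset.card := card_image_le
    have h4 := (Q w).toFinset_card_le
    have h5 : 2 * (Q w).length ≤ (L h).card :=
      p2a_len (Q w) (L h) (hQn w) (fun p hp => ⟨(mem_filter.1 (hQm w p hp).1).1,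
        (mem_filter.1 (hQm w p hp).2).1⟩)
    omega
  have hΔ : ∀ s ∈ I, (I.filter (fun s' => s' ≠ s ∧ ¬ Disjoint (segV s) (segV s'))).card ≤
      2 * T + (L h).card / 2 := by
    intro s hs
    have key : ∀ s', ¬ Disjoint (segV s) (segV s') → ∃ x, x ∈ segV s ∧ x ∈ segV s' := by
      intro s' hd
      rw [Finset.not_disjoint_iff] at hd
      exact hd
    rw [hI, mem_union] at hs
    rcases hs with hs | hs
    · obtain ⟨e1, he1, -, rfl, h1, h2, h3⟩ := hm1 s hs
      have hsubs : (I.filter (fun s' => s' ≠ ((Quot.out e1).1, [(none, (Quot.out e1).2)]) ∧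
          ¬ Disjoint (segV ((Quot.out e1).1, [(none, (Quot.out e1).2)])) (segV s'))) ⊆
          (I.filter (fun s => (Quot.out e1).1 ∈ segV s)) ∪ (I.filter (fun s => (Quot.out e1).2 ∈ segV s)) := by
        intro s' hs'
        rw [mem_filter] at hs'
        obtain ⟨x, hx, hx'⟩ := key s' hs'.2.2
        rw [p2a_segV1, mem_insert, mem_singleton] at hx
        rw [mem_union, mem_filter, mem_filter]
        rcases hx with rfl | rfl
        · exact Or.inl ⟨hs'.1, hx'⟩
        · exact Or.inr ⟨hs'.1, hx'⟩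
      calc _ ≤ _ := card_le_card hsubs
        _ ≤ _ := card_union_le _ _
        _ ≤ T + T := Nat.add_le_add (hcntL _ h1) (hcntL _ h2)
        _ ≤ _ := by omega
    · obtain ⟨w, -, hw, p, -, rfl, h1, h2, h3, h4, h5⟩ := hm2 s hs
      have hsubs : (I.filter (fun s' => s' ≠ (p.1, [(none, w), (none, p.2)]) ∧
          ¬ Disjoint (segV (p.1, [(none, w), (none, p.2)])) (segV s'))) ⊆
          ((I.filter (fun s => p.1 ∈ segV s)) ∪ (I.filter (fun s => p.2 ∈ segV s))) ∪
            (I.filter (fun s => w ∈ segV s)) := by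
        intro s' hs'
        rw [mem_filter] at hs'
        obtain ⟨x, hx, hx'⟩ := key s' hs'.2.2
        rw [p2a_segV2, mem_insert, mem_insert, mem_singleton] at hx
        rw [mem_union, mem_union, mem_filter, mem_filter, mem_filter]
        rcases hx with rfl | rfl | rfl
        · exact Or.inl (Or.inl ⟨hs'.1, hx'⟩)
        · exact Or.inr ⟨hs'.1, hx'⟩
        · exact Or.inl (Or.inr ⟨hs'.1, hx'⟩)
      have h6 : (I.filter (fun s => w ∈ segV s)).card ≤ (L h).card / 2 := by
        have := hcntW w hw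
        omega
      calc _ ≤ _ := card_le_card hsubs
        _ ≤ _ := card_union_le _ _
        _ ≤ _ := Nat.add_le_add_right (card_union_le _ _) _
        _ ≤ (T + T) + (L h).card / 2 :=
          Nat.add_le_add (Nat.add_le_add (hcntL _ h1) (hcntL _ h2)) h6
        _ = _ := by omega
  have hIcard : I.card ≤ (L h).card * T := by
    have h1 : I ⊆ (L h).biUnion (fun x => I.filter (fun s => x ∈ segV s)) := by
      intro s hs
      rw [mem_biUnion]
      have hs0 := hs
      rw [hI, mem_union] at hs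
      rcases hs with hs | hs
      · obtain ⟨e1, he1, -, rfl, h1, h2, h3⟩ := hm1 s hs
        exact ⟨_, h1, mem_filter.2 ⟨hs0, by rw [p2a_segV1]; simp⟩⟩
      · obtain ⟨w, -, hw, p, -, rfl, h1, h2, h3, h4, h5⟩ := hm2 s hs
        exact ⟨_, h1, mem_filter.2 ⟨hs0, by rw [p2a_segV2]; simp⟩⟩
    exact (card_le_card h1).trans (card_biUnion_le_card_mul _ _ _ hcntL)
  -- run
  have hM := cs.hM
  have hT := cs.hT
  have hk : k ≤ h.1.card := (cs.hub.1 h hh).2.2.1
  have hLc : (L h).card ≤ h.1.card := card_le_card (cs.sub h hh)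
  have hM23 : M ^ 2 ≤ M ^ 3 := Nat.pow_le_pow_right hM (by norm_num)
  have hM13 : 1 ≤ M ^ 3 := Nat.one_le_pow _ _ hM
  have ht : 400 * M ^ 2 * (4 * (4 * (T + 1)) + 1) ≤ k := by
    refine le_trans ?_ hT
    calc 400 * M ^ 2 * (4 * (4 * (T + 1)) + 1) ≤ 400 * M ^ 3 * (17 * (T + 1)) := by
          refine Nat.mul_le_mul (Nat.mul_le_mul_left _ hM23) (by omega)
      _ = 6800 * M ^ 3 * (T + 1) := by ring
      _ ≤ 10 ^ 6 * M ^ 3 * (T + 1) := by
          refine Nat.mul_le_mul_right _ (Nat.mul_le_mul_right _ (by norm_num))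
  have h8T : 8 * T + 8 ≤ k := by
    refine le_trans ?_ hT
    calc 8 * T + 8 = 8 * 1 * (T + 1) := by ring
      _ ≤ 10 ^ 6 * M ^ 3 * (T + 1) := by
          refine Nat.mul_le_mul_right _ (Nat.mul_le_mul (by norm_num) hM13)
  obtain ⟨X, c, hX, hc, hdec, hinv⟩ := runSegs cs inv (4 * (T + 1)) (2 * T + (L h).card / 2) (by omega) ht h hh I
    hseg (by
      intro s hs s' hs' hne
      rw [Finset.disjoint_left]
      intro e he he'
      exact hne (huniq s hs s' hs' e he he')) hΔ
  refine ⟨I.biUnion segE, X, c, ?_, hX, ?_, hdec, hinv, ?_, ?_⟩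
  · intro e he
    rw [mem_biUnion] at he
    obtain ⟨s, hs, he⟩ := he
    exact hsub s hs he
  · by_contra hcon
    push Not at hcon
    have h1 : 4 * (T + 1) * (h.1.card + 1) ≤ 4 * (T + 1) * c := Nat.mul_le_mul_left _ hcon
    have h2 : 4 * (T + 1) * (h.1.card + 1) ≤ 4 * (T + 1) * (2 * T + (L h).card / 2 + 1) + (L h).card * (T + 1) := by
      have : (L h).card * T ≤ (L h).card * (T + 1) := Nat.mul_le_mul_left _ (by omega)
      omega
    have h3 : (T + 1) * (4 * (h.1.card + 1)) ≤ (T + 1) * (4 * (2 * T + (L h).card / 2 + 1) + (L h).card) := by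
      calc (T + 1) * (4 * (h.1.card + 1)) = 4 * (T + 1) * (h.1.card + 1) := by ring
        _ ≤ _ := h2
        _ = (T + 1) * (4 * (2 * T + (L h).card / 2 + 1) + (L h).card) := by ring
    have h4 := Nat.le_of_mul_le_mul_left h3 (by omega)
    omega
  · intro v hv v' hv' hmem
    rw [mem_sdiff] at hmem
    refine hmem.2 ?_
    rw [mem_biUnion]
    refine ⟨((Quot.out s(v, v')).1, [(none, (Quot.out s(v, v')).2)]), ?_, ?_⟩
    · rw [hI, mem_union, hI1, mem_image]
      refine Or.inl ⟨s(v, v'), ?_, rfl⟩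
      rw [mem_inter, mk_mem_sym2_iff]
      exact ⟨hmem.1, hv, hv'⟩
    · rw [p2a_segE1, hout]; exact mem_singleton_self _
  · intro w hw
    refine le_trans (card_le_card ?_) (hQc w)
    intro v hv
    rw [mem_filter, mem_sdiff] at hv
    obtain ⟨hvL, hvF, hvK⟩ := hv
    rw [mem_filter]
    refine ⟨mem_filter.2 ⟨hvL, hvF⟩, ?_⟩
    intro hvQ
    apply hvK
    rw [List.mem_flatMap] at hvQ
    obtain ⟨p, hp, hvp⟩ := hvQ
    have hwS : w ∈ S := by
      have := cs.supp.1 (inv.sub hvF)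
      rw [mk_mem_sym2_iff] at this
      exact this.2
    rw [mem_biUnion]
    refine ⟨(p.1, [(none, w), (none, p.2)]), ?_, ?_⟩
    · rw [hI, mem_union, hI2, mem_biUnion]
      refine Or.inr ⟨w, mem_sdiff.2 ⟨hwS, hw⟩, mem_image.2 ⟨p, List.mem_toFinset.2 hp, rfl⟩⟩
    · rw [p2a_segE2, mem_insert, mem_singleton]
      simp only [List.mem_cons, List.not_mem_nil, or_false] at hvp
      rcases hvp with rfl | rfl
      · exact Or.inl rfl
      · exact Or.inr Sym2.eq_swap

end Crest.Agent.EG
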