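import Crest.Agent.EG.Sep

set_option autoImplicit false

namespace Crest.Agent.EG
open Finset

variable {V : Type} [DecidableEq V]

private theorem pieces_mem_hubE (L : List (Hub V)) (P : Hub V) (hP : P ∈ L) : P.2 ⊆ hubE L := by
  induction L with
  | nil => simp at hP
  | cons h L ih =>
    rw [List.mem_cons] at hP
    have e : hubE (h :: L) = h.2 ∪ hubE L := rfl
    rw [e]
    rcases hP with hP | hP
    · subst hP; exact Finset.subset_union_left
    · exact (ih hP).trans Finset.subset_union_right

private theorem pieces_aux (l : ℕ) (hl : 3 ≤ l) (n : ℕ) : ∀ (E : Finset (Sym2 V)) (S : Finset V),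
    S.card ≤ n → Supp E S → (∀ C : Finset (Sym2 V), C ⊆ E → IsCyc C → C.card < l) →
    ∃ L : List (Hub V), (∀ P ∈ L, Supp P.2 P.1 ∧ P.1 ⊆ S ∧ P.1.card ≤ 3 * l) ∧
      L.Pairwise (fun P P' => Disjoint P.2 P'.2) ∧ hubE L = E ∧
      (L.map (fun P => P.1.card)).sum ≤ S.card + l * (S.card / l) := by
  induction n with
  | zero =>
    intro E S hn hS _
    refine ⟨[(S, E)], ?_, List.pairwise_singleton _ _, ?_, ?_⟩
    · intro P hP
      rw [List.mem_singleton] at hP
      subst hP
      exact ⟨hS, Finset.Subset.refl _, by show S.card ≤ 3 * l; omega⟩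
    · show E ∪ ∅ = E
      exact Finset.union_empty E
    · simp
  | succ n ih =>
    intro E S hn hS hno
    by_cases hlS : l ≤ S.card
    · obtain ⟨Q, hQS, hQl, hQ2, hN⟩ := sepQ E S hS l hl hno hlS
      set N := (S \ Q).filter (fun v => ∃ u ∈ Q, s(u, v) ∈ E) with hNdef
      set EQ := E.filter (fun e => ∃ u ∈ Q, u ∈ e) with hEQ
      have hcard : (S \ Q).card = S.card - Q.card := Finset.card_sdiff_of_subset hQS
      have hQle : Q.card ≤ S.card := Finset.card_le_card hQS
      have hSupp' : Supp (E \ EQ) (S \ Q) := by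
        refine ⟨?_, fun e he => hS.2 e (Finset.mem_sdiff.mp he).1⟩
        intro e he
        rw [Finset.mem_sdiff] at he
        obtain ⟨heE, heQ⟩ := he
        have h1 := hS.1 heE
        rw [hEQ, Finset.mem_filter] at heQ
        push Not at heQ
        have h2 := heQ heE
        rw [Finset.mem_sym2_iff] at h1 ⊢
        intro a ha
        rw [Finset.mem_sdiff]
        exact ⟨h1 a ha, fun haQ => h2 a haQ ha⟩
      obtain ⟨L, hL1, hL2, hL3, hL4⟩ := ih (E \ EQ) (S \ Q) (by omega) hSupp'
        (fun C hC hcyc => hno C (hC.trans Finset.sdiff_subset) hcyc)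
      refine ⟨(Q ∪ N, EQ) :: L, ?_, ?_, ?_, ?_⟩
      · intro P hP
        rw [List.mem_cons] at hP
        rcases hP with hP | hP
        · subst hP
          refine ⟨⟨?_, ?_⟩, ?_, ?_⟩
          · intro e he
            have he' := he
            simp only [hEQ, Finset.mem_filter] at he'
            obtain ⟨heE, u, huQ, hue⟩ := he'
            have h1 := hS.1 heE
            rw [Finset.mem_sym2_iff] at h1 ⊢
            intro a ha
            show a ∈ Q ∪ N
            rw [Finset.mem_union]
            by_cases haQ : a ∈ Q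
            · exact Or.inl haQ
            · right
              rw [hNdef, Finset.mem_filter, Finset.mem_sdiff]
              refine ⟨⟨h1 a ha, haQ⟩, u, huQ, ?_⟩
              have hne : u ≠ a := fun h => haQ (h ▸ huQ)
              have : e = s(u, a) := ((Sym2.mem_and_mem_iff hne).mp ⟨hue, ha⟩)
              rw [← this]; exact heE
          · intro e he
            have he' := he
            simp only [hEQ, Finset.mem_filter] at he'
            exact hS.2 e he'.1
          · show Q ∪ N ⊆ S
            refine Finset.union_subset hQS ?_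
            intro v hv
            rw [hNdef, Finset.mem_filter, Finset.mem_sdiff] at hv
            exact hv.1.1
          · show (Q ∪ N).card ≤ 3 * l
            have := Finset.card_union_le Q N
            omega
        · obtain ⟨a1, a2, a3⟩ := hL1 P hP
          exact ⟨a1, a2.trans Finset.sdiff_subset, a3⟩
      · rw [List.pairwise_cons]
        refine ⟨?_, hL2⟩
        intro P hP
        have h1 := pieces_mem_hubE L P hP
        rw [hL3] at h1
        show Disjoint EQ P.2
        rw [Finset.disjoint_left]
        intro e he he'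
        exact (Finset.mem_sdiff.mp (h1 he')).2 he
      · have e : hubE ((Q ∪ N, EQ) :: L) = EQ ∪ hubE L := rfl
        rw [e, hL3]
        exact Finset.union_sdiff_of_subset (Finset.filter_subset _ _)
      · rw [List.map_cons, List.sum_cons]
        have h1 := Finset.card_union_le Q N
        have h2 : (S \ Q).card / l + 1 ≤ S.card / l := by
          rw [← Nat.add_div_right _ (by omega : 0 < l)]
          exact Nat.div_le_div_right (by omega)
        have h3 : l * ((S \ Q).card / l) + l ≤ l * (S.card / l) := by
          calc l * ((S \ Q).card / l) + l = l * ((S \ Q).card / l + 1) := by ring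
            _ ≤ l * (S.card / l) := Nat.mul_le_mul_left _ h2
        show (Q ∪ N).card + (L.map (fun P => P.1.card)).sum ≤ S.card + l * (S.card / l)
        omega
    · refine ⟨[(S, E)], ?_, List.pairwise_singleton _ _, ?_, ?_⟩
      · intro P hP
        rw [List.mem_singleton] at hP
        subst hP
        exact ⟨hS, Finset.Subset.refl _, by show S.card ≤ 3 * l; omega⟩
      · show E ∪ ∅ = E
        exact Finset.union_empty E
      · simp

/-- (E2) PIECES.  PROOF from `sepQ`.  Strong induction on `|S|`; stronger claim: the sum of sizes is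
`≤ |S| + l * (|S| / l)` (natural division), which is `≤ 2|S|`.
If `|S| < l`: `L = [(S, E)]` if... (also fine for `S = ∅`, `E = ∅`, take `[]` or `[(S,E)]`); sum `= |S|`.
Otherwise take `Q` from `sepQ`, `N = (S \ Q).filter (neighbour of Q)`, `|N| ≤ l`,
`E_Q = E.filter (fun e => ∃ u ∈ Q, u ∈ e)`; piece `(Q ∪ N, E_Q)`: `|Q ∪ N| ≤ 3 l`, `Supp`; the other edges
`E \ E_Q` are supported in `S \ Q`, still without long cycles; apply induction to `S \ Q`
(`|S \ Q| ≤ |S| - l`): sum `≤ (|Q| + l) + |S \ Q| + l * (|S \ Q| / l) ≤ |S| + l + l * ((|S| - l)/l) = |S| + l*(|S|/l)`.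
`hubE` of a list is the union of the second components. -/
theorem pieces (E : Finset (Sym2 V)) (S : Finset V) (hS : Supp E S) (l : ℕ) (hl : 3 ≤ l)
    (hno : ∀ C : Finset (Sym2 V), C ⊆ E → IsCyc C → C.card < l) :
    ∃ L : List (Hub V), (∀ P ∈ L, Supp P.2 P.1 ∧ P.1 ⊆ S ∧ P.1.card ≤ 3 * l) ∧
      L.Pairwise (fun P P' => Disjoint P.2 P'.2) ∧ hubE L = E ∧
      (L.map (fun P => P.1.card)).sum ≤ 2 * S.card := by
  obtain ⟨L, h1, h2, h3, h4⟩ := pieces_aux l hl S.card E S le_rfl hS hno
  refine ⟨L, h1, h2, h3, h4.trans ?_⟩
  have := Nat.mul_div_le S.card l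
  omega

end Crest.Agent.EG
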