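import Crest.Agent.EG.PPDDefs

set_option autoImplicit false
set_option linter.unusedSectionVars false

namespace Crest.Agent.EG
open Finset

variable {V : Type} [DecidableEq V]

/-- (A0) CHAIN LEMMA.  A finite list of arcs `y → w` with distinct tails and distinct heads, `x` not a head.
PROOF.  Induction on the length of `L`: if `x` is no tail take `F = []`, `w = x`.  Otherwise `(x, w1) ∈ L`; remove this arc
and apply induction with `x' = w1` (`w1` is not a head of the remaining arcs): get `F'`, `w`; take `F = (x,w1) :: F'`.
`w` is no tail of the remaining arcs, and `w ≠ x` since `w` is a head and `x` is not. -/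
theorem chain (L : List (V × V)) (hy : (L.map Prod.fst).Nodup) (hw : (L.map Prod.snd).Nodup)
    (x : V) (hx : x ∉ L.map Prod.snd) :
    ∃ (F : List (V × V)) (w : V), (∀ a ∈ F, a ∈ L) ∧ F.Nodup ∧ w ∉ L.map Prod.fst ∧
      (x :: F.map Prod.snd).Nodup ∧ (w :: F.map Prod.fst).Nodup ∧
      (x :: F.map Prod.snd).Perm (w :: F.map Prod.fst) := by
  induction hn : L.length using Nat.strong_induction_on generalizing L x with
  | _ n ih =>
    by_cases hxt : x ∈ L.map Prod.fst
    · obtain ⟨⟨x', w1⟩, ha, hax⟩ := List.mem_map.mp hxt
      simp only at hax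
      subst hax
      have hperm : L.Perm ((x', w1) :: L.erase (x', w1)) := List.perm_cons_erase ha
      set L' := L.erase (x', w1) with hL'
      have hlen : L'.length < n := by
        have := hperm.length_eq
        simp only [List.length_cons] at this
        omega
      have hy' : (x' :: L'.map Prod.fst).Nodup := by
        have := (hperm.map Prod.fst).nodup_iff.mp hy
        simpa using this
      have hw' : (w1 :: L'.map Prod.snd).Nodup := by
        have := (hperm.map Prod.snd).nodup_iff.mp hw
        simpa using this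
      obtain ⟨F', w, h1, h2, h3, h4, h5, h6⟩ := ih L'.length hlen L' (List.nodup_cons.mp hy').2
        (List.nodup_cons.mp hw').2 w1 (List.nodup_cons.mp hw').1 rfl
      have hsub : ∀ a ∈ L', a ∈ L := fun a ha' => List.mem_of_mem_erase ha'
      have hw1L : w1 ∈ L.map Prod.snd := List.mem_map.mpr ⟨_, ha, rfl⟩
      have hFs : ∀ z ∈ w1 :: F'.map Prod.snd, z ∈ L.map Prod.snd := by
        intro z hz
        rcases List.mem_cons.mp hz with rfl | hz
        · exact hw1L
        · obtain ⟨a, ha1, ha2⟩ := List.mem_map.mp hz
          exact List.mem_map.mpr ⟨a, hsub a (h1 a ha1), ha2⟩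
      have hxF : x' ∉ w1 :: F'.map Prod.snd := fun h => hx (hFs _ h)
      have hwF : w ∈ w1 :: F'.map Prod.snd := h6.mem_iff.mpr (List.mem_cons_self)
      have hwx : w ≠ x' := by
        rintro rfl
        exact hxF hwF
      have hxF1 : x' ∉ F'.map Prod.fst := by
        intro h
        obtain ⟨a, ha1, ha2⟩ := List.mem_map.mp h
        exact (List.nodup_cons.mp hy').1 (List.mem_map.mpr ⟨a, h1 a ha1, ha2⟩)
      refine ⟨(x', w1) :: F', w, ?_, ?_, ?_, ?_, ?_, ?_⟩
      · intro a ha'
        rcases List.mem_cons.mp ha' with rfl | ha'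
        · exact ha
        · exact hsub a (h1 a ha')
      · refine List.nodup_cons.mpr ⟨fun h => hxF1 (List.mem_map.mpr ⟨_, h, rfl⟩), h2⟩
      · intro h
        have h7 := (hperm.map Prod.fst).mem_iff.mp h
        simp only [List.map_cons, List.mem_cons] at h7
        rcases h7 with h7 | h7
        · exact hwx h7
        · exact h3 h7
      · simp only [List.map_cons]
        exact List.nodup_cons.mpr ⟨hxF, h4⟩
      · simp only [List.map_cons]
        obtain ⟨h8, h9⟩ := List.nodup_cons.mp h5
        refine List.nodup_cons.mpr ⟨?_, List.nodup_cons.mpr ⟨hxF1, h9⟩⟩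
        intro h
        rcases List.mem_cons.mp h with h | h
        · exact hwx h
        · exact h8 h
      · simp only [List.map_cons]
        exact (h6.cons x').trans (List.Perm.swap _ _ _)
    · exact ⟨[], x, by simp, by simp, hxt, by simp, by simp, by simp⟩

private theorem rr_pE_append : ∀ (l m : List V) (hl : l ≠ []) (hm : m ≠ []),
    pE (l ++ m) = pE l ++ s(l.getLast hl, m.head hm) :: pE m
  | [a], b :: m, _, _ => by simp [pE]
  | a :: b :: l, m, _, hm => by
    have h := rr_pE_append (b :: l) m (by simp) hm
    have e : a :: b :: l ++ m = a :: b :: (l ++ m) := rfl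
    rw [e]
    simp only [pE]
    rw [List.cons_append] at h
    rw [h]
    simp

private theorem rr_pE_reverse : ∀ l : List V, (pE l.reverse).Perm (pE l)
  | [] => by simp [pE]
  | [a] => by simp [pE]
  | a :: b :: l => by
    have ih := rr_pE_reverse (b :: l)
    rw [List.reverse_cons, rr_pE_append (b :: l).reverse [a] (by simp) (by simp)]
    have h1 : (b :: l).reverse.getLast (by simp) = b := by simp
    rw [h1]
    simp only [pE, List.head_cons]
    rw [Sym2.eq_swap]
    exact (List.perm_append_singleton _ _).trans (ih.cons _)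

private theorem rr_pE_nodup : ∀ l : List V, l.Nodup → (pE l).Nodup := by
  have hmem : ∀ (L : List V) (e : Sym2 V), e ∈ pE L → ∀ v ∈ e, v ∈ L := by
    intro L
    induction L with
    | nil => intro e he; simp [pE] at he
    | cons a l ih =>
      cases l with
      | nil => intro e he; simp [pE] at he
      | cons b l =>
        intro e he v hv
        simp only [pE, List.mem_cons] at he
        rcases he with rfl | he
        · rcases Sym2.mem_iff.mp hv with rfl | rfl <;> simp
        · exact List.mem_cons_of_mem _ (ih e he v hv)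
  intro l
  induction l with
  | nil => intro _; simp [pE]
  | cons a l ih =>
    cases l with
    | nil => intro _; simp [pE]
    | cons b l =>
      intro h
      obtain ⟨h1, h2⟩ := List.nodup_cons.mp h
      simp only [pE]
      refine List.nodup_cons.mpr ⟨fun h3 => ?_, ih h2⟩
      exact h1 (hmem _ _ h3 a (by simp))

/-- arc of a side (outer end, inner end) -/
private def rrArc (u : V) (S : List V) : V × V := (S.getLastD u, S.headD u)

/-- new side -/
private def rrT (u : V) (F : List (V × V)) (S : List V) : List V :=
  if rrArc u S ∈ F then S.reverse else S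

private theorem rrT_perm (u : V) (F : List (V × V)) (S : List V) : (rrT u F S).Perm S := by
  unfold rrT
  split_ifs
  · exact List.reverse_perm S
  · exact List.Perm.refl _

private theorem rrT_ne {u : V} {F : List (V × V)} {S : List V} (h : S ≠ []) : rrT u F S ≠ [] := by
  intro h0
  have := rrT_perm u F S
  rw [h0] at this
  exact h (List.nil_perm.mp this)

private theorem rr_headD_reverse (u : V) (S : List V) : S.reverse.headD u = S.getLastD u := by
  rw [List.headD_eq_head?_getD, List.head?_reverse, List.getLastD_eq_getLast?]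

private theorem rr_getLastD_reverse (u : V) (S : List V) : S.reverse.getLastD u = S.headD u := by
  rw [List.headD_eq_head?_getD, List.getLastD_eq_getLast?, List.getLast?_reverse]

private theorem rr_side_edge (u : V) (F : List (V × V)) (S : List V) :
    ({s(u, (rrT u F S).headD u)} : Multiset (Sym2 V)) +
      (if rrArc u S ∈ F then {s(u, (rrArc u S).2)} else 0) =
    {s(u, S.headD u)} + (if rrArc u S ∈ F then {s(u, (rrArc u S).1)} else 0) := by
  unfold rrT
  split_ifs with h
  · rw [rr_headD_reverse]
    simp only [rrArc]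
    rw [add_comm]
  · rfl

private theorem rr_side_end (u : V) (F : List (V × V)) (S : List V) :
    ({(rrT u F S).getLastD u} : Multiset V) +
      (if rrArc u S ∈ F then {(rrArc u S).1} else 0) =
    {S.getLastD u} + (if rrArc u S ∈ F then {(rrArc u S).2} else 0) := by
  unfold rrT
  split_ifs with h
  · rw [rr_getLastD_reverse]
    simp only [rrArc]
    rw [add_comm]
  · rfl

private theorem rr_path_edge (u : V) {S1 S2 : List V} (h1 : S1 ≠ []) (h2 : S2 ≠ []) :
    (↑(pE (S1.reverse ++ u :: S2)) : Multiset (Sym2 V)) =
      ↑(pE S1) + ↑(pE S2) + ({s(u, S1.headD u)} + {s(u, S2.headD u)}) := by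
  obtain ⟨a, t, rfl⟩ := List.exists_cons_of_ne_nil h1
  obtain ⟨b, r, rfl⟩ := List.exists_cons_of_ne_nil h2
  rw [rr_pE_append (a :: t).reverse (u :: b :: r) (by simp) (by simp)]
  have e1 : (a :: t).reverse.getLast (by simp) = a := by simp
  rw [e1]
  have h3 : (↑(pE (a :: t).reverse) : Multiset (Sym2 V)) = ↑(pE (a :: t)) :=
    Multiset.coe_eq_coe.mpr (rr_pE_reverse _)
  simp only [List.head_cons, List.headD_cons]
  rw [← Multiset.coe_add, h3, ← Multiset.cons_coe]
  have e2 : pE (u :: b :: r) = s(u, b) :: pE (b :: r) := rfl
  rw [e2, ← Multiset.cons_coe, ← Multiset.singleton_add, ← Multiset.singleton_add, Sym2.eq_swap (a := a)]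
  abel

/-- the two ends of a path -/
private def rrEnds (p : List V) : Multiset V := ↑(p.head?.toList) + ↑(p.getLast?.toList)

private theorem rr_path_end (u : V) {S1 S2 : List V} (h1 : S1 ≠ []) (h2 : S2 ≠ []) :
    rrEnds (S1.reverse ++ u :: S2) = {S1.getLastD u} + {S2.getLastD u} := by
  unfold rrEnds
  obtain ⟨a, t, rfl⟩ := List.exists_cons_of_ne_nil h1
  obtain ⟨b, r, rfl⟩ := List.exists_cons_of_ne_nil h2
  have e1 : ((a :: t).reverse ++ u :: b :: r).head? = some ((a :: t).getLastD u) := by
    rw [List.head?_append_of_ne_nil _ (by simp), List.head?_reverse]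
    rw [List.getLastD_eq_getLast?]
    simp [List.getLast?_cons]
  have e2 : ((a :: t).reverse ++ u :: b :: r).getLast? = some ((b :: r).getLastD u) := by
    rw [List.getLast?_append_of_ne_nil _ (by simp), List.getLastD_eq_getLast?]
    simp [List.getLast?_cons]
  rw [e1, e2]
  rfl

private noncomputable def rrS1 (u : V) (p : List V) : List V :=
  if h : u ∈ p then (List.append_of_mem h).choose.reverse else []

private noncomputable def rrS2 (u : V) (p : List V) : List V :=
  if h : u ∈ p then (List.append_of_mem h).choose_spec.choose else []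

private theorem rr_split {u : V} {p : List V} (h : u ∈ p) :
    p = (rrS1 u p).reverse ++ u :: rrS2 u p := by
  unfold rrS1 rrS2
  rw [dif_pos h, dif_pos h, List.reverse_reverse]
  exact (List.append_of_mem h).choose_spec.choose_spec

private noncomputable def rrArcs (u : V) (p : List V) : List (V × V) :=
  if u ∈ p then [rrArc u (rrS1 u p), rrArc u (rrS2 u p)] else []

private noncomputable def rrN (u w : V) (F : List (V × V)) (p : List V) : List V :=
  if u ∈ p then (rrT u F (rrS1 u p)).reverse ++ u :: rrT u F (rrS2 u p)
  else if p.head? = some w then u :: p else if p.getLast? = some w then p ++ [u] else p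

/-- the path whose end `w` is extended -/
private def rrW (u w : V) (p : List V) : Prop := u ∉ p ∧ (p.head? = some w ∨ p.getLast? = some w)

private instance (u w : V) (p : List V) : Decidable (rrW u w p) := by unfold rrW; infer_instance

private theorem rr_filter_sum {α : Type*} [DecidableEq α] (F : List (V × V)) (a b : V × V)
    (f : V × V → α) :
    (↑(([a, b].filter (fun c => decide (c ∈ F))).map f) : Multiset α) =
      (if a ∈ F then {f a} else 0) + (if b ∈ F then {f b} else 0) := by
  by_cases ha : a ∈ F <;> by_cases hb : b ∈ F <;> simp [ha, hb] <;> rfl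

private theorem rr_edge {u w : V} {F : List (V × V)} {p : List V} (hl : 2 ≤ p.length)
    (h1 : p.head? ≠ some u) (h2 : p.getLast? ≠ some u) :
    (↑(pE (rrN u w F p)) : Multiset (Sym2 V)) +
        ↑(((rrArcs u p).filter (fun c => decide (c ∈ F))).map (fun a => s(u, a.2))) =
      ↑(pE p) + ↑(((rrArcs u p).filter (fun c => decide (c ∈ F))).map (fun a => s(u, a.1))) +
        (if rrW u w p then {s(u, w)} else 0) := by
  by_cases hu : u ∈ p
  · have hs := rr_split hu
    have hS1 : rrS1 u p ≠ [] := by
      intro h0
      rw [h0] at hs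
      apply h1
      rw [hs]
      simp
    have hS2 : rrS2 u p ≠ [] := by
      intro h0
      rw [h0] at hs
      apply h2
      rw [hs]
      simp
    have hW : ¬ rrW u w p := fun h => h.1 hu
    rw [if_neg hW, add_zero]
    have e1 : rrN u w F p = (rrT u F (rrS1 u p)).reverse ++ u :: rrT u F (rrS2 u p) := if_pos hu
    have e2 : rrArcs u p = [rrArc u (rrS1 u p), rrArc u (rrS2 u p)] := if_pos hu
    have e3 : (↑(pE p) : Multiset (Sym2 V)) = ↑(pE (rrS1 u p)) + ↑(pE (rrS2 u p)) +
        ({s(u, (rrS1 u p).headD u)} + {s(u, (rrS2 u p).headD u)}) := by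
      rw [← rr_path_edge u hS1 hS2, ← hs]
    rw [e1, e2, e3, rr_path_edge u (rrT_ne hS1) (rrT_ne hS2), rr_filter_sum, rr_filter_sum]
    have hp : ∀ S : List V, (↑(pE (rrT u F S)) : Multiset (Sym2 V)) = ↑(pE S) := by
      intro S
      unfold rrT
      split_ifs
      · exact Multiset.coe_eq_coe.mpr (rr_pE_reverse S)
      · rfl
    rw [hp, hp]
    have k1 := rr_side_edge u F (rrS1 u p)
    have k2 := rr_side_edge u F (rrS2 u p)
    calc _ = ↑(pE (rrS1 u p)) + ↑(pE (rrS2 u p)) +
          (({s(u, (rrT u F (rrS1 u p)).headD u)} : Multiset (Sym2 V)) +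
            (if rrArc u (rrS1 u p) ∈ F then {s(u, (rrArc u (rrS1 u p)).2)} else 0)) +
          (({s(u, (rrT u F (rrS2 u p)).headD u)} : Multiset (Sym2 V)) +
            (if rrArc u (rrS2 u p) ∈ F then {s(u, (rrArc u (rrS2 u p)).2)} else 0)) := by abel
      _ = _ := by rw [k1, k2]; abel
  · have e2 : rrArcs u p = [] := if_neg hu
    rw [e2]
    simp only [List.filter_nil, List.map_nil, Multiset.coe_nil, add_zero]
    obtain ⟨a, t, rfl⟩ := List.exists_cons_of_ne_nil (l := p) (by rintro rfl; simp at hl)
    by_cases hh : (a :: t).head? = some w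
    · have hW : rrW u w (a :: t) := ⟨hu, Or.inl hh⟩
      rw [if_pos hW]
      have e1 : rrN u w F (a :: t) = u :: a :: t := by
        unfold rrN; rw [if_neg hu, if_pos hh]
      have hwa : a = w := by simpa using hh
      rw [e1, hwa]
      have e3 : pE (u :: w :: t) = s(u, w) :: pE (w :: t) := rfl
      rw [e3, ← Multiset.cons_coe, ← Multiset.singleton_add, add_comm]
    · by_cases hh' : (a :: t).getLast? = some w
      · have hW : rrW u w (a :: t) := ⟨hu, Or.inr hh'⟩
        rw [if_pos hW]
        have e1 : rrN u w F (a :: t) = (a :: t) ++ [u] := by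
          unfold rrN; rw [if_neg hu, if_neg hh, if_pos hh']
        have hl' : (a :: t).getLast (by simp) = w := by
          rw [List.getLast?_eq_some_getLast (by simp)] at hh'
          exact Option.some_injective _ hh'
        rw [e1, rr_pE_append (a :: t) [u] (by simp) (by simp), hl']
        simp only [List.head_cons, pE]
        rw [← Multiset.coe_add, Sym2.eq_swap]
        rfl
      · have hW : ¬ rrW u w (a :: t) := by
          rintro ⟨-, h | h⟩
          · exact hh h
          · exact hh' h
        rw [if_neg hW, add_zero]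
        have e1 : rrN u w F (a :: t) = a :: t := by
          unfold rrN; rw [if_neg hu, if_neg hh, if_neg hh']
        rw [e1]

private theorem rr_end {u w : V} {F : List (V × V)} {p : List V} (hl : 2 ≤ p.length)
    (h1 : p.head? ≠ some u) (h2 : p.getLast? ≠ some u) :
    rrEnds (rrN u w F p) +
        ↑(((rrArcs u p).filter (fun c => decide (c ∈ F))).map Prod.fst) +
        (if rrW u w p then {w} else 0) =
      rrEnds p + ↑(((rrArcs u p).filter (fun c => decide (c ∈ F))).map Prod.snd) +
        (if rrW u w p then {u} else 0) := by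
  by_cases hu : u ∈ p
  · have hs := rr_split hu
    have hS1 : rrS1 u p ≠ [] := by
      intro h0
      rw [h0] at hs
      apply h1
      rw [hs]
      simp
    have hS2 : rrS2 u p ≠ [] := by
      intro h0
      rw [h0] at hs
      apply h2
      rw [hs]
      simp
    have hW : ¬ rrW u w p := fun h => h.1 hu
    rw [if_neg hW, if_neg hW, add_zero, add_zero]
    have e1 : rrN u w F p = (rrT u F (rrS1 u p)).reverse ++ u :: rrT u F (rrS2 u p) := if_pos hu
    have e2 : rrArcs u p = [rrArc u (rrS1 u p), rrArc u (rrS2 u p)] := if_pos hu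
    have e3 : rrEnds p = {(rrS1 u p).getLastD u} + {(rrS2 u p).getLastD u} := by
      rw [← rr_path_end u hS1 hS2, ← hs]
    rw [e1, e2, e3, rr_path_end u (rrT_ne hS1) (rrT_ne hS2), rr_filter_sum, rr_filter_sum]
    have k1 := rr_side_end u F (rrS1 u p)
    have k2 := rr_side_end u F (rrS2 u p)
    calc _ = (({(rrT u F (rrS1 u p)).getLastD u} : Multiset V) +
            (if rrArc u (rrS1 u p) ∈ F then {(rrArc u (rrS1 u p)).1} else 0)) +
          (({(rrT u F (rrS2 u p)).getLastD u} : Multiset V) +
            (if rrArc u (rrS2 u p) ∈ F then {(rrArc u (rrS2 u p)).1} else 0)) := by abel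
      _ = _ := by rw [k1, k2]; abel
  · have e2 : rrArcs u p = [] := if_neg hu
    rw [e2]
    simp only [List.filter_nil, List.map_nil, Multiset.coe_nil, add_zero]
    obtain ⟨a, t, rfl⟩ := List.exists_cons_of_ne_nil (l := p) (by rintro rfl; simp at hl)
    by_cases hh : (a :: t).head? = some w
    · have hW : rrW u w (a :: t) := ⟨hu, Or.inl hh⟩
      rw [if_pos hW, if_pos hW]
      have e1 : rrN u w F (a :: t) = u :: a :: t := by
        unfold rrN; rw [if_neg hu, if_pos hh]
      have hwa : a = w := by simpa using hh
      rw [e1, hwa]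
      unfold rrEnds
      have e3 : (u :: w :: t).getLast? = (w :: t).getLast? := by simp [List.getLast?_cons]
      rw [e3]
      simp only [List.head?_cons, Option.toList_some, Multiset.coe_singleton]
      abel
    · by_cases hh' : (a :: t).getLast? = some w
      · have hW : rrW u w (a :: t) := ⟨hu, Or.inr hh'⟩
        rw [if_pos hW, if_pos hW]
        have e1 : rrN u w F (a :: t) = (a :: t) ++ [u] := by
          unfold rrN; rw [if_neg hu, if_neg hh, if_pos hh']
        rw [e1]
        unfold rrEnds
        rw [hh', List.getLast?_append_of_ne_nil _ (by simp), List.head?_append_of_ne_nil _ (by simp)]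
        simp only [List.getLast?_singleton, Option.toList_some, Multiset.coe_singleton]
        abel
      · have hW : ¬ rrW u w (a :: t) := by
          rintro ⟨-, h | h⟩
          · exact hh h
          · exact hh' h
        rw [if_neg hW, if_neg hW, add_zero, add_zero]
        have e1 : rrN u w F (a :: t) = a :: t := by
          unfold rrN; rw [if_neg hu, if_neg hh, if_neg hh']
        rw [e1]

private theorem rr_sum_flat {α β : Type*} (f : β → List α) (Ps : List β) :
    (Ps.map (fun p => (↑(f p) : Multiset α))).sum = ↑(Ps.flatMap f) := by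
  induction Ps with
  | nil => simp
  | cons p Ps ih => simp [ih, ← Multiset.coe_add]

private theorem rr_flat (Ps : List (List V)) (E : Finset (Sym2 V)) (hnd : ∀ p ∈ Ps, p.Nodup) :
    (Ps.Pairwise (fun p p' => ∀ e ∈ pE p, e ∉ pE p') ∧ ∀ e, e ∈ E ↔ ∃ p ∈ Ps, e ∈ pE p) ↔
      (Ps.map (fun p => (↑(pE p) : Multiset (Sym2 V)))).sum = E.val := by
  rw [rr_sum_flat]
  constructor
  · rintro ⟨h1, h2⟩
    have h3 : (Ps.flatMap pE).Nodup := by
      rw [List.nodup_flatMap]
      exact ⟨fun p hp => rr_pE_nodup p (hnd p hp), h1.imp fun h e h1 h2 => h e h1 h2⟩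
    rw [Multiset.Nodup.ext (Multiset.coe_nodup.mpr h3) E.nodup]
    intro e
    rw [Multiset.mem_coe, List.mem_flatMap, Finset.mem_val, h2]
  · intro h
    have h3 : (Ps.flatMap pE).Nodup := by
      rw [← Multiset.coe_nodup, h]
      exact E.nodup
    refine ⟨?_, ?_⟩
    · exact (List.nodup_flatMap.mp h3).2.imp fun h e h1 h2 => h h1 h2
    · intro e
      rw [← Finset.mem_val, ← h, Multiset.mem_coe, List.mem_flatMap]

private theorem rr_count_ends (Ps : List (List V)) (v : V) :
    Multiset.count v (Ps.map rrEnds).sum = nEnd Ps v := by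
  induction Ps with
  | nil => simp [nEnd]
  | cons p Ps ih =>
    have h1 : Multiset.count v (rrEnds p) =
        (if p.head? = some v then 1 else 0) + (if p.getLast? = some v then 1 else 0) := by
      unfold rrEnds
      rw [Multiset.count_add]
      congr 1
      · cases h : p.head? with
        | none => simp
        | some a =>
          by_cases ha : a = v
          · simp [ha]
          · have hav : v ≠ a := fun h => ha h.symm
            simp [ha, hav]
      · cases h : p.getLast? with
        | none => simp
        | some a =>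
          by_cases ha : a = v
          · simp [ha]
          · have hav : v ≠ a := fun h => ha h.symm
            simp [ha, hav]
    rw [List.map_cons, List.sum_cons, Multiset.count_add, ih, h1]
    unfold nEnd
    rw [List.countP_cons, List.countP_cons]
    by_cases h2 : p.head? = some v <;> by_cases h3 : p.getLast? = some v <;> simp [h2, h3] <;> omega

private theorem rr_wt {α β : Type*} (c : β → Prop) [DecidablePred c] (z : α) (Ps : List β) :
    (Ps.map (fun p => if c p then ({z} : Multiset α) else 0)).sum =
      Multiset.replicate (Ps.countP (fun p => decide (c p))) z := by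
  induction Ps with
  | nil => simp
  | cons p Ps ih =>
    rw [List.map_cons, List.sum_cons, ih, List.countP_cons]
    by_cases h : c p
    · simp [h, Multiset.replicate_succ]
    · simp [h]

private theorem rr_countP {β : Type*} (a b c : β → Prop) [DecidablePred a] [DecidablePred b]
    [DecidablePred c] (Ps : List β)
    (h : ∀ p ∈ Ps, (c p ↔ (a p ∨ b p)) ∧ ¬ (a p ∧ b p)) :
    Ps.countP (fun p => decide (c p)) =
      Ps.countP (fun p => decide (a p)) + Ps.countP (fun p => decide (b p)) := by
  induction Ps with
  | nil => simp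
  | cons p Ps ih =>
    have ih' := ih fun q hq => h q (List.mem_cons_of_mem _ hq)
    have hp := h p List.mem_cons_self
    rw [List.countP_cons, List.countP_cons, List.countP_cons, ih']
    by_cases ha : a p <;> by_cases hb : b p
    · exact absurd ⟨ha, hb⟩ hp.2
    · have hc : c p := hp.1.mpr (Or.inl ha)
      simp only [ha, hb, hc, decide_true, decide_false]
      simp
      omega
    · have hc : c p := hp.1.mpr (Or.inr hb)
      simp only [ha, hb, hc, decide_true, decide_false]
      simp
      omega
    · have hc : ¬ c p := fun h => by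
        rcases hp.1.mp h with h | h
        · exact ha h
        · exact hb h
      simp only [ha, hb, hc, decide_false]
      simp

/-- (A1) REROUTING.  `E'` has a perfect path decomposition `Ps`, `u` has even degree in `E'`, all `E'`-neighbours of
`u` have odd degree in `E'`, `x ≠ u` has odd degree in `E'`, `ux ∉ E'`.  Then `E' ∪ {ux}` has one.
PROOF.  `u` is not an end of a path.  Every path `p` containing `u` is `p = l1 ++ u :: l2`, `l1, l2` nonempty.
It gives two arcs: (head of `l1` → last of `l1`) and (last of `l2` → head of `l2`) (outer end → neighbour of `u`).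
The tails are distinct (every vertex is an end of at most one path), the heads are distinct (the edges at `u` are in
one path only), `x` is not a head (`ux ∉ E'`).  Apply `chain`: `F`, `w`.  Every vertex in `x ∪ heads` has odd degree
in `E'`, so it is an end of exactly one path; `w` is one of these and no tail, so the path `p_w` with end `w` does not contain `u`.
New decomposition: for a path `p = l1 ++ u :: l2` replace `l1` by `l1.reverse` if its arc is in `F`, and `l2` by
`l2.reverse` if its arc is in `F`; in `p_w` add `u` at the end `w` (`u :: p` or `p ++ [u]`); other paths are unchanged.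
Edges: the edges `u z` (`z` head of an arc of `F`) are replaced by `u y` (`y` tail of an arc of `F`), and `u w` is
added; by the `Perm` of `chain` in total exactly `u x` is added.  All new lists are nodup.
Ends: tails `y` of `F` are replaced by heads `z` of `F`, `w` is replaced by `u`: by the `Perm`
the end at `x` is removed and one at `u` is added; the degrees of `x` and `u` change parity, so this is right. -/
theorem reroute (E' : Finset (Sym2 V)) (hE : ∀ e ∈ E', ¬ e.IsDiag) (Ps : List (List V)) (hP : PPD E' Ps)
    (u x : V) (hux : u ≠ x) (hx : s(u, x) ∉ E') (hu : dg E' u % 2 = 0) (hxo : dg E' x % 2 = 1)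
    (hn : ∀ v, s(u, v) ∈ E' → dg E' v % 2 = 1) :
    ∃ Ps' : List (List V), PPD (insert s(u, x) E') Ps' := by
  obtain ⟨hP1, hP2, hP3, hP4⟩ := hP
  have hflat := (rr_flat Ps E' (fun p hp => (hP1 p hp).1)).mp ⟨hP2, hP3⟩
  -- `u` is no end
  have hu0 : ∀ p ∈ Ps, p.head? ≠ some u ∧ p.getLast? ≠ some u := by
    have h0 : nEnd Ps u = 0 := by rw [hP4, hu]
    unfold nEnd at h0
    have h1 : Ps.countP (fun p => decide (p.head? = some u)) = 0 := by omega
    have h2 : Ps.countP (fun p => decide (p.getLast? = some u)) = 0 := by omega
    rw [List.countP_eq_zero] at h1 h2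
    intro p hp
    exact ⟨by simpa using h1 p hp, by simpa using h2 p hp⟩
  have hside : ∀ p ∈ Ps, u ∈ p → rrS1 u p ≠ [] ∧ rrS2 u p ≠ [] := by
    intro p hp hup
    have hs := rr_split hup
    obtain ⟨h1, h2⟩ := hu0 p hp
    constructor
    · intro h0
      rw [h0] at hs
      apply h1
      rw [hs]
      simp
    · intro h0
      rw [h0] at hs
      apply h2
      rw [hs]
      simp
  let L := Ps.flatMap (rrArcs u)
  -- tails
  have htail : (↑(L.map Prod.fst) : Multiset V) ≤ (Ps.map rrEnds).sum := by
    have h1 : L.map Prod.fst = Ps.flatMap (fun p => (rrArcs u p).map Prod.fst) :=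
      List.map_flatMap
    rw [h1, ← rr_sum_flat]
    apply List.sum_le_sum
    intro p hp
    by_cases hup : u ∈ p
    · obtain ⟨h2, h3⟩ := hside p hp hup
      have e2 : rrArcs u p = [rrArc u (rrS1 u p), rrArc u (rrS2 u p)] := if_pos hup
      have e3 : rrEnds p = {(rrS1 u p).getLastD u} + {(rrS2 u p).getLastD u} := by
        rw [← rr_path_end u h2 h3, ← rr_split hup]
      rw [e2, e3]
      exact le_refl _
    · have e2 : rrArcs u p = [] := if_neg hup
      rw [e2]
      exact Multiset.zero_le _
  have hcount : ∀ v, Multiset.count v (Ps.map rrEnds).sum ≤ 1 := by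
    intro v
    rw [rr_count_ends, hP4]
    omega
  have hendnd : ((Ps.map rrEnds).sum).Nodup := Multiset.nodup_iff_count_le_one.mpr hcount
  have hy : (L.map Prod.fst).Nodup := Multiset.coe_nodup.mp (Multiset.nodup_of_le htail hendnd)
  -- heads
  have hhead : (↑(L.map (fun a => s(u, a.2))) : Multiset (Sym2 V)) ≤ E'.val := by
    have h1 : L.map (fun a => s(u, a.2)) = Ps.flatMap (fun p => (rrArcs u p).map (fun a => s(u, a.2))) :=
      List.map_flatMap
    rw [h1, ← rr_sum_flat, ← hflat]
    apply List.sum_le_sum
    intro p hp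
    by_cases hup : u ∈ p
    · obtain ⟨h2, h3⟩ := hside p hp hup
      have e2 : rrArcs u p = [rrArc u (rrS1 u p), rrArc u (rrS2 u p)] := if_pos hup
      have e3 : (↑(pE p) : Multiset (Sym2 V)) = ↑(pE (rrS1 u p)) + ↑(pE (rrS2 u p)) +
          ({s(u, (rrS1 u p).headD u)} + {s(u, (rrS2 u p).headD u)}) := by
        rw [← rr_path_edge u h2 h3, ← rr_split hup]
      rw [e2, e3]
      exact Multiset.le_add_left _ _
    · have e2 : rrArcs u p = [] := if_neg hup
      rw [e2]
      exact Multiset.zero_le _
  have hheadnd : (L.map (fun a => s(u, a.2))).Nodup :=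
    Multiset.coe_nodup.mp (Multiset.nodup_of_le hhead E'.nodup)
  have hw0 : (L.map Prod.snd).Nodup := by
    have h1 : L.map (fun a => s(u, a.2)) = (L.map Prod.snd).map (fun z => s(u, z)) := by
      rw [List.map_map]
      rfl
    rw [h1] at hheadnd
    exact List.Nodup.of_map _ hheadnd
  have hheadE : ∀ z ∈ L.map Prod.snd, s(u, z) ∈ E' := by
    intro z hz
    obtain ⟨a, ha, rfl⟩ := List.mem_map.mp hz
    have h1 : s(u, a.2) ∈ (↑(L.map (fun a => s(u, a.2))) : Multiset (Sym2 V)) := by
      rw [Multiset.mem_coe]
      exact List.mem_map.mpr ⟨a, ha, rfl⟩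
    exact Finset.mem_val.mp (Multiset.mem_of_le hhead h1)
  have hxh : x ∉ L.map Prod.snd := fun h => hx (hheadE x h)
  obtain ⟨F, w, f1, f2, f3, -, -, f6⟩ := chain L hy hw0 x hxh
  -- `w`
  have hwodd : dg E' w % 2 = 1 := by
    have h1 : w ∈ x :: F.map Prod.snd := f6.mem_iff.mpr List.mem_cons_self
    rcases List.mem_cons.mp h1 with h1 | h1
    · rw [h1]; exact hxo
    · obtain ⟨a, ha, rfl⟩ := List.mem_map.mp h1
      exact hn _ (hheadE _ (List.mem_map.mpr ⟨a, f1 a ha, rfl⟩))
  have hwend : nEnd Ps w = 1 := by rw [hP4, hwodd]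
  have hwu : ∀ p ∈ Ps, (p.head? = some w ∨ p.getLast? = some w) → u ∉ p := by
    intro p hp hpw hup
    obtain ⟨h2, h3⟩ := hside p hp hup
    have e2 : rrArcs u p = [rrArc u (rrS1 u p), rrArc u (rrS2 u p)] := if_pos hup
    have e3 : rrEnds p = {(rrS1 u p).getLastD u} + {(rrS2 u p).getLastD u} := by
      rw [← rr_path_end u h2 h3, ← rr_split hup]
    have h4 : w ∈ rrEnds p := by
      unfold rrEnds
      rcases hpw with h | h
      · rw [h]; simp
      · rw [h]; simp
    apply f3
    rw [e3] at h4
    have h5 : ∀ a ∈ rrArcs u p, a ∈ L := fun a ha => List.mem_flatMap.mpr ⟨p, hp, ha⟩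
    simp only [Multiset.mem_add, Multiset.mem_singleton] at h4
    rcases h4 with h4 | h4
    · exact List.mem_map.mpr ⟨rrArc u (rrS1 u p), h5 _ (by rw [e2]; simp), h4.symm⟩
    · exact List.mem_map.mpr ⟨rrArc u (rrS2 u p), h5 _ (by rw [e2]; simp), h4.symm⟩
  have hWc : Ps.countP (fun p => decide (rrW u w p)) = 1 := by
    rw [← hwend]
    unfold nEnd
    apply rr_countP
    intro p hp
    refine ⟨⟨fun h => h.2, fun h => ⟨hwu p hp h, h⟩⟩, ?_⟩
    rintro ⟨h1, h2⟩
    obtain ⟨hnd, hlen⟩ := hP1 p hp
    match p, hlen, hnd, h1, h2 with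
    | a :: b :: t, _, hnd, h1, h2 =>
      have h3 : a = w := by simpa using h1
      have h4 : (b :: t).getLast? = some w := by
        rw [← h2]; simp [List.getLast?_cons]
      have h5 : w ∈ b :: t := List.mem_of_getLast? h4
      rw [h3] at hnd
      exact (List.nodup_cons.mp hnd).1 h5
  -- the arcs of `F`
  have hLF : (L.filter (fun c => decide (c ∈ F))).Perm F := by
    rw [List.perm_ext_iff_of_nodup ((List.Nodup.of_map _ hy).filter _) f2]
    intro a
    simp only [List.mem_filter, decide_eq_true_eq]
    exact ⟨fun h => h.2, fun h => ⟨f1 a h, h⟩⟩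
  have hLsum : ∀ {α : Type} (f : V × V → α),
      (Ps.map (fun p => (↑(((rrArcs u p).filter (fun c => decide (c ∈ F))).map f) : Multiset α))).sum =
        ↑(F.map f) := by
    intro α f
    rw [rr_sum_flat (fun p => ((rrArcs u p).filter (fun c => decide (c ∈ F))).map f) Ps]
    have h1 : Ps.flatMap (fun p => ((rrArcs u p).filter (fun c => decide (c ∈ F))).map f) =
        (L.filter (fun c => decide (c ∈ F))).map f := by
      rw [List.filter_flatMap, List.map_flatMap]
    rw [h1]
    exact Multiset.coe_eq_coe.mpr (hLF.map f)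
  -- sums
  have hsumE : ((Ps.map (rrN u w F)).map (fun p => (↑(pE p) : Multiset (Sym2 V)))).sum +
      ↑(F.map (fun a => s(u, a.2))) = E'.val + ↑(F.map (fun a => s(u, a.1))) + {s(u, w)} := by
    rw [← hLsum, ← hLsum, ← hflat, List.map_map]
    have h1 : ({s(u, w)} : Multiset (Sym2 V)) =
        (Ps.map (fun p => if rrW u w p then ({s(u, w)} : Multiset (Sym2 V)) else 0)).sum := by
      rw [rr_wt, hWc]; rfl
    rw [h1, ← List.sum_map_add, ← List.sum_map_add, ← List.sum_map_add]
    congr 1
    apply List.map_congr_left
    intro p hp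
    exact rr_edge (hP1 p hp).2 (hu0 p hp).1 (hu0 p hp).2
  have hsumN : ((Ps.map (rrN u w F)).map rrEnds).sum + ↑(F.map Prod.fst) + {w} =
      (Ps.map rrEnds).sum + ↑(F.map Prod.snd) + {u} := by
    rw [← hLsum, ← hLsum, List.map_map]
    have h1 : ∀ z : V, ({z} : Multiset V) =
        (Ps.map (fun p => if rrW u w p then ({z} : Multiset V) else 0)).sum := by
      intro z
      rw [rr_wt, hWc]; rfl
    rw [h1 w, h1 u, ← List.sum_map_add, ← List.sum_map_add, ← List.sum_map_add, ← List.sum_map_add]
    congr 1
    apply List.map_congr_left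
    intro p hp
    exact rr_end (hP1 p hp).2 (hu0 p hp).1 (hu0 p hp).2
  have hE2 : ((Ps.map (rrN u w F)).map (fun p => (↑(pE p) : Multiset (Sym2 V)))).sum =
      (insert s(u, x) E').val := by
    rw [Finset.insert_val_of_notMem hx]
    have h1 : (↑(F.map (fun a => s(u, a.1))) : Multiset (Sym2 V)) + {s(u, w)} =
        {s(u, x)} + ↑(F.map (fun a => s(u, a.2))) := by
      have h2 := Multiset.coe_eq_coe.mpr (f6.map (fun z => s(u, z)))
      simp only [List.map_cons, List.map_map] at h2
      rw [← Multiset.cons_coe, ← Multiset.cons_coe, ← Multiset.singleton_add,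
        ← Multiset.singleton_add] at h2
      rw [add_comm]
      exact h2.symm
    rw [add_assoc, h1, ← add_assoc] at hsumE
    have h3 := add_right_cancel hsumE
    rw [h3, add_comm, Multiset.singleton_add]
  have hN2 : ((Ps.map (rrN u w F)).map rrEnds).sum + {x} = (Ps.map rrEnds).sum + {u} := by
    have h1 : (↑(F.map Prod.fst) : Multiset V) + {w} = {x} + ↑(F.map Prod.snd) := by
      have h2 := Multiset.coe_eq_coe.mpr f6
      rw [← Multiset.cons_coe, ← Multiset.cons_coe, ← Multiset.singleton_add,
        ← Multiset.singleton_add] at h2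
      rw [add_comm]
      exact h2.symm
    rw [add_assoc, h1, ← add_assoc] at hsumN
    have h3 : ((Ps.map (rrN u w F)).map rrEnds).sum + {x} + ↑(F.map Prod.snd) =
        (Ps.map rrEnds).sum + {u} + ↑(F.map Prod.snd) := by
      rw [hsumN]; abel
    exact add_right_cancel h3
  have hnew : ∀ p ∈ Ps.map (rrN u w F), p.Nodup ∧ 2 ≤ p.length := by
    intro p' hp'
    obtain ⟨p, hp, rfl⟩ := List.mem_map.mp hp'
    obtain ⟨hnd, hlen⟩ := hP1 p hp
    unfold rrN
    split_ifs with h1 h2 h3
    · have hperm : ((rrT u F (rrS1 u p)).reverse ++ u :: rrT u F (rrS2 u p)).Perm p := by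
        have hs := rr_split h1
        have hperm' : ((rrT u F (rrS1 u p)).reverse ++ u :: rrT u F (rrS2 u p)).Perm
            ((rrS1 u p).reverse ++ u :: rrS2 u p) := by
          apply List.Perm.append
          · exact ((List.reverse_perm _).trans (rrT_perm _ _ _)).trans (List.reverse_perm _).symm
          · exact (rrT_perm _ _ _).cons u
        rw [← hs] at hperm'
        exact hperm'
      exact ⟨hperm.nodup_iff.mpr hnd, by rw [hperm.length_eq]; exact hlen⟩
    · exact ⟨List.nodup_cons.mpr ⟨h1, hnd⟩, by simp; omega⟩
    · refine ⟨?_, by simp; omega⟩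
      have hperm : (p ++ [u]).Perm (u :: p) := List.perm_append_singleton _ _
      exact hperm.nodup_iff.mpr (List.nodup_cons.mpr ⟨h1, hnd⟩)
    · exact ⟨hnd, hlen⟩
  refine ⟨Ps.map (rrN u w F), hnew, ?_, ?_, ?_⟩
  · exact ((rr_flat _ _ (fun p hp => (hnew p hp).1)).mpr hE2).1
  · exact ((rr_flat _ _ (fun p hp => (hnew p hp).1)).mpr hE2).2
  · intro v
    have h1 := congrArg (Multiset.count v) hN2
    rw [Multiset.count_add, Multiset.count_add, rr_count_ends, rr_count_ends, hP4,
      Multiset.count_singleton, Multiset.count_singleton] at h1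
    have h2 : dg (insert s(u, x) E') v = dg E' v + (if v = u ∨ v = x then 1 else 0) := by
      unfold dg
      rw [Finset.filter_insert]
      split_ifs with h3 h4 h4
      · rw [Finset.card_insert_of_notMem]
        simp [hx]
      · exact absurd (Sym2.mem_iff.mp h3) h4
      · exact absurd (Sym2.mem_iff.mpr h4) h3
      · rfl
    rw [h2]
    by_cases hvu : v = u
    · have hvx : v ≠ x := by rw [hvu]; exact hux
      rw [if_neg hvx, if_pos hvu] at h1
      rw [if_pos (Or.inl hvu)]
      rw [hvu] at h1 ⊢
      omega
    · by_cases hvx : v = x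
      · rw [if_pos hvx, if_neg hvu] at h1
        rw [if_pos (Or.inr hvx)]
        rw [hvx] at h1 ⊢
        omega
      · rw [if_neg hvx, if_neg hvu] at h1
        have h4 : ¬ (v = u ∨ v = x) := by
          rintro (h | h)
          · exact hvu h
          · exact hvx h
        rw [if_neg h4]
        omega

end Crest.Agent.EG
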