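import Crest.Agent.EG.StepLem
import Crest.Agent.EG.Chunks
import Crest.Agent.EG.LongCyc

set_option autoImplicit false

namespace Crest.Agent.EG
open Finset

variable {V : Type} [DecidableEq V]

/-- a segment for the hub `h`: a start vertex `s.1 ∈ L h` and a route `s.2` ending in `L h`, of one of the three kinds
`v - v'`, `v - w - v'`, `v - u ~h'~ u' - v'` -/
def IsSeg (Fc : Finset (Sym2 V)) (H : List (Hub V)) (L : Hub V → Finset V) (h : Hub V) (s : V × Rt V) : Prop :=
  (∃ v', s.2 = [(none, v')] ∧ s.1 ∈ L h ∧ v' ∈ L h ∧ s.1 ≠ v' ∧ s(s.1, v') ∈ Fc) ∨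
  (∃ w v', s.2 = [(none, w), (none, v')] ∧ s.1 ∈ L h ∧ v' ∈ L h ∧ w ∉ L h ∧ s.1 ≠ v' ∧
    s(s.1, w) ∈ Fc ∧ s(w, v') ∈ Fc) ∨
  (∃ h' ∈ H, h' ≠ h ∧ ∃ u u' v', s.2 = [(none, u), (some h', u'), (none, v')] ∧ s.1 ∈ L h ∧ v' ∈ L h ∧
    u ∈ L h' ∧ u' ∈ L h' ∧ u ≠ u' ∧ s.1 ≠ v' ∧ s(s.1, u) ∈ Fc ∧ s(u', v') ∈ Fc)

/-- vertices / `F`-edges of a segment -/
def segV (s : V × Rt V) : Finset V := (rtV s.1 s.2).toFinset
def segE (s : V × Rt V) : Finset (Sym2 V) := FE (steps s.1 s.2)

omit [DecidableEq V] in
private theorem steps_append (x : V) (R R' : Rt V) :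
    steps x (R ++ R') = steps x R ++ steps (endV x R) R' := by
  induction R generalizing x with
  | nil => simp [steps, endV]
  | cons p R ih =>
    obtain ⟨o, y⟩ := p
    simp [steps, endV, ih]

omit [DecidableEq V] in
private theorem endV_append (x : V) (R R' : Rt V) :
    endV x (R ++ R') = endV (endV x R) R' := by
  induction R generalizing x with
  | nil => simp [endV]
  | cons p R ih =>
    obtain ⟨o, y⟩ := p
    simp [endV, ih]

omit [DecidableEq V] in
private theorem steps_map_snd (x : V) (R : Rt V) :
    (steps x R).map (fun st => st.2.2) = R.map Prod.snd := by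
  induction R generalizing x with
  | nil => simp [steps]
  | cons p R ih =>
    obtain ⟨o, y⟩ := p
    simp [steps, ih]

omit [DecidableEq V] in
private theorem steps_length (x : V) (R : Rt V) : (steps x R).length = R.length := by
  induction R generalizing x with
  | nil => simp [steps]
  | cons p R ih =>
    obtain ⟨o, y⟩ := p
    simp [steps, ih]

omit [DecidableEq V] in
private theorem steps_mem (x : V) (R : Rt V) : ∀ st ∈ steps x R, st.1 ∈ rtV x R ∧ st.2.2 ∈ rtV x R := by
  induction R generalizing x with
  | nil => simp [steps]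
  | cons p R ih =>
    obtain ⟨o, y⟩ := p
    intro st hst
    simp only [steps, List.mem_cons] at hst
    rcases hst with rfl | hst
    · simp [rtV]
    · have := ih y st hst
      simp only [rtV, List.map_cons, List.mem_cons] at this ⊢
      tauto

private theorem mem_FE (l : List (V × Option (Hub V) × V)) (e : Sym2 V) :
    e ∈ FE l ↔ ∃ st ∈ l, st.2.1 = none ∧ s(st.1, st.2.2) = e := by
  simp only [FE, List.mem_toFinset, List.mem_map, List.mem_filter, decide_eq_true_eq]
  constructor
  · rintro ⟨st, ⟨h1, h2⟩, h3⟩; exact ⟨st, h1, h2, h3⟩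
  · rintro ⟨st, h1, h2, h3⟩; exact ⟨st, ⟨h1, h2⟩, h3⟩

/-- the closed tail of a chunk -/
private def clo (h : Hub V) (v : V) (rest : List (V × Rt V)) : Rt V :=
  rest.flatMap (fun s => (some h, s.1) :: s.2) ++ [(some h, v)]

omit [DecidableEq V] in
private theorem steps_clo (h : Hub V) (v : V) (rest : List (V × Rt V)) (x : V) :
    ∃ conn : List (V × V),
      (steps x (clo h v rest)).Perm (rest.flatMap (fun s => steps s.1 s.2) ++
        conn.map (fun p => (p.1, some h, p.2))) ∧
      conn.map Prod.fst = x :: rest.map (fun s => endV s.1 s.2) ∧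
      conn.map Prod.snd = rest.map Prod.fst ++ [v] := by
  induction rest generalizing x with
  | nil => exact ⟨[(x, v)], by simp [clo, steps], by simp, by simp⟩
  | cons s rest ih =>
    obtain ⟨conn, h1, h2, h3⟩ := ih (endV s.1 s.2)
    refine ⟨(x, s.1) :: conn, ?_, ?_, ?_⟩
    · have : clo h v (s :: rest) = (some h, s.1) :: (s.2 ++ clo h v rest) := by
        simp [clo]
      rw [this]
      simp only [steps, List.map_cons, List.flatMap_cons]
      rw [steps_append]
      have h4 := (h1.append_left (steps s.1 s.2)).cons (x, some h, s.1)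
      refine h4.trans ?_
      rw [← List.append_assoc]
      exact List.perm_middle.symm
    · simp [h2]
    · simp [h3]

omit [DecidableEq V] in
private theorem endV_clo (h : Hub V) (v : V) (rest : List (V × Rt V)) (x : V) :
    endV x (clo h v rest) = v := by
  unfold clo
  rw [endV_append]
  simp [endV]

omit [DecidableEq V] in
/-- the whole closed route as a permutation -/
private theorem route (h : Hub V) (v y : V) (R' : Rt V) (rest : List (V × Rt V)) :
    ∃ conn : List (V × V),
      ((v, none, y) :: steps y (R' ++ clo h v rest)).Perm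
        (((v, (none, y) :: R') :: rest).flatMap (fun s => steps s.1 s.2) ++
        conn.map (fun p => (p.1, some h, p.2))) ∧
      conn.map Prod.fst = ((v, (none, y) :: R') :: rest).map (fun s => endV s.1 s.2) ∧
      (conn.map Prod.snd).Perm (((v, (none, y) :: R') :: rest).map Prod.fst) := by
  obtain ⟨conn, h1, h2, h3⟩ := steps_clo h v rest (endV y R')
  refine ⟨conn, ?_, ?_, ?_⟩
  · rw [steps_append]
    simp only [List.flatMap_cons, steps, List.cons_append, List.append_assoc]
    exact (h1.append_left _).cons _
  · simp [h2, endV]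
  · rw [h3]
    simp only [List.map_cons]
    exact List.perm_append_singleton _ _

omit [DecidableEq V] in
private theorem perm_flat {α β : Type} (l : List α) (f : α → β) (g : α → List β) :
    (l.flatMap g ++ l.map f).Perm (l.flatMap (fun a => f a :: g a)) := by
  induction l with
  | nil => simp
  | cons a l ih =>
    simp only [List.flatMap_cons, List.map_cons, List.cons_append]
    rw [List.append_assoc]
    refine (List.perm_append_comm_assoc _ _ _).trans ?_
    have : (l.flatMap g ++ (g a ++ f a :: l.map f)).Perm (f a :: (g a ++ (l.flatMap g ++ l.map f))) := by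
      refine (List.perm_append_comm_assoc _ _ _).trans ?_
      refine (List.Perm.append_left _ List.perm_middle).trans ?_
      exact List.perm_middle
    refine this.trans ?_
    exact (ih.append_left _).cons _


private theorem IsSeg.edges {Fc : Finset (Sym2 V)} {H : List (Hub V)} {L : Hub V → Finset V} {h : Hub V}
    {s : V × Rt V} (hs : IsSeg Fc H L h s) : segE s ⊆ Fc := by
  obtain ⟨v, R⟩ := s
  intro e he
  simp only [segE, mem_FE] at he
  obtain ⟨st, hst, hn, rfl⟩ := he
  rcases hs with ⟨v', hR, hv, hv', hne, he⟩ | ⟨w, v', hR, hv, hv', hw, hne, he, he'⟩ |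
    ⟨h', hh', hne', u, u', v', hR, hv, hv', hu, hu', huu, hne, he, he'⟩
  · simp only at hR
    subst hR
    simp only [steps, List.mem_singleton] at hst
    subst hst
    exact he
  · simp only at hR
    subst hR
    simp only [steps, List.mem_cons, List.not_mem_nil, or_false] at hst
    rcases hst with rfl | rfl
    · exact he
    · exact he'
  · simp only at hR
    subst hR
    simp only [steps, List.mem_cons, List.not_mem_nil, or_false] at hst
    rcases hst with rfl | rfl | rfl
    · exact he
    · simp at hn
    · exact he'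

private theorem IsSeg.mono {Fc Fc' : Finset (Sym2 V)} {H : List (Hub V)} {L : Hub V → Finset V} {h : Hub V}
    {s : V × Rt V} (hs : IsSeg Fc H L h s) (hF : segE s ⊆ Fc') : IsSeg Fc' H L h s := by
  obtain ⟨v, R⟩ := s
  rcases hs with ⟨v', hR, hv, hv', hne, he⟩ | ⟨w, v', hR, hv, hv', hw, hne, he, he'⟩ |
    ⟨h', hh', hne', u, u', v', hR, hv, hv', hu, hu', huu, hne, he, he'⟩
  · simp only at hR
    subst hR
    refine Or.inl ⟨v', rfl, hv, hv', hne, ?_⟩
    apply hF
    simp [segE, mem_FE, steps]
  · simp only at hR
    subst hR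
    refine Or.inr (Or.inl ⟨w, v', rfl, hv, hv', hw, hne, ?_, ?_⟩)
    · apply hF
      simp [segE, mem_FE, steps]
    · apply hF
      simp [segE, mem_FE, steps]
  · simp only at hR
    subst hR
    refine Or.inr (Or.inr ⟨h', hh', hne', u, u', v', rfl, hv, hv', hu, hu', huu, hne, ?_, ?_⟩)
    · apply hF
      simp [segE, mem_FE, steps]
    · apply hF
      simp [segE, mem_FE, steps]

/-- facts about a segment -/
private theorem IsSeg.facts {M k T : ℕ} {S : Finset V} {F0 : Finset (Sym2 V)} {H : List (Hub V)}
    {L : Hub V → Finset V} {π : V → V} (cs : CS M k T S F0 H L π) {Fc : Finset (Sym2 V)} {h : Hub V}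
    (hh : h ∈ H) {s : V × Rt V} (hs : IsSeg Fc H L h s) :
    (rtV s.1 s.2).Nodup ∧ (∀ st ∈ steps s.1 s.2, VR Fc H st) ∧ s.2.length ≤ 3 ∧
      s.1 ∈ L h ∧ endV s.1 s.2 ∈ L h ∧ (∃ y R', s.2 = (none, y) :: R') ∧
      (∀ h'' ∈ H, (steps s.1 s.2).countP (fun st => decide (st.2.1 = some h'')) + (if h = h'' then 1 else 0) ≤
        ∑ z ∈ L h'', dg (segE s) z) ∧
      (∀ h'' ∈ H, ∀ z : V, (steps s.1 s.2).countP (fun st => decide (st.2.1 = some h'' ∧ (st.1 = z ∨ st.2.2 = z))) +
        (if h = h'' then (if endV s.1 s.2 = z then 1 else 0) + (if s.1 = z then 1 else 0) else 0) ≤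
        (if z ∈ L h'' then dg (segE s) z else 0)) := by
  have dgpos : ∀ (E : Finset (Sym2 V)) (a b : V), s(a, b) ∈ E → 1 ≤ dg E a := by
    intro E a b hE
    unfold dg
    exact Finset.card_pos.2 ⟨s(a, b), by simp [hE]⟩
  have dgpos' : ∀ (E : Finset (Sym2 V)) (a b : V), s(a, b) ∈ E → 1 ≤ dg E b := by
    intro E a b hE
    rw [Sym2.eq_swap] at hE
    exact dgpos E b a hE
  have two : ∀ (E : Finset (Sym2 V)) (A : Finset V) (a b : V), a ∈ A → b ∈ A → a ≠ b → 1 ≤ dg E a → 1 ≤ dg E b →
      2 ≤ ∑ z ∈ A, dg E z := by
    intro E A a b ha hb hab h1 h2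
    have hsub : ({a, b} : Finset V) ⊆ A := by
      intro z hz
      simp only [Finset.mem_insert, Finset.mem_singleton] at hz
      rcases hz with rfl | rfl <;> assumption
    have := Finset.sum_le_sum_of_subset (f := fun z => dg E z) hsub
    rw [Finset.sum_pair hab] at this
    omega
  obtain ⟨v, R⟩ := s
  rcases hs with ⟨v', hR, hv, hv', hne, he⟩ | ⟨w, v', hR, hv, hv', hw, hne, he, he'⟩ |
    ⟨h', hh', hne', u, u', v', hR, hv, hv', hu, hu', huu, hne, he, he'⟩
  · simp only at hR hv hne he
    subst hR
    have e1 : s(v, v') ∈ segE (v, [(none, v')]) := by simp [segE, mem_FE, steps]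
    have d1 := dgpos _ _ _ e1
    have d2 := dgpos' _ _ _ e1
    refine ⟨by simp [rtV, hne], ?_, by simp, hv, by simpa [endV] using hv', ⟨v', [], rfl⟩, ?_, ?_⟩
    · intro st hst
      simp only [steps, List.mem_singleton] at hst
      subst hst
      exact ⟨fun _ => he, by simp⟩
    · intro h'' hh''
      simp only [steps, List.countP_cons, List.countP_nil]
      by_cases hhh : h = h''
      · subst hhh
        have := two _ _ _ _ hv hv' hne d1 d2
        simp
        omega
      · simp [hhh]
    · intro h'' hh'' z
      simp only [steps, List.countP_cons, List.countP_nil, endV]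
      by_cases hhh : h = h''
      · subst hhh
        by_cases hz1 : v = z
        · subst hz1
          have : ¬ (v' = v) := fun h => hne h.symm
          simp [hv, this]
          omega
        · by_cases hz2 : v' = z
          · subst hz2
            simp [hv', hz1]
            omega
          · simp [hz1, hz2]
      · simp [hhh]
  · simp only at hR hv hne he
    subst hR
    have e1 : s(v, w) ∈ segE (v, [(none, w), (none, v')]) := by simp [segE, mem_FE, steps]
    have e2 : s(w, v') ∈ segE (v, [(none, w), (none, v')]) := by simp [segE, mem_FE, steps]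
    have d1 := dgpos _ _ _ e1
    have d2 := dgpos' _ _ _ e2
    have hvw : v ≠ w := by rintro rfl; exact hw hv
    have hwv' : w ≠ v' := by rintro rfl; exact hw hv'
    refine ⟨by simp [rtV, hne, hvw, hwv'], ?_, by simp, hv, by simpa [endV] using hv', ⟨w, [(none, v')], rfl⟩, ?_, ?_⟩
    · intro st hst
      simp only [steps, List.mem_cons, List.not_mem_nil, or_false] at hst
      rcases hst with rfl | rfl
      · exact ⟨fun _ => he, by simp⟩
      · exact ⟨fun _ => he', by simp⟩
    · intro h'' hh''
      simp only [steps, List.countP_cons, List.countP_nil]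
      by_cases hhh : h = h''
      · subst hhh
        have := two _ _ _ _ hv hv' hne d1 d2
        simp
        omega
      · simp [hhh]
    · intro h'' hh'' z
      simp only [steps, List.countP_cons, List.countP_nil, endV]
      by_cases hhh : h = h''
      · subst hhh
        by_cases hz1 : v = z
        · subst hz1
          have : ¬ (v' = v) := fun h => hne h.symm
          simp [hv, this]
          omega
        · by_cases hz2 : v' = z
          · subst hz2
            simp [hv', hz1]
            omega
          · simp [hz1, hz2]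
      · simp [hhh]
  · simp only at hR hv hne he
    subst hR
    have e1 : s(v, u) ∈ segE (v, [(none, u), (some h', u'), (none, v')]) := by simp [segE, mem_FE, steps]
    have e2 : s(u', v') ∈ segE (v, [(none, u), (some h', u'), (none, v')]) := by simp [segE, mem_FE, steps]
    have d1 := dgpos _ _ _ e1
    have d2 := dgpos' _ _ _ e2
    have d3 := dgpos' _ _ _ e1
    have d4 := dgpos _ _ _ e2
    have hdd := Finset.disjoint_left.1 (cs.ldisj h hh h' hh' (fun e => hne' e.symm))
    have h1 : v ≠ u := by rintro rfl; exact hdd hv hu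
    have h2 : v ≠ u' := by rintro rfl; exact hdd hv hu'
    have h3 : v' ≠ u := by rintro rfl; exact hdd hv' hu
    have h4 : v' ≠ u' := by rintro rfl; exact hdd hv' hu'
    refine ⟨by simp [rtV, hne, h1, h2, h3.symm, h4.symm, huu], ?_, by simp, hv, by simpa [endV] using hv',
      ⟨u, [(some h', u'), (none, v')], rfl⟩, ?_, ?_⟩
    · intro st hst
      simp only [steps, List.mem_cons, List.not_mem_nil, or_false] at hst
      rcases hst with rfl | rfl | rfl
      · exact ⟨fun _ => he, by simp⟩
      · refine ⟨by simp, ?_⟩
        intro g hg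
        simp only [Option.some.injEq] at hg
        subst hg
        exact ⟨hh', cs.sub _ hh' hu, cs.sub _ hh' hu'⟩
      · exact ⟨fun _ => he', by simp⟩
    · intro h'' hh''
      simp only [steps, List.countP_cons, List.countP_nil]
      by_cases hhh : h = h''
      · subst hhh
        have := two _ _ _ _ hv hv' hne d1 d2
        simp [hne']
        omega
      · by_cases hh3 : h' = h''
        · subst hh3
          have := two _ _ _ _ hu hu' huu d3 d4
          simp [hhh]
          omega
        · simp [hhh, hh3]
    · intro h'' hh'' z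
      simp only [steps, List.countP_cons, List.countP_nil, endV]
      by_cases hhh : h = h''
      · subst hhh
        by_cases hz1 : v = z
        · subst hz1
          have : ¬ (v' = v) := fun h => hne h.symm
          simp [hv, this, hne']
          omega
        · by_cases hz2 : v' = z
          · subst hz2
            simp [hv', hz1, hne']
            omega
          · simp [hz1, hz2, hne']
      · by_cases hh3 : h' = h''
        · subst hh3
          by_cases hz1 : u = z
          · subst hz1
            simp [hu, hhh]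
            omega
          · by_cases hz2 : u' = z
            · subst hz2
              simp [hu', hz1, hhh]
              omega
            · simp [hz1, hz2, hhh]
        · simp [hhh, hh3]


private theorem segE_disj (s s' : V × Rt V) (hd : Disjoint (segV s) (segV s')) :
    Disjoint (segE s) (segE s') := by
  rw [Finset.disjoint_left]
  intro e he he'
  simp only [segE, mem_FE] at he he'
  obtain ⟨st, hst, _, rfl⟩ := he
  obtain ⟨st', hst', _, he'⟩ := he'
  have h1 := steps_mem _ _ st hst
  have h2 := steps_mem _ _ st' hst'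
  have h3 : st.1 ∈ s(st'.1, st'.2.2) := by rw [he']; simp
  rw [Finset.disjoint_left] at hd
  have h4 : st.1 ∈ segV s := by simpa [segV] using h1.1
  apply hd h4
  simp only [segV, List.mem_toFinset]
  rw [Sym2.mem_iff] at h3
  rcases h3 with h3 | h3
  · rw [h3]; exact h2.1
  · rw [h3]; exact h2.2

private theorem dg_sum (qs : List (V × Rt V)) (hd : qs.Pairwise (fun s s' => Disjoint (segE s) (segE s'))) (z : V) :
    (qs.map (fun s => dg (segE s) z)).sum ≤ dg (qs.toFinset.biUnion segE) z := by
  induction qs with
  | nil => simp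
  | cons s qs ih =>
    rw [List.pairwise_cons] at hd
    have h1 := ih hd.2
    simp only [List.map_cons, List.sum_cons, List.toFinset_cons, Finset.biUnion_insert]
    have h2 : Disjoint (segE s) (qs.toFinset.biUnion segE) := by
      rw [Finset.disjoint_biUnion_right]
      intro s' hs'
      exact hd.1 s' (List.mem_toFinset.1 hs')
    have h3 : dg (segE s ∪ qs.toFinset.biUnion segE) z = dg (segE s) z + dg (qs.toFinset.biUnion segE) z := by
      unfold dg
      rw [Finset.filter_union, Finset.card_union_of_disjoint]
      exact Finset.disjoint_filter_filter h2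
    omega

private theorem sum_swap {α β : Type} (l : List α) (A : Finset β) (f : α → β → ℕ) :
    (l.map (fun s => ∑ z ∈ A, f s z)).sum = ∑ z ∈ A, (l.map (fun s => f s z)).sum := by
  induction l with
  | nil => simp
  | cons a l ih =>
    simp only [List.map_cons, List.sum_cons]
    rw [Finset.sum_add_distrib, ih]

private theorem countP_or {α : Type} (l : List α) (P Q : α → Prop) [DecidablePred P] [DecidablePred Q] :
    l.countP (fun p => decide (P p ∨ Q p)) ≤ l.countP (fun p => decide (P p)) + l.countP (fun p => decide (Q p)) := by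
  induction l with
  | nil => simp
  | cons a l ih =>
    simp only [List.countP_cons, Bool.decide_or] at ih ⊢
    by_cases h1 : P a <;> by_cases h2 : Q a <;> simp [h1, h2] <;> omega

/-- (H9a) CLOSING A CHUNK of vertex-disjoint segments to one cycle through `h`.
PROOF.  `qs = s_1 :: rest`, `s_1 = (v, (none, y) :: R')`.  Apply `stepLem` (`N = 4 * t0`, all steps are at most `4 t0`: `List.countP_le_length`) to the route
with start `y` and list `R' ++ rest.flatMap (fun s => (some h, s.1) :: s.2) ++ [(some h, v)]`, closing edge `s(v, y)`, `K` = all `F`-edges of the segments.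
Nodup: the vertices of the route are those of the segments (each segment is nodup, they are disjoint).
Validity: `L h ⊆ h.1`.  `hlen`: if the route has length `1` then `rest = []`, `R' = []` and it is `[(some h, v)]`.
`h1`: the label `h` occurs `|qs|` times and `∑_{z∈L h} dg K z ≥ 2 |qs|` (the end vertices of the segments are different elements of `L h` with an edge
in `K`); a label `h'` occurs for segments of the third kind, each has `u, u' ∈ L h'` with an edge in `K`.
`h2`: every vertex is an end of at most one hub step, and then it is in the `L` of this hub and has an edge in `K`.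
(A hub step with label `h'` inside a segment and `h' ≠ h`.) -/
theorem closeChunk {M k T : ℕ} {S : Finset V} {F0 : Finset (Sym2 V)} {H : List (Hub V)}
    {L : Hub V → Finset V} {π : V → V} (cs : CS M k T S F0 H L π) {Fc U : Finset (Sym2 V)}
    (inv : Inv M F0 H L Fc U) (t0 : ℕ) (ht : 400 * M ^ 2 * (4 * t0 + 1) ≤ k) (h : Hub V) (hh : h ∈ H)
    (qs : List (V × Rt V)) (hne : qs ≠ []) (hlen : qs.length ≤ t0) (hseg : ∀ s ∈ qs, IsSeg Fc H L h s)
    (hdis : qs.Pairwise (fun s s' => Disjoint (segV s) (segV s'))) :
    ∃ X : Finset (Sym2 V), X ⊆ hubE H \ U ∧ IsCyc (X ∪ qs.toFinset.biUnion segE) ∧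
      Inv M F0 H L (Fc \ qs.toFinset.biUnion segE) (U ∪ X) := by
  have hEd : qs.Pairwise (fun s s' => Disjoint (segE s) (segE s')) :=
    hdis.imp (fun {a b} hab => segE_disj a b hab)
  -- facts
  have hf := fun s (hs : s ∈ qs) => IsSeg.facts cs hh (hseg s hs)
  have hdg := dg_sum qs hEd
  obtain ⟨s1, rest, rfl⟩ : ∃ s1 rest, qs = s1 :: rest := by
    cases qs with
    | nil => exact absurd rfl hne
    | cons a l => exact ⟨a, l, rfl⟩
  obtain ⟨v, R1⟩ := s1
  obtain ⟨y, R', hR'⟩ := (hf (v, R1) (List.mem_cons_self ..)).2.2.2.2.2.1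
  simp only at hR'
  subst hR'
  obtain ⟨conn, hperm, hc1, hc2⟩ := route h v y R' rest
  set qs : List (V × Rt V) := (v, (none, y) :: R') :: rest with hqs
  set K := qs.toFinset.biUnion segE with hKdef
  have hconn : conn.length = qs.length := by
    have := congrArg List.length hc1
    simpa using this
  have hend : endV y (R' ++ clo h v rest) = v := by
    rw [endV_append, endV_clo]
  have hKF : K ⊆ Fc := by
    intro e he
    rw [hKdef, Finset.mem_biUnion] at he
    obtain ⟨s, hs, he⟩ := he
    exact (hseg s (List.mem_toFinset.1 hs)).edges he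
  have hins : insert s(endV y (R' ++ clo h v rest), y) (FE (steps y (R' ++ clo h v rest))) = K := by
    rw [hend]
    ext e
    rw [Finset.mem_insert, mem_FE]
    have h1 : (e = s(v, y) ∨ ∃ st ∈ steps y (R' ++ clo h v rest), st.2.1 = none ∧ s(st.1, st.2.2) = e) ↔
        ∃ st ∈ ((v, none, y) :: steps y (R' ++ clo h v rest) : List (V × Option (Hub V) × V)),
          st.2.1 = none ∧ s(st.1, st.2.2) = e := by
      simp only [List.mem_cons]
      constructor
      · rintro (rfl | ⟨st, h1, h2⟩)
        · exact ⟨_, Or.inl rfl, rfl, rfl⟩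
        · exact ⟨st, Or.inr h1, h2⟩
      · rintro ⟨st, rfl | h1, h2⟩
        · exact Or.inl h2.2.symm
        · exact Or.inr ⟨st, h1, h2⟩
    rw [h1]
    simp only [hperm.mem_iff, List.mem_append, List.mem_flatMap, List.mem_map, hKdef, Finset.mem_biUnion,
      List.mem_toFinset, segE, mem_FE]
    constructor
    · rintro ⟨st, ⟨s, hs, hst⟩ | ⟨p, hp, rfl⟩, h2, h3⟩
      · exact ⟨s, hs, st, hst, h2, h3⟩
      · simp at h2
    · rintro ⟨s, hs, st, hst, h2, h3⟩
      exact ⟨st, Or.inl ⟨s, hs, hst⟩, h2, h3⟩
  have hmemst : ∀ st ∈ steps y (R' ++ clo h v rest),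
      (∃ s ∈ qs, st ∈ steps s.1 s.2) ∨ ∃ p ∈ conn, st = (p.1, some h, p.2) := by
    intro st hst
    have : st ∈ ((v, none, y) :: steps y (R' ++ clo h v rest) : List (V × Option (Hub V) × V)) :=
      List.mem_cons_of_mem _ hst
    rw [hperm.mem_iff, List.mem_append, List.mem_flatMap, List.mem_map] at this
    rcases this with ⟨s, hs, h1⟩ | ⟨p, hp, rfl⟩
    · exact Or.inl ⟨s, hs, h1⟩
    · exact Or.inr ⟨p, hp, rfl⟩
  have hlenR : (R' ++ clo h v rest).length + 1 ≤ 4 * t0 := by
    have h1 := hperm.length_eq
    rw [List.length_cons, steps_length, List.length_append (as := List.flatMap (fun s => steps s.1 s.2) qs),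
      List.length_flatMap, List.length_map] at h1
    have h1' : (qs.map (fun s => (steps s.1 s.2).length)).sum = (qs.map (fun s => s.2.length)).sum := by
      congr 1
      apply List.map_congr_left
      intro s _
      exact steps_length _ _
    rw [h1'] at h1
    have h2 : (qs.map (fun s => s.2.length)).sum ≤ qs.length * 3 := by
      have h3 : ∀ x ∈ qs.map (fun s => s.2.length), x ≤ 3 := by
        intro x hx
        rw [List.mem_map] at hx
        obtain ⟨s, hs, rfl⟩ := hx
        exact (hf s hs).2.2.1
      have := List.sum_le_card_nsmul _ 3 h3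
      simpa using this
    omega
  have hcnt : ∀ P : V × Option (Hub V) × V → Bool, (steps y (R' ++ clo h v rest)).countP P ≤
      (qs.map (fun s => (steps s.1 s.2).countP P)).sum + conn.countP (fun p => P (p.1, some h, p.2)) := by
    intro P
    have h1 := hperm.countP_eq P
    rw [List.countP_append, List.countP_flatMap, List.countP_map] at h1
    have h2 : (steps y (R' ++ clo h v rest)).countP P ≤
        ((v, none, y) :: steps y (R' ++ clo h v rest)).countP P := by
      rw [List.countP_cons]
      omega
    refine h2.trans ?_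
    rw [h1]
    exact le_of_eq rfl
  have g1 : (rtV y (R' ++ clo h v rest)).Nodup := by
    have h1 : (rtV y (R' ++ clo h v rest)) =
        ((v, none, y) :: steps y (R' ++ clo h v rest)).map (fun st => st.2.2) := by
      simp only [rtV, List.map_cons, steps_map_snd]
    rw [h1]
    have h2 := hperm.map (fun st => st.2.2)
    rw [h2.nodup_iff]
    have h3 : (List.map (fun st => st.2.2) (qs.flatMap (fun s => steps s.1 s.2) ++
        conn.map (fun p => (p.1, some h, p.2)))) = qs.flatMap (fun s => s.2.map Prod.snd) ++ conn.map Prod.snd := by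
      rw [List.map_append, List.map_flatMap, List.map_map]
      congr 1
      apply List.flatMap_congr
      intro s _
      exact steps_map_snd _ _
    rw [h3]
    have h4 : (qs.flatMap (fun s => s.2.map Prod.snd) ++ conn.map Prod.snd).Perm
        (qs.flatMap (fun s => rtV s.1 s.2)) :=
      (hc2.append_left _).trans (perm_flat qs Prod.fst (fun s => s.2.map Prod.snd))
    rw [h4.nodup_iff, List.nodup_flatMap]
    refine ⟨fun s hs => (hf s hs).1, ?_⟩
    refine hdis.imp ?_
    intro a b hab z hz hz'
    exact Finset.disjoint_left.1 hab (List.mem_toFinset.2 hz) (List.mem_toFinset.2 hz')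
  have g2 : ∀ st ∈ steps y (R' ++ clo h v rest), VR Fc H st := by
    intro st hst
    rcases hmemst st hst with ⟨s, hs, hst⟩ | ⟨p, hp, rfl⟩
    · exact (hf s hs).2.1 st hst
    · refine ⟨by simp, ?_⟩
      intro g hg
      simp only [Option.some.injEq] at hg
      subst hg
      have h1 : p.1 ∈ conn.map Prod.fst := List.mem_map_of_mem hp
      have h2 : p.2 ∈ conn.map Prod.snd := List.mem_map_of_mem hp
      rw [hc1, List.mem_map] at h1
      rw [hc2.mem_iff, List.mem_map] at h2
      obtain ⟨a, ha, ha'⟩ := h1
      obtain ⟨b, hb, hb'⟩ := h2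
      refine ⟨hh, ?_, ?_⟩
      · rw [← ha']; exact cs.sub h hh (hf a ha).2.2.2.2.1
      · rw [← hb']; exact cs.sub h hh (hf b hb).2.2.2.1
  have g3 : ∀ g, (∃ st ∈ steps y (R' ++ clo h v rest), st.2.1 = some g) →
      (steps y (R' ++ clo h v rest)).countP (fun st => decide (¬ Disjoint (reach M U st) (g.1 \ Sat M U g))) ≤
        4 * t0 := by
    intro g _
    refine List.countP_le_length.trans ?_
    rw [steps_length]
    omega
  have g4 : 2 ≤ (R' ++ clo h v rest).length ∨ ∃ h0 y0, R' ++ clo h v rest = [(some h0, y0)] := by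
    by_cases h2 : 2 ≤ (R' ++ clo h v rest).length
    · exact Or.inl h2
    · right
      have h3 : (R' ++ clo h v rest).length = R'.length + ((rest.flatMap (fun s => (some h, s.1) :: s.2)).length + 1) := by
        simp [clo]
      have h4 : R' = [] := by
        rw [← List.length_eq_zero_iff]
        omega
      have h5 : rest.flatMap (fun s => ((some h, s.1) : Option (Hub V) × V) :: s.2) = [] := by
        rw [← List.length_eq_zero_iff]
        omega
      refine ⟨h, v, ?_⟩
      rw [h4]
      unfold clo
      rw [h5]
      rfl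
  have g5 : ∀ g ∈ H, (steps y (R' ++ clo h v rest)).countP (fun st => decide (st.2.1 = some g)) ≤
      ∑ z ∈ L g, dg K z := by
    intro g hg
    refine (hcnt _).trans ?_
    have e1 : conn.countP (fun p => decide (((p.1, some h, p.2) : V × Option (Hub V) × V).2.1 = some g)) =
        (qs.map (fun _ => if h = g then 1 else 0)).sum := by
      by_cases hhg : h = g
      · simp [hhg, hconn]
      · simp [hhg]
    rw [e1, ← List.sum_map_add]
    calc (qs.map (fun s => (steps s.1 s.2).countP (fun st => decide (st.2.1 = some g)) + if h = g then 1 else 0)).sum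
        ≤ (qs.map (fun s => ∑ z ∈ L g, dg (segE s) z)).sum := by
          apply List.sum_le_sum
          intro s hs
          exact (hf s hs).2.2.2.2.2.2.1 g hg
      _ = ∑ z ∈ L g, (qs.map (fun s => dg (segE s) z)).sum := sum_swap _ _ _
      _ ≤ ∑ z ∈ L g, dg K z := Finset.sum_le_sum (fun z _ => hdg z)
  have g6 : ∀ g ∈ H, ∀ z ∈ g.1, (steps y (R' ++ clo h v rest)).countP
      (fun st => decide (st.2.1 = some g ∧ (st.1 = z ∨ st.2.2 = z))) ≤
      (if z ∈ L g then dg K z else 0) + (if z ∈ Sat M U g then 0 else 1) := by
    intro g hg z hz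
    refine (hcnt _).trans ?_
    have e1 : conn.countP (fun p => decide (((p.1, some h, p.2) : V × Option (Hub V) × V).2.1 = some g ∧
        (((p.1, some h, p.2) : V × Option (Hub V) × V).1 = z ∨
          ((p.1, some h, p.2) : V × Option (Hub V) × V).2.2 = z))) ≤
        (qs.map (fun s => if h = g then (if endV s.1 s.2 = z then 1 else 0) + (if s.1 = z then 1 else 0) else 0)).sum := by
      by_cases hhg : h = g
      · simp only [hhg, true_and, if_true]
        have e2 := countP_or conn (fun p => p.1 = z) (fun p => p.2 = z)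
        refine e2.trans (le_of_eq ?_)
        have e3 : conn.countP (fun p => decide (p.1 = z)) = (conn.map Prod.fst).countP (fun x => decide (x = z)) := by
          rw [List.countP_map]; rfl
        have e4 : conn.countP (fun p => decide (p.2 = z)) = (conn.map Prod.snd).countP (fun x => decide (x = z)) := by
          rw [List.countP_map]; rfl
        rw [e3, e4, hc1, hc2.countP_eq, List.countP_map, List.countP_map, List.sum_map_add]
        have e5 : ∀ (l : List (V × Rt V)) (P : V × Rt V → Prop) [DecidablePred P],
            l.countP (fun s => decide (P s)) = (l.map (fun s => if P s then 1 else 0)).sum := by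
          intro l P _
          induction l with
          | nil => simp
          | cons a l ih =>
            rw [List.countP_cons, List.map_cons, List.sum_cons, ih]
            by_cases ha : P a <;> simp [ha, add_comm]
        have e6 := e5 qs (fun s => endV s.1 s.2 = z)
        have e7 := e5 qs (fun s => s.1 = z)
        rw [← e6, ← e7]
        rfl
      · simp [hhg]
    refine (Nat.add_le_add_left e1 _).trans ?_
    rw [← List.sum_map_add]
    refine le_trans ?_ (Nat.le_add_right _ _)
    calc (qs.map (fun s => (steps s.1 s.2).countP (fun st => decide (st.2.1 = some g ∧ (st.1 = z ∨ st.2.2 = z))) +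
          if h = g then (if endV s.1 s.2 = z then 1 else 0) + (if s.1 = z then 1 else 0) else 0)).sum
        ≤ (qs.map (fun s => if z ∈ L g then dg (segE s) z else 0)).sum := by
          apply List.sum_le_sum
          intro s hs
          exact (hf s hs).2.2.2.2.2.2.2 g hg z
      _ ≤ if z ∈ L g then dg K z else 0 := by
          by_cases hzL : z ∈ L g
          · simp only [hzL, if_true]
            exact hdg z
          · simp [hzL]
  obtain ⟨X, hX1, hX2, hX3⟩ := stepLem cs inv (4 * t0) ht y (R' ++ clo h v rest) g1 g2 g3 g4 K hKF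
    (le_of_eq hins) g5 g6
  refine ⟨X, hX1, ?_, hX3⟩
  rw [hins] at hX2
  exact hX2

private theorem runAux {M k T : ℕ} {S : Finset V} {F0 : Finset (Sym2 V)} {H : List (Hub V)}
    {L : Hub V → Finset V} {π : V → V} (cs : CS M k T S F0 H L π)
    (t0 : ℕ) (ht : 400 * M ^ 2 * (4 * t0 + 1) ≤ k) (h : Hub V) (hh : h ∈ H)
    (Q : List (List (V × Rt V)))
    (hQ : ∀ q ∈ Q, q ≠ [] ∧ q.length ≤ t0 ∧ q.Pairwise (fun s s' => Disjoint (segV s) (segV s')))
    (hE : Q.flatten.Pairwise (fun s s' => Disjoint (segE s) (segE s'))) :
    ∀ (Fc U : Finset (Sym2 V)), Inv M F0 H L Fc U → (∀ s ∈ Q.flatten, IsSeg Fc H L h s) →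
    ∃ X : Finset (Sym2 V), X ⊆ hubE H \ U ∧ Dec (Q.flatten.toFinset.biUnion segE ∪ X) Q.length ∧
      Inv M F0 H L (Fc \ Q.flatten.toFinset.biUnion segE) (U ∪ X) := by
  induction Q with
  | nil =>
    intro Fc U inv _
    refine ⟨∅, by simp, by simpa using Dec.empty, by simpa using inv⟩
  | cons q Q ih =>
    intro Fc U inv hseg
    simp only [List.flatten_cons] at hE hseg ⊢
    rw [List.pairwise_append] at hE
    obtain ⟨hq1, hq2, hq3⟩ := hQ q (List.mem_cons_self ..)
    obtain ⟨X1, hX1, hC1, hI1⟩ := closeChunk cs inv t0 ht h hh q hq1 hq2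
      (fun s hs => hseg s (List.mem_append_left _ hs)) hq3
    have hEq : q.toFinset.biUnion segE ⊆ Fc := by
      intro e he
      rw [Finset.mem_biUnion] at he
      obtain ⟨s, hs, he⟩ := he
      exact (hseg s (List.mem_append_left _ (List.mem_toFinset.1 hs))).edges he
    obtain ⟨X2, hX2, hC2, hI2⟩ := ih (fun q' hq' => hQ q' (List.mem_cons_of_mem _ hq')) hE.2.1
      (Fc \ q.toFinset.biUnion segE) (U ∪ X1) hI1 (by
        intro s hs
        have h1 := hseg s (List.mem_append_right _ hs)
        refine h1.mono ?_
        intro e he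
        rw [Finset.mem_sdiff]
        refine ⟨h1.edges he, ?_⟩
        intro he'
        rw [Finset.mem_biUnion] at he'
        obtain ⟨s', hs', he'⟩ := he'
        exact Finset.disjoint_left.1 (hE.2.2 s' (List.mem_toFinset.1 hs') s hs) he' he)
    have hEQ : Q.flatten.toFinset.biUnion segE ⊆ Fc := by
      intro e he
      rw [Finset.mem_biUnion] at he
      obtain ⟨s, hs, he⟩ := he
      exact (hseg s (List.mem_append_right _ (List.mem_toFinset.1 hs))).edges he
    have hdF := Finset.disjoint_left.1 cs.disj
    have hFF := inv.sub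
    have hun : (q ++ Q.flatten).toFinset.biUnion segE =
        q.toFinset.biUnion segE ∪ Q.flatten.toFinset.biUnion segE := by
      rw [List.toFinset_append]
      ext e
      simp only [Finset.mem_biUnion, Finset.mem_union]
      constructor
      · rintro ⟨s, hs | hs, he⟩
        · exact Or.inl ⟨s, hs, he⟩
        · exact Or.inr ⟨s, hs, he⟩
      · rintro (⟨s, hs, he⟩ | ⟨s, hs, he⟩)
        · exact ⟨s, Or.inl hs, he⟩
        · exact ⟨s, Or.inr hs, he⟩
    refine ⟨X1 ∪ X2, ?_, ?_, ?_⟩
    · intro e he
      rcases Finset.mem_union.1 he with he | he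
      · exact hX1 he
      · have := hX2 he
        simp only [Finset.mem_sdiff, Finset.mem_union, not_or] at this ⊢
        exact ⟨this.1, this.2.1⟩
    · have hd : Disjoint (X1 ∪ q.toFinset.biUnion segE) (Q.flatten.toFinset.biUnion segE ∪ X2) := by
        rw [Finset.disjoint_left]
        intro e he he'
        rcases Finset.mem_union.1 he with he | he <;> rcases Finset.mem_union.1 he' with he' | he'
        · exact hdF (hFF (hEQ he')) (Finset.mem_sdiff.1 (hX1 he)).1
        · have := hX2 he'
          simp only [Finset.mem_sdiff, Finset.mem_union, not_or] at this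
          exact this.2.2 he
        · rw [Finset.mem_biUnion] at he he'
          obtain ⟨s, hs, he⟩ := he
          obtain ⟨s', hs', he'⟩ := he'
          exact Finset.disjoint_left.1 (hE.2.2 s (List.mem_toFinset.1 hs) s' (List.mem_toFinset.1 hs')) he he'
        · exact hdF (hFF (hEq he)) (Finset.mem_sdiff.1 (hX2 he')).1
      have h3 := Dec.union (Dec.one (Or.inr hC1)) hC2 hd
      have h4 : (q ++ Q.flatten).toFinset.biUnion segE ∪ (X1 ∪ X2) =
          X1 ∪ q.toFinset.biUnion segE ∪ (Q.flatten.toFinset.biUnion segE ∪ X2) := by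
        rw [hun]
        ext e
        simp only [Finset.mem_union]
        tauto
      rw [h4, List.length_cons, add_comm]
      exact h3
    · have h5 : Fc \ (q ++ Q.flatten).toFinset.biUnion segE =
          (Fc \ q.toFinset.biUnion segE) \ Q.flatten.toFinset.biUnion segE := by
        rw [hun]
        ext e
        simp only [Finset.mem_union, Finset.mem_sdiff]
        tauto
      rw [h5, ← Finset.union_assoc]
      exact hI2

/-- (H9b) RUNNING ALL CHUNKS.  PROOF.  `chunks` with `conf s s' = ¬ Disjoint (segV s) (segV s')` gives `Q`; induction on `Q`: `closeChunk` for the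
first chunk; the segments of the other chunks stay valid for `Fc \ (edges of the chunk)` since they have other edges. `Dec.union`. -/
theorem runSegs {M k T : ℕ} {S : Finset V} {F0 : Finset (Sym2 V)} {H : List (Hub V)}
    {L : Hub V → Finset V} {π : V → V} (cs : CS M k T S F0 H L π) {Fc U : Finset (Sym2 V)}
    (inv : Inv M F0 H L Fc U) (t0 Δ : ℕ) (ht0 : 1 ≤ t0) (ht : 400 * M ^ 2 * (4 * t0 + 1) ≤ k) (h : Hub V) (hh : h ∈ H)
    (I : Finset (V × Rt V)) (hseg : ∀ s ∈ I, IsSeg Fc H L h s)
    (hedge : ∀ s ∈ I, ∀ s' ∈ I, s ≠ s' → Disjoint (segE s) (segE s'))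
    (hΔ : ∀ s ∈ I, (I.filter (fun s' => s' ≠ s ∧ ¬ Disjoint (segV s) (segV s'))).card ≤ Δ) :
    ∃ (X : Finset (Sym2 V)) (c : ℕ), X ⊆ hubE H \ U ∧ t0 * c ≤ t0 * (Δ + 1) + I.card ∧
      Dec (I.biUnion segE ∪ X) c ∧ Inv M F0 H L (Fc \ I.biUnion segE) (U ∪ X) := by
  obtain ⟨Q, h1, h2, h3, h4⟩ := chunks I (fun s s' => ¬ Disjoint (segV s) (segV s'))
    (fun a b hab hba => hab hba.symm) Δ t0 ht0 hΔ
  have hfl : Q.flatten.toFinset = I := by
    ext a
    rw [List.mem_toFinset]
    exact h4 a
  have hE : Q.flatten.Pairwise (fun s s' => Disjoint (segE s) (segE s')) := by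
    refine List.Nodup.pairwise_of_forall_ne h3 ?_
    intro a ha b hb hab
    exact hedge a ((h4 a).1 ha) b ((h4 b).1 hb) hab
  obtain ⟨X, hX1, hX2, hX3⟩ := runAux cs t0 ht h hh Q
    (fun q hq => ⟨(h2 q hq).1, (h2 q hq).2.1, (h2 q hq).2.2.imp (fun hab => not_not.1 hab)⟩) hE Fc U inv
    (fun s hs => hseg s ((h4 s).1 hs))
  rw [hfl] at hX2 hX3
  exact ⟨X, Q.length, hX1, h1, hX2, hX3⟩

end Crest.Agent.EG
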