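import Crest.Agent.EG.Defs

set_option autoImplicit false
set_option linter.unusedSectionVars false

namespace Crest.Agent.EG
open Finset

variable {V : Type} [DecidableEq V]

private theorem sep_mem_pE : ∀ (L : List V) (e : Sym2 V), e ∈ pE L → ∀ v ∈ e, v ∈ L
  | [], e, he, v, _ => by simp [pE] at he
  | [a], e, he, v, _ => by simp [pE] at he
  | a :: b :: l, e, he, v, hv => by
    rw [pE, List.mem_cons] at he
    rcases he with he | he
    · rw [he, Sym2.mem_iff] at hv
      rcases hv with hv | hv <;> simp [hv]
    · have := sep_mem_pE (b :: l) e he v hv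
      exact List.mem_cons_of_mem _ this

private theorem sep_pE_nodup : ∀ L : List V, L.Nodup → (pE L).Nodup
  | [], _ => by simp [pE]
  | [a], _ => by simp [pE]
  | a :: b :: l, h => by
    rw [pE, List.nodup_cons]
    rw [List.nodup_cons] at h
    refine ⟨fun he => ?_, sep_pE_nodup (b :: l) h.2⟩
    exact h.1 (sep_mem_pE (b :: l) _ he a (Sym2.mem_mk_left a b))

private theorem sep_pE_snoc : ∀ (L : List V) (z a : V), L.getLast? = some z →
    pE (L ++ [a]) = pE L ++ [s(z, a)]
  | [], z, a, h => by simp at h
  | [b], z, a, h => by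
    simp at h
    subst h
    simp [pE]
  | b :: c :: l, z, a, h => by
    have h2 : (c :: l).getLast? = some z := by
      rw [List.getLast?_cons_cons] at h
      exact h
    have := sep_pE_snoc (c :: l) z a h2
    simp only [List.cons_append] at this ⊢
    rw [pE, this, pE]
    rfl

private theorem sep_pE_length : ∀ L : List V, (pE L).length = L.length - 1
  | [] => by simp [pE]
  | [a] => by simp [pE]
  | a :: b :: l => by
    rw [pE, List.length_cons, sep_pE_length (b :: l)]
    simp

private theorem sep_pE_chain (E : Finset (Sym2 V)) : ∀ L : List V,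
    L.IsChain (fun x y => s(x, y) ∈ E) → ∀ e ∈ pE L, e ∈ E
  | [], _, e, he => by simp [pE] at he
  | [a], _, e, he => by simp [pE] at he
  | a :: b :: l, h, e, he => by
    rw [List.isChain_cons_cons] at h
    rw [pE, List.mem_cons] at he
    rcases he with he | he
    · rw [he]
      exact h.1
    · exact sep_pE_chain E (b :: l) h.2 e he

private theorem sep_cyc (E : Finset (Sym2 V)) (l : ℕ)
    (hno : ∀ C : Finset (Sym2 V), C ⊆ E → IsCyc C → C.card < l) (L : List V) (a z : V)
    (hn : L.Nodup) (h3 : 3 ≤ L.length) (hc : L.IsChain (fun x y => s(x, y) ∈ E))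
    (ha : L.head? = some a) (hz : L.getLast? = some z) (hza : s(z, a) ∈ E) : L.length < l := by
  obtain ⟨t, rfl⟩ : ∃ t, L = a :: t := by
    cases L with
    | nil => simp at ha
    | cons b t =>
      simp at ha
      exact ⟨t, by rw [ha]⟩
  have hsn := sep_pE_snoc (a :: t) z a hz
  have hsub : (pE (a :: (t ++ [a]))).toFinset ⊆ E := by
    intro e he
    rw [List.mem_toFinset, ← List.cons_append, hsn, List.mem_append] at he
    rcases he with he | he
    · exact sep_pE_chain E _ hc e he
    · simp at he
      rw [he]
      exact hza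
  have hnd : (pE (a :: (t ++ [a]))).Nodup := by
    rw [← List.cons_append, hsn, List.nodup_append]
    refine ⟨sep_pE_nodup _ hn, by simp, ?_⟩
    intro e he e' he' hee
    simp only [List.mem_singleton] at he'
    rw [hee, he'] at he
    cases t with
    | nil => simp at h3
    | cons b t' =>
      rw [pE, List.mem_cons] at he
      rw [List.nodup_cons] at hn
      have hn2 := hn.2
      rw [List.nodup_cons] at hn2
      rcases he with he | he
      · have hzt : z ∈ t' := by
          cases t' with
          | nil => simp at h3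
          | cons c t'' =>
            rw [List.getLast?_cons_cons, List.getLast?_cons_cons] at hz
            exact List.mem_of_getLast? hz
        rw [Sym2.eq_iff] at he
        rcases he with ⟨h1, h2⟩ | ⟨h1, h2⟩
        · apply hn.1
          rw [← h1]
          exact List.mem_cons_of_mem _ hzt
        · apply hn2.1
          rw [← h1]
          exact hzt
      · exact hn.1 (sep_mem_pE _ _ he a (Sym2.mem_mk_right z a))
  have := hno _ hsub ⟨a, t, by simpa using h3, hn, rfl⟩
  rw [List.toFinset_card_of_nodup hnd, sep_pE_length] at this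
  simpa using this

/-- closed subsets -/
private def sepCl (E : Finset (Sym2 V)) (C D : Finset V) : Prop :=
  D ⊆ C ∧ ∀ x ∈ D, ∀ y ∈ C, s(x, y) ∈ E → y ∈ D

private def sepConn (E : Finset (Sym2 V)) (C : Finset V) : Prop :=
  ∀ D, sepCl E C D → D.Nonempty → D = C

private theorem sepCl_trans {E : Finset (Sym2 V)} {C D D' : Finset V} (h : sepCl E C D)
    (h' : sepCl E D D') : sepCl E C D' :=
  ⟨h'.1.trans h.1, fun x hx y hy hxy => h'.2 x hx y (h.2 x (h'.1 hx) y hy hxy) hxy⟩

private theorem sepCl_compl {E : Finset (Sym2 V)} {C D : Finset V} (h : sepCl E C D) :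
    sepCl E C (C \ D) := by
  refine ⟨sdiff_subset, fun x hx y hy hxy => ?_⟩
  rw [mem_sdiff] at hx ⊢
  refine ⟨hy, fun hyD => hx.2 ?_⟩
  exact h.2 y hyD x hx.1 (by rwa [Sym2.eq_swap])

private theorem sep_dich (E : Finset (Sym2 V)) (l : ℕ) (hl : 1 ≤ l) (C : Finset V)
    (hC : l ≤ C.card) :
    (∃ D, sepCl E C D ∧ sepConn E D ∧ l ≤ D.card) ∨
      ∃ Q, sepCl E C Q ∧ l ≤ Q.card ∧ Q.card < 2 * l := by
  classical
  obtain ⟨Q, hQ, hQmin⟩ := Finset.exists_min_image
    (C.powerset.filter (fun Q => sepCl E C Q ∧ l ≤ Q.card)) Finset.card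
    ⟨C, by
      rw [mem_filter, mem_powerset]
      exact ⟨Subset.refl _, ⟨Subset.refl _, fun _ _ y hy _ => hy⟩, hC⟩⟩
  rw [mem_filter, mem_powerset] at hQ
  obtain ⟨_, hQC, hQl⟩ := hQ
  have hQne : Q.Nonempty := by
    rw [← Finset.card_pos]
    omega
  obtain ⟨D, hD, hDmin⟩ := Finset.exists_min_image
    (Q.powerset.filter (fun D => sepCl E Q D ∧ D.Nonempty)) Finset.card
    ⟨Q, by
      rw [mem_filter, mem_powerset]
      exact ⟨Subset.refl _, ⟨Subset.refl _, fun _ _ y hy _ => hy⟩, hQne⟩⟩
  rw [mem_filter, mem_powerset] at hD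
  obtain ⟨_, hDQ, hDne⟩ := hD
  have hDconn : sepConn E D := by
    intro D' hD' hne
    have h1 := sepCl_trans hDQ hD'
    have h2 := hDmin D' (by
      rw [mem_filter, mem_powerset]
      exact ⟨h1.1, h1, hne⟩)
    exact Finset.eq_of_subset_of_card_le hD'.1 h2
  by_cases hDl : l ≤ D.card
  · exact Or.inl ⟨D, sepCl_trans hQC hDQ, hDconn, hDl⟩
  · refine Or.inr ⟨Q, hQC, hQl, ?_⟩
    by_contra hge
    have h1 := sepCl_trans hQC (sepCl_compl hDQ)
    have hcard : (Q \ D).card = Q.card - D.card := Finset.card_sdiff_of_subset hDQ.1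
    have hDpos : 0 < D.card := Finset.card_pos.2 hDne
    have h2 := hQmin (Q \ D) (by
      rw [mem_filter, mem_powerset]
      exact ⟨h1.1, h1, by omega⟩)
    omega

/-- paths in connected sets -/
private theorem sep_path (E : Finset (Sym2 V)) (C : Finset V) (hC : sepConn E C) (x y : V)
    (hx : x ∈ C) (hy : y ∈ C) : ∃ q : List V, q.head? = some y ∧ q.getLast? = some x ∧ q.Nodup ∧
      (∀ v ∈ q, v ∈ C) ∧ q.IsChain (fun x y => s(x, y) ∈ E) := by
  classical
  set R := C.filter (fun z => ∃ q : List V, q.head? = some z ∧ q.getLast? = some x ∧ q.Nodup ∧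
      (∀ v ∈ q, v ∈ C) ∧ q.IsChain (fun x y => s(x, y) ∈ E)) with hR
  have h1 : sepCl E C R := by
    refine ⟨filter_subset _ _, ?_⟩
    intro z hz w hw hzw
    rw [hR, mem_filter] at hz ⊢
    refine ⟨hw, ?_⟩
    obtain ⟨_, q, hq1, hq2, hq3, hq4, hq5⟩ := hz
    by_cases hwq : w ∈ q
    · obtain ⟨q1, q2, rfl⟩ := List.append_of_mem hwq
      refine ⟨w :: q2, rfl, ?_, ?_, ?_, ?_⟩
      · rw [List.getLast?_append] at hq2
        have : (w :: q2).getLast?.isSome := by simp
        cases h : (w :: q2).getLast? with
        | none => rw [h] at this; simp at this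
        | some u =>
          rw [h] at hq2
          simpa using hq2
      · exact (List.nodup_append.1 hq3).2.1
      · intro v hv
        exact hq4 v (List.mem_append_right _ hv)
      · exact (List.isChain_append.1 hq5).2.1
    · refine ⟨w :: q, rfl, ?_, ?_, ?_, ?_⟩
      · cases q with
        | nil => simp at hq1
        | cons a q' =>
          rw [List.getLast?_cons_cons]
          exact hq2
      · rw [List.nodup_cons]
        exact ⟨hwq, hq3⟩
      · intro v hv
        rw [List.mem_cons] at hv
        rcases hv with hv | hv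
        · rw [hv]; exact hw
        · exact hq4 v hv
      · cases q with
        | nil => simp
        | cons a q' =>
          simp at hq1
          rw [List.isChain_cons_cons]
          refine ⟨?_, hq5⟩
          rw [hq1, Sym2.eq_swap]
          exact hzw
  have h2 : R.Nonempty := ⟨x, by
    rw [hR, mem_filter]
    exact ⟨hx, [x], rfl, rfl, by simp, by simpa using hx, by simp⟩⟩
  have h3 := hC R h1 h2
  have h4 : y ∈ R := by rw [h3]; exact hy
  rw [hR, mem_filter] at h4
  exact h4.2

private theorem sep_take (E : Finset (Sym2 V)) (l : ℕ) (hl : 3 ≤ l)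
    (hno : ∀ C : Finset (Sym2 V), C ⊆ E → IsCyc C → C.card < l) (C : Finset V) (P : List V)
    (hPn : P.Nodup) (hPc : P.IsChain (fun x y => s(x, y) ∈ E)) (hPC : ∀ v ∈ P, v ∉ C)
    (hC : sepConn E C) (hhead : ∀ pm, P.head? = some pm → ∃ x ∈ C, s(x, pm) ∈ E)
    (u v : V) (hu : u ∈ C) (hv : v ∈ P) (huv : s(u, v) ∈ E) : v ∈ P.take (l - 2) := by
  obtain ⟨P1, P2, rfl⟩ := List.append_of_mem hv
  have hlen : P1.length ≤ l - 3 := by
    by_cases h0 : P1.length = 0
    · omega
    · obtain ⟨pm, hpm⟩ : ∃ pm, P1.head? = some pm := by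
        cases P1 with
        | nil => simp at h0
        | cons a _ => exact ⟨a, rfl⟩
      obtain ⟨x, hx, hxp⟩ := hhead pm (by rw [List.head?_append, hpm]; rfl)
      obtain ⟨q, hq1, hq2, hq3, hq4, hq5⟩ := sep_path E C hC x u hx hu
      have hqne : 1 ≤ q.length := by
        cases q with
        | nil => simp at hq1
        | cons a _ => simp
      have hsplit : P1 ++ v :: P2 = (P1 ++ [v]) ++ P2 := by simp
      rw [hsplit] at hPn hPc
      have hn1 := (List.nodup_append.1 hPn).1
      have hc1 := (List.isChain_append.1 hPc).1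
      have := sep_cyc E l hno (q ++ (P1 ++ [v])) u v ?_ ?_ ?_ ?_ ?_ (by rwa [Sym2.eq_swap])
      · simp only [List.length_append, List.length_cons, List.length_nil] at this
        omega
      · rw [List.nodup_append]
        refine ⟨hq3, hn1, ?_⟩
        intro a ha b hb hab
        apply hPC b
        · rw [hsplit]
          exact List.mem_append_left _ hb
        · rw [← hab]
          exact hq4 a ha
      · simp only [List.length_append, List.length_cons, List.length_nil]
        omega
      · rw [List.isChain_append]
        refine ⟨hq5, hc1, ?_⟩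
        intro a ha b hb
        rw [hq2] at ha
        rw [List.head?_append, hpm] at hb
        simp at ha hb
        rw [← ha, ← hb]
        exact hxp
      · rw [List.head?_append, hq1]
        rfl
      · simp
  rw [List.take_append]
  have h2 : l - 2 - P1.length = (l - 2 - P1.length - 1) + 1 := by omega
  rw [h2, List.take_succ_cons]
  simp

private theorem sep_main (E : Finset (Sym2 V)) (S : Finset V) (l : ℕ) (hl : 3 ≤ l)
    (hno : ∀ C : Finset (Sym2 V), C ⊆ E → IsCyc C → C.card < l) :
    ∀ (n : ℕ) (C : Finset V) (P : List V), C.card ≤ n → C ⊆ S → P.Nodup →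
      P.IsChain (fun x y => s(x, y) ∈ E) → (∀ v ∈ P, v ∉ C) → sepConn E C → l ≤ C.card →
      (∀ u ∈ C, ∀ v ∈ S, s(u, v) ∈ E → v ∈ C ∨ v ∈ P) →
      (∀ pm, P.head? = some pm → ∃ x ∈ C, s(x, pm) ∈ E) →
      ∃ Q : Finset V, Q ⊆ C ∧ l ≤ Q.card ∧ Q.card < 2 * l ∧
        ((S \ Q).filter (fun v => ∃ u ∈ Q, s(u, v) ∈ E)).card ≤ l := by
  classical
  intro n
  induction n with
  | zero =>
    intro C P hn _ _ _ _ _ hCl
    omega
  | succ n ih =>
    intro C P hn hCS hPn hPc hPC hC hCl hnb hhead
    have htake := sep_take E l hl hno C P hPn hPc hPC hC hhead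
    have hcardtake : (P.take (l - 2)).toFinset.card ≤ l - 2 :=
      (List.toFinset_card_le _).trans (List.length_take_le _ _)
    by_cases hCe : C.card = l
    · refine ⟨C, Subset.refl _, hCl, by omega, ?_⟩
      refine (Finset.card_le_card (t := (P.take (l - 2)).toFinset) ?_).trans (by omega)
      intro v hv
      rw [mem_filter, mem_sdiff] at hv
      obtain ⟨⟨hvS, hvC⟩, u, hu, huv⟩ := hv
      rw [List.mem_toFinset]
      rcases hnb u hu v hvS huv with h | h
      · exact absurd h hvC
      · exact htake u v hu h huv
    · obtain ⟨p, hp, hpch⟩ : ∃ p ∈ C, (p :: P).IsChain (fun x y => s(x, y) ∈ E) := by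
        cases P with
        | nil =>
          have : C.Nonempty := by
            rw [← Finset.card_pos]
            omega
          obtain ⟨p, hp⟩ := this
          exact ⟨p, hp, by simp⟩
        | cons pm P' =>
          obtain ⟨x, hx, hxp⟩ := hhead pm rfl
          refine ⟨x, hx, ?_⟩
          rw [List.isChain_cons_cons]
          exact ⟨hxp, hPc⟩
      have hpP : p ∉ P := fun h => hPC p h hp
      have hcard' : (C.erase p).card = C.card - 1 := Finset.card_erase_of_mem hp
      rcases sep_dich E l (by omega) (C.erase p) (by omega) with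
        ⟨D, hDcl, hDconn, hDl⟩ | ⟨Q, hQcl, hQl, hQl2⟩
      · have hDC : D ⊆ C := hDcl.1.trans (Finset.erase_subset _ _)
        have hpD : p ∉ D := fun h => Finset.notMem_erase p C (hDcl.1 h)
        obtain ⟨Q, hQ1, hQ2⟩ := ih D (p :: P) (by
            have := Finset.card_le_card hDcl.1
            omega) (hDC.trans hCS) (by
            rw [List.nodup_cons]
            exact ⟨hpP, hPn⟩) hpch (by
            intro v hv
            rw [List.mem_cons] at hv
            rcases hv with hv | hv
            · rw [hv]; exact hpD
            · exact fun h => hPC v hv (hDC h)) hDconn hDl (by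
            intro u hu v hv huv
            rcases hnb u (hDC hu) v hv huv with h | h
            · by_cases hvp : v = p
              · right
                rw [hvp]
                exact List.mem_cons_self
              · left
                exact hDcl.2 u hu v (Finset.mem_erase.2 ⟨hvp, h⟩) huv
            · right
              exact List.mem_cons_of_mem _ h) (by
            intro pm hpm
            simp at hpm
            subst hpm
            by_contra hcon
            push Not at hcon
            have hcl : sepCl E C D := by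
              refine ⟨hDC, fun x hx y hy hxy => ?_⟩
              by_cases hyp : y = p
              · rw [hyp] at hxy
                exact absurd hxy (hcon x hx)
              · exact hDcl.2 x hx y (Finset.mem_erase.2 ⟨hyp, hy⟩) hxy
            have hDne : D.Nonempty := by
              rw [← Finset.card_pos]
              omega
            have := hC D hcl hDne
            rw [this] at hpD
            exact hpD hp)
        exact ⟨Q, hQ1.trans hDC, hQ2⟩
      · refine ⟨Q, hQcl.1.trans (Finset.erase_subset _ _), hQl, hQl2, ?_⟩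
        refine (Finset.card_le_card (t := insert p (P.take (l - 2)).toFinset) ?_).trans
          ((Finset.card_insert_le _ _).trans (by omega))
        intro v hv
        rw [mem_filter, mem_sdiff] at hv
        obtain ⟨⟨hvS, hvQ⟩, u, hu, huv⟩ := hv
        have huC : u ∈ C := Finset.erase_subset _ _ (hQcl.1 hu)
        rw [mem_insert, List.mem_toFinset]
        by_cases hvp : v = p
        · exact Or.inl hvp
        · right
          rcases hnb u huC v hvS huv with h | h
          · exact absurd (hQcl.2 u hu v (Finset.mem_erase.2 ⟨hvp, h⟩) huv) hvQ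
          · exact htake u v huC h huv

/-- (E1) SEPARATION LEMMA: a graph without cycles of length `≥ l` on at least `l` vertices has a vertex set `Q`,
`l ≤ |Q| < 2l`, with at most `l` outside neighbours.
PROOF (greedy depth first search).  Connectivity inside a set `C ⊆ S` means: in the graph `E` induced on `C`
(e.g. the `SimpleGraph` on `V` with adjacency `x ≠ y ∧ s(x,y) ∈ E ∧ x ∈ C ∧ y ∈ C`).
CLAIM (induction on `|C|`): let `P = [p_1,…,p_m]` be a (possibly empty) path (nodup list, consecutive ones
`E`-adjacent) in `S`, `C ⊆ S` disjoint from `P`, `C` connected, `|C| ≥ l`, such that every `E`-neighbour in `S` of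
`C` outside `C` lies on `P`, and if `m ≥ 1` then `p_m` has a neighbour in `C`.  Then the lemma's `Q ⊆ C` exists.
 * The neighbours of `C` on `P` are among the last `l-1` vertices of `P`: if `p_a` (`a<m`) has a neighbour `y ∈ C` and
   `p_m` has neighbour `x ∈ C`, take a path `x … y` in `C` (connected): `p_a, p_{a+1}, …, p_m, x, …, y` is a cycle
   (at least 3 vertices) of length `≥ m-a+2`, so `m - a + 2 < l`, `a ≥ m-l+3`: at most `l-2` indices `a ≤ m`.
   Hence `C` has at most `l-2` (and in any case `≤ l-1`) outside neighbours.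
 * If `m = 0` pick any `p ∈ C`, otherwise a neighbour `p ∈ C` of `p_m`.  Let `C_1,…,C_t` be the connected components
   of `C \ {p}`.  Each is adjacent to `p` because `C` is connected.  If some `|C_i| ≥ l`: apply the claim
   to `P ++ [p]` and `C_i` (neighbours of `C_i` are in `C_i`, `{p}` or on `P`).
 * Otherwise all `|C_i| < l`.  If `|C| - 1 ≥ l`: a union `Q` of some of the `C_i` (add them one by one until the
   size is `≥ l`) has `l ≤ |Q| < 2l`, and its outside neighbours are `p` or outside neighbours of `C`: `≤ l-1`.
   If `|C| = l`: `Q = C`.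
START: if some connected component of the graph on `S` has at least `l` vertices use the claim with `P = []` and that
component; otherwise a union of components has size in `[l,2l)` and no outside neighbours. -/
theorem sepQ (E : Finset (Sym2 V)) (S : Finset V) (hS : Supp E S) (l : ℕ) (hl : 3 ≤ l)
    (hno : ∀ C : Finset (Sym2 V), C ⊆ E → IsCyc C → C.card < l) (hlS : l ≤ S.card) :
    ∃ Q : Finset V, Q ⊆ S ∧ l ≤ Q.card ∧ Q.card < 2 * l ∧
      ((S \ Q).filter (fun v => ∃ u ∈ Q, s(u, v) ∈ E)).card ≤ l := by
  classical
  rcases sep_dich E l (by omega) S hlS with ⟨D, hDcl, hDconn, hDl⟩ | ⟨Q, hQcl, hQl, hQl2⟩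
  · obtain ⟨Q, hQ1, hQ2⟩ := sep_main E S l hl hno D.card D [] le_rfl hDcl.1 (by simp) (by simp)
      (by simp) hDconn hDl (fun u hu v hv huv => Or.inl (hDcl.2 u hu v hv huv)) (by simp)
    exact ⟨Q, hQ1.trans hDcl.1, hQ2⟩
  · refine ⟨Q, hQcl.1, hQl, hQl2, ?_⟩
    rw [Finset.card_eq_zero.2]
    · omega
    · rw [Finset.filter_eq_empty_iff]
      intro v hv
      rw [mem_sdiff] at hv
      rintro ⟨u, hu, huv⟩
      exact hv.2 (hQcl.2 u hu v hv.1 huv)

end Crest.Agent.EG
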