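import Crest.Agent.EG.CDefs

set_option autoImplicit false

namespace Crest.Agent.EG
open Finset

variable {V : Type} [DecidableEq V]

private theorem su_mem_hubV (H : List (Hub V)) (v : V) : v ∈ hubV H ↔ ∃ h ∈ H, v ∈ h.1 := by
  induction H with
  | nil => simp [hubV]
  | cons a l ih =>
    have : hubV (a :: l) = a.1 ∪ hubV l := rfl
    rw [this, Finset.mem_union, ih]
    simp

private def suHome (H : List (Hub V)) (v : V) : Option (Hub V) := H.find? (fun h => decide (v ∈ h.1))

private theorem suHome_mem {H : List (Hub V)} {v : V} {h : Hub V} (hh : suHome H v = some h) :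
    h ∈ H ∧ v ∈ h.1 := by
  unfold suHome at hh
  exact ⟨List.mem_of_find?_eq_some hh, by simpa using List.find?_some hh⟩

private theorem suHome_some {H : List (Hub V)} {v : V} (hv : v ∈ hubV H) : ∃ h, suHome H v = some h := by
  rw [su_mem_hubV] at hv
  obtain ⟨h, hh, hvh⟩ := hv
  have : (suHome H v).isSome := by
    unfold suHome
    rw [List.find?_isSome]
    exact ⟨h, hh, by simpa using hvh⟩
  exact Option.isSome_iff_exists.1 this

/-- the class of a hub -/
private def suL (F : Finset (Sym2 V)) (T : ℕ) (H : List (Hub V)) (h : Hub V) : Finset V :=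
  h.1.filter (fun v => suHome H v = some h ∧ dg F v ≤ T)

private theorem suL_mem {F : Finset (Sym2 V)} {T : ℕ} {H : List (Hub V)} {h : Hub V} {v : V} :
    v ∈ suL F T H h ↔ suHome H v = some h ∧ dg F v ≤ T := by
  unfold suL
  rw [Finset.mem_filter]
  exact ⟨fun h' => h'.2, fun h' => ⟨(suHome_mem h'.1).2, h'⟩⟩

open Classical in
/-- the contraction map -/
private noncomputable def suPi (F : Finset (Sym2 V)) (T : ℕ) (H : List (Hub V)) (v : V) : V :=
  if hn : ∃ h, v ∈ suL F T H h then
    @Classical.epsilon V ⟨v⟩ (fun x => x ∈ suL F T H hn.choose)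
  else v

private theorem suPi_def {F : Finset (Sym2 V)} {T : ℕ} {H : List (Hub V)} {h : Hub V} {v : V}
    (hv : v ∈ suL F T H h) : suPi F T H v = @Classical.epsilon V ⟨v⟩ (fun x => x ∈ suL F T H h) := by
  have hn : ∃ h, v ∈ suL F T H h := ⟨h, hv⟩
  have h1 : suPi F T H v = @Classical.epsilon V ⟨v⟩ (fun x => x ∈ suL F T H hn.choose) := by
    unfold suPi
    rw [dif_pos hn]
  have h2 : hn.choose = h := by
    have h3 := (suL_mem.1 hn.choose_spec).1
    have h4 := (suL_mem.1 hv).1
    rw [h3] at h4
    exact Option.some.inj h4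
  rw [h1, h2]

private theorem suPi_mem {F : Finset (Sym2 V)} {T : ℕ} {H : List (Hub V)} {h : Hub V} {v : V}
    (hv : v ∈ suL F T H h) : suPi F T H v ∈ suL F T H h := by
  rw [suPi_def hv]
  exact @Classical.epsilon_spec_aux V ⟨v⟩ (fun x => x ∈ suL F T H h) ⟨v, hv⟩

private theorem suPi_eq {F : Finset (Sym2 V)} {T : ℕ} {H : List (Hub V)} {h : Hub V} {v v' : V}
    (hv : v ∈ suL F T H h) (hv' : v' ∈ suL F T H h) : suPi F T H v = suPi F T H v' := by
  rw [suPi_def hv, suPi_def hv']

private theorem suPi_not {F : Finset (Sym2 V)} {T : ℕ} {H : List (Hub V)} {v : V}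
    (hv : ¬ ∃ h, v ∈ suL F T H h) : suPi F T H v = v := by
  unfold suPi
  rw [dif_neg hv]

/-- (H0) EXISTENCE OF THE SET-UP.  PROOF.  `home v = H.find? (fun h => v ∈ h.1)` (first hub containing `v`),
`L h = h.1.filter (fun v => home v = some h ∧ dg F v ≤ T)`; different hubs have disjoint `L`.
`π v` = a chosen element (`Exists.choose`/`Nonempty.choose`, depending only on `h`) of `L h` if `home v = some h` and `v ∈ L h`,
otherwise `π v = v`.  `π v = π v'`: if `v, v'` are both in some `L`'s then (`π v ∈ L h`, `π v' ∈ L h'`, disjointness) `h = h'`; if none is in an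
`L` then `v = v'`; if only `v ∈ L h`, then `π v ∈ L h` but `π v' = v'` is in no `L`, contradiction.
`L h ⊆ h.1 ⊆ S` so `π` maps `S` to `S`.
Count: let `Λ = ⋃_{h ∈ H} L h = {v ∈ hubV H : dg F v ≤ T}`.  `S.image π ⊆ (S \ Λ) ∪ (image of Λ)` and the image of `Λ` has at most
`H.length` elements; `|Λ| = |hubV H| - #bad`, `Λ ⊆ S`. -/
theorem setup (F : Finset (Sym2 V)) (S : Finset V) (hF : Supp F S) (H : List (Hub V))
    (M k T : ℕ) (hM : 1 ≤ M) (hH : HubSys M k S H) (hFH : Disjoint F (hubE H))
    (hT : 10 ^ 6 * M ^ 3 * (T + 1) ≤ k) :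
    ∃ (L : Hub V → Finset V) (π : V → V), CS M k T S F H L π ∧ (∀ v ∈ S, π v ∈ S) ∧
      (S.image π).card + (hubV H).card ≤ S.card + H.length +
        ((hubV H).filter (fun v => T < dg F v)).card := by
  have hLS : ∀ h v, v ∈ suL F T H h → v ∈ S := by
    intro h v hv
    obtain ⟨h1, h2⟩ := suHome_mem (suL_mem.1 hv).1
    exact (hH.1 h h1).2.1 h2
  refine ⟨suL F T H, suPi F T H, ?_, ?_, ?_⟩
  · refine ⟨hM, hH, hF, hFH, ?_, ?_, ?_, ?_, ?_, hT⟩
    · intro h _; exact Finset.filter_subset _ _
    · intro h _ h' _ hne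
      rw [Finset.disjoint_left]
      intro v hv hv'
      apply hne
      have h1 := (suL_mem.1 hv).1
      have h2 := (suL_mem.1 hv').1
      rw [h1] at h2
      exact Option.some.inj h2
    · intro h _ v hv; exact (suL_mem.1 hv).2
    · intro h _ v hv v' hv'; exact suPi_eq hv hv'
    · intro v v' he
      by_cases h1 : ∃ h, v ∈ suL F T H h
      · obtain ⟨h, hv⟩ := h1
        have hp := suPi_mem hv
        by_cases h2 : ∃ h, v' ∈ suL F T H h
        · obtain ⟨h', hv'⟩ := h2
          have hp' := suPi_mem hv'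
          rw [← he] at hp'
          right
          have h3 := (suL_mem.1 hp).1
          have h4 := (suL_mem.1 hp').1
          rw [h3] at h4
          have h5 : h = h' := Option.some.inj h4
          refine ⟨h, (suHome_mem (suL_mem.1 hv).1).1, hv, ?_⟩
          rw [h5]; exact hv'
        · rw [suPi_not h2] at he
          rw [he] at hp
          exact absurd ⟨h, hp⟩ h2
      · by_cases h2 : ∃ h, v' ∈ suL F T H h
        · obtain ⟨h', hv'⟩ := h2
          have hp' := suPi_mem hv'
          rw [← he, suPi_not h1] at hp'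
          exact absurd ⟨h', hp'⟩ h1
        · rw [suPi_not h1, suPi_not h2] at he
          exact Or.inl he
  · intro v hv
    by_cases h1 : ∃ h, v ∈ suL F T H h
    · obtain ⟨h, hv⟩ := h1
      exact hLS h _ (suPi_mem hv)
    · rw [suPi_not h1]; exact hv
  · set Lam := (hubV H).filter (fun v => dg F v ≤ T) with hLam
    have hubS : hubV H ⊆ S := by
      intro v hv
      rw [su_mem_hubV] at hv
      obtain ⟨h, hh, hvh⟩ := hv
      exact (hH.1 h hh).2.1 hvh
    have hLamS : Lam ⊆ S := (Finset.filter_subset _ _).trans hubS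
    have hmem : ∀ v ∈ Lam, ∃ h, v ∈ suL F T H h := by
      intro v hv
      rw [hLam, Finset.mem_filter] at hv
      obtain ⟨h, hh⟩ := suHome_some hv.1
      exact ⟨h, suL_mem.2 ⟨hh, hv.2⟩⟩
    have h1 : S.image (suPi F T H) ⊆ (S \ Lam) ∪ Lam.image (suPi F T H) := by
      intro x hx
      rw [Finset.mem_image] at hx
      obtain ⟨v, hv, rfl⟩ := hx
      by_cases hvL : v ∈ Lam
      · exact Finset.mem_union_right _ (Finset.mem_image_of_mem _ hvL)
      · apply Finset.mem_union_left
        have : ¬ ∃ h, v ∈ suL F T H h := by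
          rintro ⟨h, hvh⟩
          apply hvL
          have h3 := suL_mem.1 hvh
          have h4 := suHome_mem h3.1
          rw [hLam, Finset.mem_filter]
          exact ⟨(su_mem_hubV H v).2 ⟨h, h4.1, h4.2⟩, h3.2⟩
        rw [suPi_not this, Finset.mem_sdiff]
        exact ⟨hv, hvL⟩
    have h2 : (Lam.image (suPi F T H)).card ≤ H.length := by
      classical
      have h3 : (Lam.image (suPi F T H)).card ≤ (H.toFinset.image (some : Hub V → Option (Hub V))).card := by
        refine Finset.card_le_card_of_injOn (fun x => suHome H x) ?_ ?_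
        · intro x hx
          rw [Finset.mem_coe, Finset.mem_image] at hx
          obtain ⟨v, hv, rfl⟩ := hx
          obtain ⟨h, hvh⟩ := hmem v hv
          have hp := (suL_mem.1 (suPi_mem hvh)).1
          show suHome H (suPi F T H v) ∈ (H.toFinset.image (some : Hub V → Option (Hub V)) : Set (Option (Hub V)))
          rw [hp, Finset.mem_coe, Finset.mem_image]
          exact ⟨h, List.mem_toFinset.2 (suHome_mem hp).1, rfl⟩
        · intro x hx y hy hxy
          rw [Finset.mem_coe, Finset.mem_image] at hx hy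
          obtain ⟨v, hv, rfl⟩ := hx
          obtain ⟨v', hv', rfl⟩ := hy
          obtain ⟨h, hvh⟩ := hmem v hv
          obtain ⟨h', hvh'⟩ := hmem v' hv'
          have hp := (suL_mem.1 (suPi_mem hvh)).1
          have hp' := (suL_mem.1 (suPi_mem hvh')).1
          have hxy' : suHome H (suPi F T H v) = suHome H (suPi F T H v') := hxy
          rw [hp, hp'] at hxy'
          have h5 : h = h' := Option.some.inj hxy'
          subst h5
          exact suPi_eq hvh hvh'
      exact h3.trans (Finset.card_image_le.trans (List.toFinset_card_le H))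
    have h3 : (S \ Lam).card + Lam.card = S.card := Finset.card_sdiff_add_card_eq_card hLamS
    have h4 : Lam.card + ((hubV H).filter (fun v => T < dg F v)).card = (hubV H).card := by
      rw [hLam]
      have := Finset.card_filter_add_card_filter_not (s := hubV H) (fun v => dg F v ≤ T)
      simpa only [not_le] using this
    have h5 := Finset.card_le_card h1
    have h6 := Finset.card_union_le (S \ Lam) (Lam.image (suPi F T H))
    omega

end Crest.Agent.EG
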