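import Crest.Agent.EG.SplitVar

set_option autoImplicit false

namespace Crest.Agent.EG
open Finset

variable {V : Type} [DecidableEq V]

private theorem splitProb_dgIn_map (E : Finset (Sym2 V)) (S : Finset V) (W : Finset {x // x ∈ S})
    (v : V) : dgIn E (W.map (Function.Embedding.subtype _)) v =
      (W.filter (fun x => s(v, x.1) ∈ E)).card := by
  unfold dgIn
  rw [Finset.filter_map, Finset.card_map]
  rfl

private theorem splitProb_walk3_map (E : Finset (Sym2 V)) (S : Finset V)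
    (W : Finset {x // x ∈ S}) (a b : V) :
    walk3 E (W.map (Function.Embedding.subtype _)) a b =
      (((univ : Finset ({x // x ∈ S} × {x // x ∈ S})).filter (fun p => s(a, p.1.1) ∈ E ∧
        s(p.1.1, p.2.1) ∈ E ∧ s(p.2.1, b) ∈ E)).filter (fun p => p.1 ∈ W ∧ p.2 ∈ W)).card := by
  unfold walk3
  rw [← Finset.card_map ((Function.Embedding.subtype (fun x => x ∈ S)).prodMap
    (Function.Embedding.subtype (fun x => x ∈ S)))]
  congr 1
  ext ⟨x, y⟩
  simp only [Finset.mem_filter, Finset.mem_product, Finset.mem_map, Finset.mem_univ, true_and,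
    Function.Embedding.prodMap, Function.Embedding.coeFn_mk, Function.Embedding.subtype_apply,
    Prod.exists, Prod.map_apply, Prod.mk.injEq]
  constructor
  · rintro ⟨⟨⟨x', hx', rfl⟩, ⟨y', hy', rfl⟩⟩, h1, h2, h3⟩
    exact ⟨x', y', ⟨⟨h1, h2, h3⟩, hx', hy'⟩, rfl, rfl⟩
  · rintro ⟨x', y', ⟨⟨h1, h2, h3⟩, hx', hy'⟩, rfl, rfl⟩
    exact ⟨⟨⟨x', hx', rfl⟩, ⟨y', hy', rfl⟩⟩, h1, h2, h3⟩

private theorem splitProb_numeric {M m k : ℕ} (hM : 1 ≤ M) (hm : 6 ≤ m) (hk : (2 * M * m) ^ 100 ≤ k) :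
    (k : ℝ) * m * Real.exp (-(3 / 10 * ((k : ℝ) / (4 * M * m)))) ≤ 1 / 4 := by
  set t : ℝ := 2 * M * m with ht
  have hM' : (1 : ℝ) ≤ M := by exact_mod_cast hM
  have hm' : (6 : ℝ) ≤ m := by exact_mod_cast hm
  have ht12 : 12 ≤ t := by rw [ht]; nlinarith
  have hmt : (m : ℝ) ≤ t := by rw [ht]; nlinarith
  have ht0 : 0 < t := by linarith
  have hkt : t ^ 100 ≤ (k : ℝ) := by
    rw [ht]
    exact_mod_cast hk
  have hkt4 : t ^ 4 ≤ (k : ℝ) := (pow_le_pow_right₀ (by linarith) (by norm_num)).trans hkt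
  have hk0 : 0 < (k : ℝ) := lt_of_lt_of_le (by positivity) hkt4
  set y : ℝ := 3 / 10 * ((k : ℝ) / (4 * M * m)) with hy
  have hy' : y = 3 / 20 * ((k : ℝ) / t) := by
    rw [hy, ht]
    field_simp
    ring
  have hy0 : 0 ≤ y := by rw [hy']; positivity
  have hexp : y ^ 3 / 6 ≤ Real.exp y := by
    have := Real.pow_div_factorial_le_exp y hy0 3
    simpa [Nat.factorial] using this
  have hmain : 4 * ((k : ℝ) * m) ≤ y ^ 3 / 6 := by
    rw [hy']
    have h1 : (3 / 20 * ((k : ℝ) / t)) ^ 3 / 6 = 27 / 48000 * (k : ℝ) ^ 3 / t ^ 3 := by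
      field_simp
      ring
    rw [h1, le_div_iff₀ (by positivity)]
    have h2 : (m : ℝ) * t ^ 3 ≤ t ^ 4 := by
      have : t ^ 4 = t * t ^ 3 := by ring
      rw [this]
      exact mul_le_mul_of_nonneg_right hmt (by positivity)
    have h3 : (12 : ℝ) ^ 4 ≤ t ^ 4 := pow_le_pow_left₀ (by norm_num) ht12 4
    have h4 : t ^ 4 * t ^ 4 ≤ (k : ℝ) * k := mul_le_mul hkt4 hkt4 (by positivity) hk0.le
    have h5 : 4 * (t ^ 4) ≤ 27 / 48000 * ((k : ℝ) * k) := by
      nlinarith [pow_pos ht0 4]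
    calc 4 * ((k : ℝ) * m) * t ^ 3 = k * (4 * (m * t ^ 3)) := by ring
      _ ≤ k * (4 * t ^ 4) := by
        apply mul_le_mul_of_nonneg_left _ hk0.le
        linarith
      _ ≤ k * (27 / 48000 * ((k : ℝ) * k)) := mul_le_mul_of_nonneg_left h5 hk0.le
      _ = 27 / 48000 * (k : ℝ) ^ 3 := by ring
  rw [Real.exp_neg, ← div_eq_mul_inv, div_le_iff₀ (Real.exp_pos _)]
  linarith

private theorem splitProb_deg (M : ℕ) (E : Finset (Sym2 V)) (S : Finset V)
    (hCD : CD M E S) (hk : 2 ≤ S.card) {v : V} (hv : v ∈ S) : S.card ≤ 2 * M * dgIn E S v := by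
  have h := hCD {v} (by simpa using hv)
  have h1 : (S \ {v}).card = S.card - 1 := by
    rw [Finset.card_sdiff_of_subset (by simpa using hv)]
    simp
  have h2 : eb E {v} (S \ {v}) ≤ dgIn E S v := by
    unfold eb dgIn
    apply Finset.card_le_card_of_injOn (fun p => p.2)
    · intro p hp
      simp only [Finset.coe_filter, Finset.mem_product, Finset.mem_singleton, Finset.mem_sdiff,
        Set.mem_setOf_eq] at hp ⊢
      obtain ⟨⟨h3, h4, _⟩, h5⟩ := hp
      rw [h3] at h5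
      exact ⟨h4, h5⟩
    · intro p hp q hq h
      simp only [Finset.coe_filter, Finset.mem_product, Finset.mem_singleton, Finset.mem_sdiff,
        Set.mem_setOf_eq] at hp hq
      exact Prod.ext (hp.1.1.trans hq.1.1.symm) h
  rw [h1, Finset.card_singleton, one_mul] at h
  have h3 : M * eb E {v} (S \ {v}) ≤ M * dgIn E S v := Nat.mul_le_mul_left _ h2
  have h4 : 2 * M * dgIn E S v = 2 * (M * dgIn E S v) := by ring
  omega

/-- (C2) PROBABILISTIC PART.  PROOF.  Let `X = {x // x ∈ S}`, `k = |S| = card X`, `φ : X → Fin m` uniform,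
`U_i = {x ∈ S : φ x = i}`.  Degrees: `dgIn E S v ≥ (k-1)/M ≥ k/(2M)` for `v ∈ S` (`CD` with `A = {v}`, `eb E {v} (S \ {v}) =
dgIn E (S \ {v}) v ≤ dgIn E S v`).  For `v ∈ S`, `i`: if `k > 4 M m dgIn E U_i v` then
`(1/2)^{dgIn E U_i v} ≥ (1/2)^{k/(4Mm)}`, so `#{φ : bad(v,i)} ≤ m^k (1-1/(2m))^{k/(2M)} 2^{k/(4Mm)} ≤ m^k exp(-k/(4Mm)) 2^{k/(4Mm)}
≤ m^k exp(-0.3 k/(4Mm))`; sum over `k m` pairs `(v,i)`: total `≤ m^k * k m exp(-0.3 k/(4Mm)) ≤ m^k/4`.
Walks: for `a, b ∈ S` take `P_{a,b} = {(x,y) ∈ X × X : a~x~y~b}` (`x ≠ y` because `E` is loopless);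
`walk3 E U_i a b = #{(x,y) ∈ P : φ x = i, φ y = i}`, `walk3 E S a b = |P|`.  By `firstMoment`, for each `i`,
`∑_φ ∑_{a,b} |...| ≤ m^k * 2 k^{7/2}`, so `#{φ : ∑_{a,b} |...| > 4 m k^{7/2}} < m^k/(2m)`; sum over `i`: `< m^k/2`.
So some `φ` is good for all `(v,i)` and all `i`. -/
theorem splitProb (M m : ℕ) (hM : 1 ≤ M) (hm : 6 ≤ m) (E : Finset (Sym2 V)) (S : Finset V)
    (hS : Supp E S) (hCD : CD M E S) (hk : (2 * M * m) ^ 100 ≤ S.card) :
    ∃ U : Fin m → Finset V, (∀ i, U i ⊆ S) ∧ (∀ i j, i ≠ j → Disjoint (U i) (U j)) ∧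
      (∀ i, ∀ v ∈ S, S.card ≤ 4 * M * m * dgIn E (U i) v) ∧
      (∀ i, ∑ a ∈ S, ∑ b ∈ S, |(walk3 E (U i) a b : ℝ) - (walk3 E S a b : ℝ) / m ^ 2| ≤
        4 * m * (S.card : ℝ) ^ 3 * Real.sqrt S.card) := by
  classical
  set k := S.card with hkdef
  have hM' : (1 : ℝ) ≤ M := by exact_mod_cast hM
  have hm' : (6 : ℝ) ≤ m := by exact_mod_cast hm
  have hk2 : 2 ≤ k := by
    have h1 : 2 ≤ 2 * M * m := by nlinarith
    have h2 : 2 * M * m ≤ (2 * M * m) ^ 100 := Nat.le_self_pow (by norm_num) _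
    omega
  have hk0 : (0 : ℝ) < k := by
    have : 0 < k := by omega
    exact_mod_cast this
  have hcard : Fintype.card {x // x ∈ S} = k := Fintype.card_coe S
  let A : V → Finset {x // x ∈ S} := fun v => univ.filter (fun x => s(v, x.1) ∈ E)
  let P : V → V → Finset ({x // x ∈ S} × {x // x ∈ S}) := fun a b =>
    univ.filter (fun p => s(a, p.1.1) ∈ E ∧ s(p.1.1, p.2.1) ∈ E ∧ s(p.2.1, b) ∈ E)
  let U : ({x // x ∈ S} → Fin m) → Fin m → Finset V := fun φ i =>
    (univ.filter (fun x => φ x = i)).map (Function.Embedding.subtype _)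
  have hSmap : S = (univ : Finset {x // x ∈ S}).map (Function.Embedding.subtype _) := by
    rw [Finset.univ_eq_attach, Finset.attach_map_val]
  have hdg : ∀ φ i v, dgIn E (U φ i) v = ((A v).filter (fun x => φ x = i)).card := by
    intro φ i v
    show dgIn E ((univ.filter (fun x => φ x = i)).map (Function.Embedding.subtype _)) v = _
    rw [splitProb_dgIn_map, Finset.filter_filter]
    show _ = ((univ.filter (fun x : {x // x ∈ S} => s(v, x.1) ∈ E)).filter (fun x => φ x = i)).card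
    rw [Finset.filter_filter]
    congr 1
    ext x
    simp only [Finset.mem_filter]
    tauto
  have hdS : ∀ v, dgIn E S v = (A v).card := by
    intro v
    conv_lhs => rw [hSmap]
    rw [splitProb_dgIn_map]
  have hwU : ∀ φ i a b, walk3 E (U φ i) a b =
      ((P a b).filter (fun p => φ p.1 = i ∧ φ p.2 = i)).card := by
    intro φ i a b
    show walk3 E ((univ.filter (fun x => φ x = i)).map (Function.Embedding.subtype _)) a b = _
    rw [splitProb_walk3_map]
    congr 1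
    ext p
    simp only [P, Finset.mem_filter, Finset.mem_univ, true_and]
  have hwS : ∀ a b, walk3 E S a b = (P a b).card := by
    intro a b
    conv_lhs => rw [hSmap]
    rw [splitProb_walk3_map]
    congr 1
    ext p
    simp only [P, Finset.mem_filter, Finset.mem_univ, true_and, and_self, and_true]
  have hPne : ∀ a b, ∀ p ∈ P a b, p.1 ≠ p.2 := by
    intro a b p hp h
    simp only [P, Finset.mem_filter, Finset.mem_univ, true_and] at hp
    have h1 := hS.2 _ hp.2.1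
    rw [h] at h1
    exact h1 (by simp)
  -- potentials
  set κ : ℝ := (k : ℝ) / (4 * M * m) with hκ
  set c : ℝ := (2 : ℝ) ^ κ with hc
  set D : ℝ := 4 * m * (k : ℝ) ^ 3 * Real.sqrt k with hD
  have hsq : 0 < Real.sqrt k := Real.sqrt_pos.mpr hk0
  have hD0 : 0 < D := by positivity
  have hc0 : 0 < c := Real.rpow_pos_of_pos two_pos _
  have hκ0 : 0 ≤ κ := by positivity
  let Y : Fin m → ({x // x ∈ S} → Fin m) → ℝ := fun i φ =>
    ∑ a ∈ S, ∑ b ∈ S, |(walk3 E (U φ i) a b : ℝ) - (walk3 E S a b : ℝ) / m ^ 2|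
  let Φ : ({x // x ∈ S} → Fin m) → ℝ := fun φ =>
    (∑ v ∈ S, ∑ i : Fin m, c * ((1 : ℝ) / 2) ^ (dgIn E (U φ i) v)) + ∑ i : Fin m, Y i φ / D
  have hm1 : 1 ≤ m := by omega
  have hterm1 : ∀ v ∈ S, ∀ i : Fin m, ∑ φ : {x // x ∈ S} → Fin m,
      c * ((1 : ℝ) / 2) ^ (dgIn E (U φ i) v) ≤ (m : ℝ) ^ k * Real.exp (-(3 / 10 * κ)) := by
    intro v hv i
    rw [← Finset.mul_sum]
    have h1 : ∑ φ : {x // x ∈ S} → Fin m, ((1 : ℝ) / 2) ^ (dgIn E (U φ i) v) =
        (m : ℝ) ^ k * (1 - 1 / (2 * m)) ^ (A v).card := by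
      have h2 := expMoment {x // x ∈ S} m hm1 i (A v)
      rw [hcard] at h2
      rw [← h2]
      exact Finset.sum_congr rfl fun φ _ => by rw [hdg]
    rw [h1]
    have h3 : (1 - 1 / (2 * (m : ℝ))) ^ (A v).card ≤ Real.exp (-κ) := by
      have h4 : (0 : ℝ) ≤ 1 - 1 / (2 * (m : ℝ)) := by
        rw [sub_nonneg, div_le_one (by positivity)]
        linarith
      have h5 : 1 - 1 / (2 * (m : ℝ)) ≤ Real.exp (-(1 / (2 * (m : ℝ)))) := by
        have := Real.add_one_le_exp (-(1 / (2 * (m : ℝ))))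
        linarith
      have h6 : Real.exp (-(1 / (2 * (m : ℝ)))) ^ (A v).card =
          Real.exp (-((A v).card / (2 * (m : ℝ)))) := by
        rw [← Real.exp_nat_mul]
        congr 1
        ring
      have h7 : (k : ℝ) ≤ 2 * M * (A v).card := by
        have h8 := splitProb_deg M E S hCD hk2 hv
        rw [hdS] at h8
        exact_mod_cast h8
      calc (1 - 1 / (2 * (m : ℝ))) ^ (A v).card
          ≤ Real.exp (-(1 / (2 * (m : ℝ)))) ^ (A v).card := pow_le_pow_left₀ h4 h5 _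
        _ = Real.exp (-((A v).card / (2 * (m : ℝ)))) := h6
        _ ≤ Real.exp (-κ) := by
          apply Real.exp_le_exp.mpr
          rw [neg_le_neg_iff, hκ, div_le_div_iff₀ (by positivity) (by positivity)]
          calc (k : ℝ) * (2 * m) ≤ (2 * M * (A v).card) * (2 * m) :=
                mul_le_mul_of_nonneg_right h7 (by positivity)
            _ = _ := by ring
    have h9 : c * Real.exp (-κ) ≤ Real.exp (-(3 / 10 * κ)) := by
      rw [hc, Real.rpow_def_of_pos two_pos, ← Real.exp_add]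
      apply Real.exp_le_exp.mpr
      have := Real.log_two_lt_d9
      nlinarith
    calc c * ((m : ℝ) ^ k * (1 - 1 / (2 * (m : ℝ))) ^ (A v).card)
        ≤ c * ((m : ℝ) ^ k * Real.exp (-κ)) := by
          apply mul_le_mul_of_nonneg_left _ hc0.le
          exact mul_le_mul_of_nonneg_left h3 (by positivity)
      _ = (m : ℝ) ^ k * (c * Real.exp (-κ)) := by ring
      _ ≤ _ := mul_le_mul_of_nonneg_left h9 (by positivity)
  have hterm2 : ∀ i : Fin m, ∑ φ : {x // x ∈ S} → Fin m, Y i φ / D ≤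
      (m : ℝ) ^ k * (1 / (2 * m)) := by
    intro i
    rw [← Finset.sum_div, div_le_iff₀ hD0]
    have h1 : ∑ φ : {x // x ∈ S} → Fin m, Y i φ =
        ∑ a ∈ S, ∑ b ∈ S, ∑ φ : {x // x ∈ S} → Fin m,
          |(((P a b).filter (fun p => φ p.1 = i ∧ φ p.2 = i)).card : ℝ) -
            ((P a b).card : ℝ) / m ^ 2| := by
      show ∑ φ : {x // x ∈ S} → Fin m, ∑ a ∈ S, ∑ b ∈ S, _ = _
      rw [Finset.sum_comm]
      refine Finset.sum_congr rfl fun a _ => ?_
      rw [Finset.sum_comm]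
      refine Finset.sum_congr rfl fun b _ => ?_
      refine Finset.sum_congr rfl fun φ _ => ?_
      rw [hwU, hwS]
    rw [h1]
    have h2 : ∀ a ∈ S, ∀ b ∈ S, ∑ φ : {x // x ∈ S} → Fin m,
          |(((P a b).filter (fun p => φ p.1 = i ∧ φ p.2 = i)).card : ℝ) -
            ((P a b).card : ℝ) / m ^ 2| ≤ (m : ℝ) ^ k * (2 * (k : ℝ) * Real.sqrt k) := by
      intro a _ b _
      have h3 := firstMoment {x // x ∈ S} m hm1 i (P a b) (hPne a b)
      rwa [hcard] at h3
    calc ∑ a ∈ S, ∑ b ∈ S, ∑ φ : {x // x ∈ S} → Fin m,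
          |(((P a b).filter (fun p => φ p.1 = i ∧ φ p.2 = i)).card : ℝ) -
            ((P a b).card : ℝ) / m ^ 2|
        ≤ ∑ a ∈ S, ∑ b ∈ S, (m : ℝ) ^ k * (2 * (k : ℝ) * Real.sqrt k) :=
          Finset.sum_le_sum fun a ha => Finset.sum_le_sum fun b hb => h2 a ha b hb
      _ = (m : ℝ) ^ k * (1 / (2 * m)) * D := by
          rw [Finset.sum_const, Finset.sum_const, nsmul_eq_mul, nsmul_eq_mul, ← hkdef, hD]
          field_simp
          ring
  have htot : ∑ φ : {x // x ∈ S} → Fin m, Φ φ < ∑ φ : {x // x ∈ S} → Fin m, (1 : ℝ) := by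
    have h1 : ∑ φ : {x // x ∈ S} → Fin m, (1 : ℝ) = (m : ℝ) ^ k := by
      rw [Finset.sum_const, Finset.card_univ, Fintype.card_fun, hcard, Fintype.card_fin,
        nsmul_eq_mul, mul_one]
      push_cast
      rfl
    rw [h1]
    have h2 : ∑ φ : {x // x ∈ S} → Fin m, Φ φ =
        (∑ v ∈ S, ∑ i : Fin m, ∑ φ : {x // x ∈ S} → Fin m,
          c * ((1 : ℝ) / 2) ^ (dgIn E (U φ i) v)) +
        ∑ i : Fin m, ∑ φ : {x // x ∈ S} → Fin m, Y i φ / D := by
      show ∑ φ : {x // x ∈ S} → Fin m, (_ + _) = _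
      rw [Finset.sum_add_distrib]
      congr 1
      · rw [Finset.sum_comm]
        refine Finset.sum_congr rfl fun v _ => ?_
        rw [Finset.sum_comm]
      · rw [Finset.sum_comm]
    rw [h2]
    have h3 : ∑ v ∈ S, ∑ i : Fin m, ∑ φ : {x // x ∈ S} → Fin m,
          c * ((1 : ℝ) / 2) ^ (dgIn E (U φ i) v) ≤ (m : ℝ) ^ k * (1 / 4) := by
      calc ∑ v ∈ S, ∑ i : Fin m, ∑ φ : {x // x ∈ S} → Fin m,
            c * ((1 : ℝ) / 2) ^ (dgIn E (U φ i) v)
          ≤ ∑ v ∈ S, ∑ i : Fin m, (m : ℝ) ^ k * Real.exp (-(3 / 10 * κ)) :=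
            Finset.sum_le_sum fun v hv => Finset.sum_le_sum fun i _ => hterm1 v hv i
        _ = (m : ℝ) ^ k * (k * m * Real.exp (-(3 / 10 * κ))) := by
            rw [Finset.sum_const, Finset.sum_const, nsmul_eq_mul, nsmul_eq_mul, Finset.card_univ,
              Fintype.card_fin, ← hkdef]
            ring
        _ ≤ _ := mul_le_mul_of_nonneg_left (splitProb_numeric hM hm hk) (by positivity)
    have h4 : ∑ i : Fin m, ∑ φ : {x // x ∈ S} → Fin m, Y i φ / D ≤ (m : ℝ) ^ k * (1 / 2) := by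
      calc ∑ i : Fin m, ∑ φ : {x // x ∈ S} → Fin m, Y i φ / D
          ≤ ∑ i : Fin m, (m : ℝ) ^ k * (1 / (2 * m)) := Finset.sum_le_sum fun i _ => hterm2 i
        _ = (m : ℝ) ^ k * (1 / 2) := by
            rw [Finset.sum_const, nsmul_eq_mul, Finset.card_univ, Fintype.card_fin]
            field_simp
    have h5 : (0 : ℝ) < (m : ℝ) ^ k := by positivity
    linarith
  obtain ⟨φ, -, hφ⟩ := Finset.exists_lt_of_sum_lt htot
  have hpos1 : ∀ v ∈ S, ∀ i : Fin m, 0 ≤ c * ((1 : ℝ) / 2) ^ (dgIn E (U φ i) v) :=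
    fun v _ i => by positivity
  have hYpos : ∀ i, 0 ≤ Y i φ / D := fun i =>
    div_nonneg (Finset.sum_nonneg fun a _ => Finset.sum_nonneg fun b _ => abs_nonneg _) hD0.le
  refine ⟨U φ, ?_, ?_, ?_, ?_⟩
  · intro i x hx
    simp only [U, Finset.mem_map, Function.Embedding.subtype_apply] at hx
    obtain ⟨y, -, rfl⟩ := hx
    exact y.2
  · intro i j hij
    rw [Finset.disjoint_left]
    intro x hx hx'
    simp only [U, Finset.mem_map, Function.Embedding.subtype_apply, Finset.mem_filter,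
      Finset.mem_univ, true_and] at hx hx'
    obtain ⟨y, hy, rfl⟩ := hx
    obtain ⟨y', hy', h⟩ := hx'
    have : y' = y := Subtype.ext h
    rw [this] at hy'
    exact hij (hy.symm.trans hy')
  · intro i v hv
    have h1 : c * ((1 : ℝ) / 2) ^ (dgIn E (U φ i) v) < 1 := by
      have h2 : c * ((1 : ℝ) / 2) ^ (dgIn E (U φ i) v) ≤
          ∑ v ∈ S, ∑ i : Fin m, c * ((1 : ℝ) / 2) ^ (dgIn E (U φ i) v) :=
        (Finset.single_le_sum (f := fun i : Fin m => c * ((1 : ℝ) / 2) ^ (dgIn E (U φ i) v))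
          (fun i _ => hpos1 v hv i) (Finset.mem_univ i)).trans
        (Finset.single_le_sum (f := fun v => ∑ i : Fin m, c * ((1 : ℝ) / 2) ^ (dgIn E (U φ i) v))
          (fun v hv => Finset.sum_nonneg fun i _ => hpos1 v hv i) hv)
      have h3 : 0 ≤ ∑ i : Fin m, Y i φ / D := Finset.sum_nonneg fun i _ => hYpos i
      have h4 : Φ φ = (∑ v ∈ S, ∑ i : Fin m, c * ((1 : ℝ) / 2) ^ (dgIn E (U φ i) v)) +
        ∑ i : Fin m, Y i φ / D := rfl
      linarith
    by_contra hcon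
    push Not at hcon
    have h2 : ((dgIn E (U φ i) v : ℕ) : ℝ) ≤ κ := by
      rw [hκ, le_div_iff₀ (by positivity)]
      have h3 : ((4 * M * m * dgIn E (U φ i) v : ℕ) : ℝ) < (k : ℝ) := by exact_mod_cast hcon
      push_cast at h3
      linarith
    have h3 : (2 : ℝ) ^ ((dgIn E (U φ i) v : ℕ) : ℝ) ≤ c :=
      Real.rpow_le_rpow_of_exponent_le one_le_two h2
    rw [Real.rpow_natCast] at h3
    have h4 : (1 : ℝ) ≤ c * (1 / 2) ^ (dgIn E (U φ i) v) := by
      calc (1 : ℝ) = 2 ^ (dgIn E (U φ i) v) * (1 / 2) ^ (dgIn E (U φ i) v) := by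
            rw [← mul_pow]; norm_num
        _ ≤ _ := mul_le_mul_of_nonneg_right h3 (by positivity)
    linarith
  · intro i
    have h1 : Y i φ / D < 1 := by
      have h2 : Y i φ / D ≤ ∑ i : Fin m, Y i φ / D :=
        Finset.single_le_sum (f := fun i => Y i φ / D) (fun i _ => hYpos i) (Finset.mem_univ i)
      have h3 : 0 ≤ ∑ v ∈ S, ∑ i : Fin m, c * ((1 : ℝ) / 2) ^ (dgIn E (U φ i) v) :=
        Finset.sum_nonneg fun v hv => Finset.sum_nonneg fun i _ => hpos1 v hv i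
      have h4 : Φ φ = (∑ v ∈ S, ∑ i : Fin m, c * ((1 : ℝ) / 2) ^ (dgIn E (U φ i) v)) +
        ∑ i : Fin m, Y i φ / D := rfl
      linarith
    rw [div_lt_one hD0] at h1
    exact h1.le

end Crest.Agent.EG
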