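import Crest.Agent.EG.SplitDet
import Crest.Agent.EG.SplitProb

set_option autoImplicit false

namespace Crest.Agent.EG
open Finset

variable {V : Type} [DecidableEq V]

/-- (C) RANDOM SPLITTING.  PROOF.  Take `U : Fin m → Finset V` from `splitProb`.  The number `t` of colours `i` with
`m |U i| > 2k` satisfies `t * 2k ≤ m ∑ |U i| ≤ m k` (strict if `t>0`), so `t ≤ m/2` and at least `m - m/2 ≥ 3` colours have
`m |U i| ≤ 2k` (`m ≥ 6`); choose three distinct ones `i_0, i_1, i_2` (`Finset.exists_subset_card_eq` / an embedding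
`Fin 3 ↪ ...`), `W l = U (i_l)`.  Cut-density by `splitDet`. -/
theorem split3 (M m : ℕ) (hM : 1 ≤ M) (hm : 6 ≤ m) (E : Finset (Sym2 V)) (S : Finset V)
    (hS : Supp E S) (hCD : CD M E S) (hk : (2 * M * m) ^ 100 ≤ S.card) :
    ∃ W : Fin 3 → Finset V, (∀ i, W i ⊆ S) ∧ (∀ i j, i ≠ j → Disjoint (W i) (W j)) ∧
      (∀ i, m * (W i).card ≤ 2 * S.card) ∧
      (∀ i, ∀ v ∈ S, S.card ≤ 4 * M * m * dgIn E (W i) v) ∧
      (∀ i, CD (2 ^ 14 * M ^ 4 * m ^ 5) E (W i)) := by
  obtain ⟨U, hU1, hU2, hU3, hU4⟩ := splitProb M m hM hm E S hS hCD hk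
  have hkpos : 0 < S.card := lt_of_lt_of_le (by positivity) hk
  have hsum : ∑ i, (U i).card ≤ S.card := by
    rw [← Finset.card_biUnion (fun i _ j _ hij => hU2 i j hij)]
    exact Finset.card_le_card (Finset.biUnion_subset.2 fun i _ => hU1 i)
  obtain ⟨Bg, hBg⟩ : ∃ Bg : Finset (Fin m),
    Bg = Finset.univ.filter (fun i : Fin m => 2 * S.card < m * (U i).card) := ⟨_, rfl⟩
  have h1 : Bg.card * (2 * S.card) ≤ m * S.card := by
    calc Bg.card * (2 * S.card) = ∑ _i ∈ Bg, 2 * S.card := by rw [Finset.sum_const, smul_eq_mul]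
      _ ≤ ∑ i ∈ Bg, m * (U i).card := Finset.sum_le_sum fun i hi => by
          rw [hBg] at hi
          exact (Finset.mem_filter.1 hi).2.le
      _ ≤ ∑ i, m * (U i).card := Finset.sum_le_sum_of_subset (Finset.subset_univ _)
      _ = m * ∑ i, (U i).card := by rw [Finset.mul_sum]
      _ ≤ m * S.card := Nat.mul_le_mul_left _ hsum
  have h2 : Bg.card * 2 ≤ m := by
    have h3 : (Bg.card * 2) * S.card ≤ m * S.card := by linarith
    exact Nat.le_of_mul_le_mul_right h3 hkpos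
  have h3 : 3 ≤ (Bgᶜ).card := by
    rw [Finset.card_compl, Fintype.card_fin]
    omega
  obtain ⟨t, ht, htc⟩ := Finset.exists_subset_card_eq h3
  have hsmall : ∀ i ∈ t, m * (U i).card ≤ 2 * S.card := by
    intro i hi
    have h4 := Finset.mem_compl.1 (ht hi)
    rw [hBg, Finset.mem_filter] at h4
    push Not at h4
    exact h4 (Finset.mem_univ i)
  have hmem : ∀ l : Fin 3, t.orderEmbOfFin htc l ∈ t := fun l => Finset.orderEmbOfFin_mem t htc l
  refine ⟨fun l => U (t.orderEmbOfFin htc l), fun l => hU1 _, fun i j hij => hU2 _ _ ?_,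
    fun l => hsmall _ (hmem l), fun l => hU3 _, fun l => ?_⟩
  · intro h
    exact hij ((t.orderEmbOfFin htc).injective h)
  · exact splitDet M m hM hm E S _ hS hCD hk (hU1 _) (hsmall _ (hmem l)) (hU3 _) (hU4 _)

end Crest.Agent.EG
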