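import Crest.Agent.EG.Defs

set_option autoImplicit false

namespace Crest.Agent.EG
open Finset

variable {V : Type} [DecidableEq V]

/-- number of walks `a ~ x ~ y ~ b` with `x, y ∈ U` (ordered pairs `(x,y)`) -/
def walk3 (E : Finset (Sym2 V)) (U : Finset V) (a b : V) : ℕ :=
  ((U ×ˢ U).filter (fun p => s(a, p.1) ∈ E ∧ s(p.1, p.2) ∈ E ∧ s(p.2, b) ∈ E)).card

/-- degree into a set -/
def dgIn (E : Finset (Sym2 V)) (W : Finset V) (v : V) : ℕ := (W.filter (fun x => s(v, x) ∈ E)).card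

end Crest.Agent.EG
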