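import Crest.Agent.EG.SplitDefs

set_option autoImplicit false

namespace Crest.Agent.EG
open Finset

variable {V : Type} [DecidableEq V]

private def spW (E : Finset (Sym2 V)) (u v : V) : ℕ := if s(u, v) ∈ E then 1 else 0

private theorem spW_comm (E : Finset (Sym2 V)) (u v : V) : spW E u v = spW E v u := by
  unfold spW
  rw [Sym2.eq_swap]

private theorem spW_le (E : Finset (Sym2 V)) (u v : V) : spW E u v ≤ 1 := by
  unfold spW
  split_ifs <;> simp

private theorem sp_dgIn (E : Finset (Sym2 V)) (W : Finset V) (v : V) :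
    dgIn E W v = ∑ x ∈ W, spW E v x := by
  rw [dgIn, Finset.card_filter]
  rfl

private theorem sp_eb (E : Finset (Sym2 V)) (A B : Finset V) :
    eb E A B = ∑ a ∈ A, ∑ b ∈ B, spW E a b := by
  rw [eb, Finset.card_filter, Finset.sum_product]
  rfl

private theorem sp_eb' (E : Finset (Sym2 V)) (A B : Finset V) :
    eb E A B = ∑ a ∈ A, dgIn E B a := by
  rw [sp_eb]
  exact Finset.sum_congr rfl fun a _ => (sp_dgIn E B a).symm

private theorem sp_eb_comm (E : Finset (Sym2 V)) (A B : Finset V) : eb E A B = eb E B A := by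
  rw [sp_eb, sp_eb, Finset.sum_comm]
  exact Finset.sum_congr rfl fun b _ => Finset.sum_congr rfl fun a _ => spW_comm E a b

private theorem sp_walk3 (E : Finset (Sym2 V)) (U : Finset V) (a b : V) :
    walk3 E U a b = ∑ x ∈ U, ∑ y ∈ U, spW E a x * spW E x y * spW E y b := by
  rw [walk3, Finset.card_filter, Finset.sum_product]
  refine Finset.sum_congr rfl fun x _ => Finset.sum_congr rfl fun y _ => ?_
  unfold spW
  by_cases h1 : s(a, x) ∈ E <;> by_cases h2 : s(x, y) ∈ E <;> by_cases h3 : s(y, b) ∈ E <;>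
    simp [h1, h2, h3]

private theorem sp_dgIn_split (E : Finset (Sym2 V)) (A U : Finset V) (h : A ⊆ U) (v : V) :
    dgIn E A v + dgIn E (U \ A) v = dgIn E U v := by
  rw [sp_dgIn, sp_dgIn, sp_dgIn, add_comm]
  exact Finset.sum_sdiff h

private theorem sp_dgIn_le (E : Finset (Sym2 V)) (A : Finset V) (v : V) : dgIn E A v ≤ A.card :=
  Finset.card_filter_le _ _

/-- lower bound for the number of walks -/
private theorem sp_lower (E : Finset (Sym2 V)) (S A B A' B' : Finset V) (hA : A' ⊆ S) (hB : B' ⊆ S) :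
    ∑ x ∈ A', ∑ y ∈ B', spW E x y * (dgIn E A x * dgIn E B y) ≤
      ∑ a ∈ A, ∑ b ∈ B, walk3 E S a b := by
  have h1 : ∑ a ∈ A, ∑ b ∈ B, walk3 E S a b =
      ∑ x ∈ S, ∑ y ∈ S, spW E x y * (dgIn E A x * dgIn E B y) := by
    calc ∑ a ∈ A, ∑ b ∈ B, walk3 E S a b
        = ∑ a ∈ A, ∑ b ∈ B, ∑ x ∈ S, ∑ y ∈ S, spW E a x * spW E x y * spW E y b := by
          refine Finset.sum_congr rfl fun a _ => Finset.sum_congr rfl fun b _ => sp_walk3 E S a b
      _ = ∑ x ∈ S, ∑ y ∈ S, ∑ a ∈ A, ∑ b ∈ B, spW E a x * spW E x y * spW E y b := by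
          calc _ = ∑ a ∈ A, ∑ x ∈ S, ∑ b ∈ B, ∑ y ∈ S, spW E a x * spW E x y * spW E y b :=
                Finset.sum_congr rfl fun a _ => Finset.sum_comm
            _ = ∑ x ∈ S, ∑ a ∈ A, ∑ b ∈ B, ∑ y ∈ S, spW E a x * spW E x y * spW E y b :=
                Finset.sum_comm
            _ = ∑ x ∈ S, ∑ a ∈ A, ∑ y ∈ S, ∑ b ∈ B, spW E a x * spW E x y * spW E y b :=
                Finset.sum_congr rfl fun x _ => Finset.sum_congr rfl fun a _ => Finset.sum_comm
            _ = _ := Finset.sum_congr rfl fun x _ => Finset.sum_comm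
      _ = _ := by
          refine Finset.sum_congr rfl fun x _ => Finset.sum_congr rfl fun y _ => ?_
          rw [sp_dgIn, sp_dgIn, Finset.sum_mul_sum, Finset.mul_sum]
          refine Finset.sum_congr rfl fun a _ => ?_
          rw [Finset.mul_sum]
          refine Finset.sum_congr rfl fun b _ => ?_
          rw [spW_comm E a x]
          ring
  rw [h1]
  calc _ ≤ ∑ x ∈ A', ∑ y ∈ S, spW E x y * (dgIn E A x * dgIn E B y) :=
        Finset.sum_le_sum fun x _ => Finset.sum_le_sum_of_subset hB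
    _ ≤ _ := Finset.sum_le_sum_of_subset hA

/-- upper bound for the number of walks from `A` to `U \ A` inside `U` -/
private theorem sp_upper (E : Finset (Sym2 V)) (U A : Finset V) (hA : A ⊆ U) :
    ∑ a ∈ A, ∑ b ∈ U \ A, walk3 E U a b ≤ 3 * (eb E A (U \ A) * (U.card * U.card)) := by
  set B := U \ A with hB
  have hBU : B ⊆ U := Finset.sdiff_subset
  have key : ∀ a ∈ A, ∀ b ∈ B, walk3 E U a b ≤
      U.card * ∑ x ∈ B, spW E a x + (∑ x ∈ A, ∑ y ∈ B, spW E x y) + U.card * ∑ y ∈ A, spW E y b := by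
    intro a _ b _
    rw [sp_walk3]
    have h1 : ∀ x ∈ U, ∀ y ∈ U, spW E a x * spW E x y * spW E y b ≤
        (if x ∈ B then spW E a x else 0) + (if x ∈ A then (if y ∈ B then spW E x y else 0) else 0) +
          (if y ∈ A then spW E y b else 0) := by
      intro x hx y hy
      have e1 := spW_le E a x
      have e2 := spW_le E x y
      have e3 := spW_le E y b
      by_cases hxB : x ∈ B
      · rw [if_pos hxB]
        calc spW E a x * spW E x y * spW E y b ≤ spW E a x * 1 * 1 := by gcongr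
          _ = spW E a x := by ring
          _ ≤ _ := by omega
      · have hxA : x ∈ A := by
          by_contra hxA
          exact hxB (Finset.mem_sdiff.2 ⟨hx, hxA⟩)
        by_cases hyB : y ∈ B
        · rw [if_pos hxA, if_pos hyB]
          calc spW E a x * spW E x y * spW E y b ≤ 1 * spW E x y * 1 := by gcongr
            _ = spW E x y := by ring
            _ ≤ _ := by omega
        · have hyA : y ∈ A := by
            by_contra hyA
            exact hyB (Finset.mem_sdiff.2 ⟨hy, hyA⟩)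
          rw [if_pos hyA]
          calc spW E a x * spW E x y * spW E y b ≤ 1 * 1 * spW E y b := by gcongr
            _ = spW E y b := by ring
            _ ≤ _ := by omega
    calc ∑ x ∈ U, ∑ y ∈ U, spW E a x * spW E x y * spW E y b
        ≤ ∑ x ∈ U, ∑ y ∈ U, ((if x ∈ B then spW E a x else 0) +
          (if x ∈ A then (if y ∈ B then spW E x y else 0) else 0) +
          (if y ∈ A then spW E y b else 0)) :=
          Finset.sum_le_sum fun x hx => Finset.sum_le_sum fun y hy => h1 x hx y hy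
      _ = U.card * ∑ x ∈ B, spW E a x + (∑ x ∈ A, ∑ y ∈ B, spW E x y) +
          U.card * ∑ y ∈ A, spW E y b := by
          simp only [Finset.sum_add_distrib]
          congr 1
          · congr 1
            · rw [Finset.sum_comm]
              rw [Finset.sum_const, smul_eq_mul]
              congr 1
              rw [← Finset.sum_filter]
              congr 1
              ext x
              simp only [Finset.mem_filter]
              exact ⟨fun h => h.2, fun h => ⟨hBU h, h⟩⟩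
            · have : ∀ x ∈ U, ∑ y ∈ U, (if x ∈ A then (if y ∈ B then spW E x y else 0) else 0) =
                  if x ∈ A then ∑ y ∈ B, spW E x y else 0 := by
                intro x _
                by_cases hx : x ∈ A
                · simp only [if_pos hx]
                  rw [← Finset.sum_filter]
                  congr 1
                  ext y
                  simp only [Finset.mem_filter]
                  exact ⟨fun h => h.2, fun h => ⟨hBU h, h⟩⟩
                · simp only [if_neg hx, Finset.sum_const_zero]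
              rw [Finset.sum_congr rfl this, ← Finset.sum_filter]
              congr 1
              ext x
              simp only [Finset.mem_filter]
              exact ⟨fun h => h.2, fun h => ⟨hA h, h⟩⟩
          · rw [Finset.sum_const, smul_eq_mul]
            congr 1
            rw [← Finset.sum_filter]
            congr 1
            ext y
            simp only [Finset.mem_filter]
            exact ⟨fun h => h.2, fun h => ⟨hA h, h⟩⟩
  have hAc : A.card ≤ U.card := Finset.card_le_card hA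
  have hBc : B.card ≤ U.card := Finset.card_le_card hBU
  calc ∑ a ∈ A, ∑ b ∈ B, walk3 E U a b
      ≤ ∑ a ∈ A, ∑ b ∈ B, (U.card * ∑ x ∈ B, spW E a x + (∑ x ∈ A, ∑ y ∈ B, spW E x y) +
          U.card * ∑ y ∈ A, spW E y b) :=
        Finset.sum_le_sum fun a ha => Finset.sum_le_sum fun b hb => key a ha b hb
    _ = B.card * U.card * eb E A B + A.card * B.card * eb E A B + A.card * U.card * eb E A B := by
        simp only [Finset.sum_add_distrib]
        congr 1
        · congr 1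
          · simp only [Finset.sum_const, smul_eq_mul]
            rw [sp_eb, Finset.mul_sum]
            exact Finset.sum_congr rfl fun a _ => by ring
          · simp only [Finset.sum_const, smul_eq_mul]
            rw [sp_eb]
            ring
        · simp only [Finset.sum_const, smul_eq_mul]
          rw [sp_eb E A B, Finset.sum_comm, ← Finset.mul_sum]
          ring
    _ ≤ U.card * U.card * eb E A B + U.card * U.card * eb E A B + U.card * U.card * eb E A B := by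
        gcongr
    _ = _ := by ring

set_option maxHeartbeats 2000000 in
private theorem sp_half (M m : ℕ) (hM : 1 ≤ M) (hm : 6 ≤ m) (E : Finset (Sym2 V)) (S U : Finset V)
    (hCD : CD M E S) (hk : (2 * M * m) ^ 100 ≤ S.card) (hU : U ⊆ S)
    (hUc : m * U.card ≤ 2 * S.card) (hdeg : ∀ v ∈ S, S.card ≤ 4 * M * m * dgIn E U v)
    (hw : ∑ a ∈ S, ∑ b ∈ S, |(walk3 E U a b : ℝ) - (walk3 E S a b : ℝ) / m ^ 2| ≤
      4 * m * (S.card : ℝ) ^ 3 * Real.sqrt S.card) (A : Finset V) (hA : A ⊆ U)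
    (hAB : A.card ≤ (U \ A).card) :
    A.card * (U \ A).card ≤ 2 ^ 14 * M ^ 4 * m ^ 5 * eb E A (U \ A) := by
  obtain ⟨B, hB⟩ : ∃ B, B = U \ A := ⟨_, rfl⟩
  rw [← hB] at hAB ⊢
  have hBU : B ⊆ U := hB ▸ Finset.sdiff_subset
  -- real numbers
  obtain ⟨K, hK⟩ : ∃ K : ℝ, K = (S.card : ℝ) := ⟨_, rfl⟩
  obtain ⟨Mr, hMr⟩ : ∃ x : ℝ, x = (M : ℝ) := ⟨_, rfl⟩
  obtain ⟨mr, hmr⟩ : ∃ x : ℝ, x = (m : ℝ) := ⟨_, rfl⟩
  obtain ⟨α, hα⟩ : ∃ x : ℝ, x = (A.card : ℝ) := ⟨_, rfl⟩
  obtain ⟨β, hβ⟩ : ∃ x : ℝ, x = (B.card : ℝ) := ⟨_, rfl⟩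
  obtain ⟨u, hu⟩ : ∃ x : ℝ, x = (U.card : ℝ) := ⟨_, rfl⟩
  obtain ⟨e, he⟩ : ∃ x : ℝ, x = (eb E A B : ℝ) := ⟨_, rfl⟩
  have hMr1 : 1 ≤ Mr := by rw [hMr]; exact_mod_cast hM
  have hmr6 : 6 ≤ mr := by rw [hmr]; exact_mod_cast hm
  have he0 : 0 ≤ e := by rw [he]; positivity
  have hα0 : 0 ≤ α := by rw [hα]; positivity
  have hβ0 : 0 ≤ β := by rw [hβ]; positivity
  have hu0 : 0 ≤ u := by rw [hu]; positivity
  have hαβ : α ≤ β := by rw [hα, hβ]; exact_mod_cast hAB
  have hsum : α + β = u := by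
    rw [hα, hβ, hu, hB]
    have := Finset.card_sdiff_add_card_eq_card hA
    rw [← this]; push_cast; ring
  have hK1 : (2 * Mr * mr) ^ 100 ≤ K := by
    rw [hMr, hmr, hK]; exact_mod_cast hk
  have hKpos : 0 < K := lt_of_lt_of_le (by positivity) hK1
  obtain ⟨d, hd⟩ : ∃ d : ℝ, d = K / (4 * Mr * mr) := ⟨_, rfl⟩
  have hKd : K = 4 * Mr * mr * d := by rw [hd]; field_simp
  have hdpos : 0 < d := by rw [hd]; positivity
  have hu8 : u ≤ 8 * Mr * d := by
    have h1 : mr * u ≤ 2 * K := by rw [hmr, hu, hK]; exact_mod_cast hUc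
    rw [hKd] at h1
    have h2 : mr * u ≤ mr * (8 * Mr * d) := by nlinarith
    exact le_of_mul_le_mul_left h2 (by linarith)
  have hdeg' : ∀ v ∈ S, d ≤ (dgIn E A v : ℝ) + (dgIn E B v : ℝ) := by
    intro v hv
    have h1 := hdeg v hv
    rw [← sp_dgIn_split E A U hA v, ← hB] at h1
    have h2 : K ≤ 4 * Mr * mr * ((dgIn E A v : ℝ) + (dgIn E B v : ℝ)) := by
      rw [hK, hMr, hmr]; exact_mod_cast h1
    rw [hKd] at h2
    exact le_of_mul_le_mul_left h2 (by positivity)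
  -- it suffices to bound
  have hMM : 32 * Mr ≤ 2 ^ 14 * Mr ^ 4 * mr ^ 5 := by
    have h1 : Mr ≤ Mr ^ 4 := le_self_pow₀ hMr1 (by norm_num)
    have h2 : 1 ≤ mr ^ 5 := one_le_pow₀ (by linarith)
    have h3 : Mr ≤ Mr ^ 4 * mr ^ 5 := by
      calc Mr ≤ Mr ^ 4 * 1 := by linarith
        _ ≤ Mr ^ 4 * mr ^ 5 := by gcongr
    nlinarith
  suffices hfin : α * β ≤ 2 ^ 14 * Mr ^ 4 * mr ^ 5 * e by
    rw [hα, hβ, hMr, hmr, he] at hfin
    exact_mod_cast hfin
  have hfin1 : α * d ≤ 4 * e → α * β ≤ 2 ^ 14 * Mr ^ 4 * mr ^ 5 * e := by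
    intro h
    calc α * β ≤ α * (8 * Mr * d) := by gcongr; linarith
      _ = 8 * Mr * (α * d) := by ring
      _ ≤ 8 * Mr * (4 * e) := by gcongr
      _ = 32 * Mr * e := by ring
      _ ≤ _ := by gcongr
  have hebA : e = ∑ a ∈ A, (dgIn E B a : ℝ) := by
    rw [he, sp_eb']; push_cast; rfl
  have hebB : e = ∑ b ∈ B, (dgIn E A b : ℝ) := by
    rw [he, sp_eb_comm, sp_eb']; push_cast; rfl
  by_cases hc1 : 2 * α < d
  · apply hfin1
    have h1 : ∀ a ∈ A, d / 2 ≤ (dgIn E B a : ℝ) := by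
      intro a ha
      have h2 := hdeg' a (hU (hA ha))
      have h3 : (dgIn E A a : ℝ) ≤ α := by rw [hα]; exact_mod_cast sp_dgIn_le E A a
      linarith
    have h2 : α * (d / 2) ≤ e := by
      rw [hebA, hα, ← nsmul_eq_mul]
      exact Finset.card_nsmul_le_sum A _ _ h1
    nlinarith
  rw [not_lt] at hc1
  obtain ⟨As, hAs⟩ : ∃ As, As = S.filter (fun x => dgIn E B x ≤ dgIn E A x) := ⟨_, rfl⟩
  obtain ⟨Bs, hBs⟩ : ∃ Bs, Bs = S \ As := ⟨_, rfl⟩
  have hAsS : As ⊆ S := hAs ▸ Finset.filter_subset _ _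
  have hBsS : Bs ⊆ S := hBs ▸ Finset.sdiff_subset
  have hdA : ∀ x ∈ As, d / 2 ≤ (dgIn E A x : ℝ) := by
    intro x hx
    have h1 := hdeg' x (hAsS hx)
    rw [hAs, Finset.mem_filter] at hx
    have h2 : (dgIn E B x : ℝ) ≤ (dgIn E A x : ℝ) := by exact_mod_cast hx.2
    linarith
  have hdB : ∀ x ∈ Bs, d / 2 ≤ (dgIn E B x : ℝ) := by
    intro x hx
    have h1 := hdeg' x (hBsS hx)
    rw [hBs, hAs, Finset.mem_sdiff, Finset.mem_filter] at hx
    have h2 : (dgIn E A x : ℝ) ≤ (dgIn E B x : ℝ) := by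
      have h3 : ¬ (dgIn E B x ≤ dgIn E A x) := fun h => hx.2 ⟨hx.1, h⟩
      exact_mod_cast (not_le.1 h3).le
    linarith
  by_cases hc2 : α ≤ 2 * ((A ∩ Bs).card : ℝ)
  · apply hfin1
    have h2 : ((A ∩ Bs).card : ℝ) * (d / 2) ≤ e := by
      rw [hebA, ← nsmul_eq_mul]
      calc _ ≤ ∑ a ∈ A ∩ Bs, (dgIn E B a : ℝ) :=
            Finset.card_nsmul_le_sum _ _ _ fun x hx => hdB x (Finset.mem_inter.1 hx).2
        _ ≤ _ := Finset.sum_le_sum_of_subset_of_nonneg Finset.inter_subset_left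
            fun _ _ _ => by positivity
    nlinarith
  by_cases hc3 : β ≤ 2 * ((B ∩ As).card : ℝ)
  · apply hfin1
    have h2 : ((B ∩ As).card : ℝ) * (d / 2) ≤ e := by
      rw [hebB, ← nsmul_eq_mul]
      calc _ ≤ ∑ a ∈ B ∩ As, (dgIn E A a : ℝ) :=
            Finset.card_nsmul_le_sum _ _ _ fun x hx => hdA x (Finset.mem_inter.1 hx).2
        _ ≤ _ := Finset.sum_le_sum_of_subset_of_nonneg Finset.inter_subset_left
            fun _ _ _ => by positivity
    nlinarith
  rw [not_le] at hc2 hc3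
  -- main case
  obtain ⟨p, hp⟩ : ∃ x : ℝ, x = (As.card : ℝ) := ⟨_, rfl⟩
  obtain ⟨q, hq⟩ : ∃ x : ℝ, x = (Bs.card : ℝ) := ⟨_, rfl⟩
  have hpq : p + q = K := by
    rw [hp, hq, hK, hBs]
    have := Finset.card_sdiff_add_card_eq_card hAsS
    rw [← this]; push_cast; ring
  have hAsplit : (A ∩ As).card + (A ∩ Bs).card = A.card := by
    rw [← Finset.card_union_of_disjoint]
    · congr 1
      ext x
      rw [hBs]
      simp only [Finset.mem_union, Finset.mem_inter, Finset.mem_sdiff]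
      constructor
      · rintro (h | h) <;> exact h.1
      · intro h
        by_cases hx : x ∈ As
        · exact Or.inl ⟨h, hx⟩
        · exact Or.inr ⟨h, hU (hA h), hx⟩
    · rw [hBs, Finset.disjoint_left]
      intro x hx hx'
      simp only [Finset.mem_inter, Finset.mem_sdiff] at hx hx'
      exact hx'.2.2 hx.2
  have hBsplit : (B ∩ As).card + (B ∩ Bs).card = B.card := by
    rw [← Finset.card_union_of_disjoint]
    · congr 1
      ext x
      rw [hBs]
      simp only [Finset.mem_union, Finset.mem_inter, Finset.mem_sdiff]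
      constructor
      · rintro (h | h) <;> exact h.1
      · intro h
        by_cases hx : x ∈ As
        · exact Or.inl ⟨h, hx⟩
        · exact Or.inr ⟨h, hU (hBU h), hx⟩
    · rw [hBs, Finset.disjoint_left]
      intro x hx hx'
      simp only [Finset.mem_inter, Finset.mem_sdiff] at hx hx'
      exact hx'.2.2 hx.2
  have hpd : d / 4 ≤ p := by
    have h1 : ((A ∩ As).card : ℝ) ≤ p := by
      rw [hp]; exact_mod_cast Finset.card_le_card Finset.inter_subset_right
    have h2 : ((A ∩ As).card : ℝ) + ((A ∩ Bs).card : ℝ) = α := by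
      rw [hα, ← hAsplit]; push_cast; ring
    linarith
  have hqd : d / 4 ≤ q := by
    have h1 : ((B ∩ Bs).card : ℝ) ≤ q := by
      rw [hq]; exact_mod_cast Finset.card_le_card Finset.inter_subset_right
    have h2 : ((B ∩ As).card : ℝ) + ((B ∩ Bs).card : ℝ) = β := by
      rw [hβ, ← hBsplit]; push_cast; ring
    linarith
  have hp0 : 0 ≤ p := by linarith
  have hq0 : 0 ≤ q := by linarith
  have hpqK : K * d / 8 ≤ p * q := by
    rcases le_total p q with h | h
    · have h1 : K / 2 ≤ q := by linarith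
      calc K * d / 8 = d / 4 * (K / 2) := by ring
        _ ≤ p * q := by gcongr
    · have h1 : K / 2 ≤ p := by linarith
      calc K * d / 8 = K / 2 * (d / 4) := by ring
        _ ≤ p * q := by gcongr
  have hCD' : p * q ≤ Mr * (eb E As Bs : ℝ) := by
    have := hCD As hAsS
    rw [← hBs] at this
    rw [hp, hq, hMr]; exact_mod_cast this
  have hebS : K * d / 8 ≤ Mr * (eb E As Bs : ℝ) := hpqK.trans hCD'
  -- walks in S
  obtain ⟨WS, hWS⟩ : ∃ x : ℝ, x = ((∑ a ∈ A, ∑ b ∈ B, walk3 E S a b : ℕ) : ℝ) := ⟨_, rfl⟩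
  obtain ⟨WU, hWU⟩ : ∃ x : ℝ, x = ((∑ a ∈ A, ∑ b ∈ B, walk3 E U a b : ℕ) : ℝ) := ⟨_, rfl⟩
  have hWS1 : (eb E As Bs : ℝ) * (d / 2 * (d / 2)) ≤ WS := by
    have h1 := sp_lower E S A B As Bs hAsS hBsS
    have h2 : ((∑ x ∈ As, ∑ y ∈ Bs, spW E x y * (dgIn E A x * dgIn E B y) : ℕ) : ℝ) ≤ WS := by
      rw [hWS]; exact_mod_cast h1
    refine le_trans ?_ h2
    rw [sp_eb]
    push_cast
    rw [Finset.sum_mul]
    refine Finset.sum_le_sum fun x hx => ?_
    rw [Finset.sum_mul]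
    refine Finset.sum_le_sum fun y hy => ?_
    have h3 := hdA x hx
    have h4 := hdB y hy
    gcongr
  have hWS2 : K * d ^ 3 / (32 * Mr) ≤ WS := by
    have h1 : K * d / 8 / Mr ≤ (eb E As Bs : ℝ) := by
      rw [div_le_iff₀ (by linarith)]
      linarith
    calc K * d ^ 3 / (32 * Mr) = (K * d / 8 / Mr) * (d / 2 * (d / 2)) := by
          field_simp; ring
      _ ≤ (eb E As Bs : ℝ) * (d / 2 * (d / 2)) := by gcongr
      _ ≤ WS := hWS1
  have hWU1 : WU ≤ 3 * (e * (u * u)) := by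
    have h1 := sp_upper E U A hA
    rw [← hB] at h1
    rw [hWU, he, hu]
    exact_mod_cast h1
  have hdiff : WS / mr ^ 2 - 4 * mr * K ^ 3 * Real.sqrt K ≤ WU := by
    have h1 : ∑ a ∈ A, ∑ b ∈ B, |(walk3 E U a b : ℝ) - (walk3 E S a b : ℝ) / m ^ 2| ≤
        4 * mr * K ^ 3 * Real.sqrt K := by
      rw [hmr, hK]
      refine le_trans ?_ hw
      calc _ ≤ ∑ a ∈ A, ∑ b ∈ S, |(walk3 E U a b : ℝ) - (walk3 E S a b : ℝ) / m ^ 2| :=
            Finset.sum_le_sum fun a _ => Finset.sum_le_sum_of_subset_of_nonneg (hBU.trans hU)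
              fun _ _ _ => abs_nonneg _
        _ ≤ _ := Finset.sum_le_sum_of_subset_of_nonneg (hA.trans hU)
              fun _ _ _ => Finset.sum_nonneg fun _ _ => abs_nonneg _
    have h2 : WS / mr ^ 2 - WU ≤
        ∑ a ∈ A, ∑ b ∈ B, |(walk3 E U a b : ℝ) - (walk3 E S a b : ℝ) / m ^ 2| := by
      rw [hWS, hWU, hmr]
      push_cast
      rw [Finset.sum_div, ← Finset.sum_sub_distrib]
      refine Finset.sum_le_sum fun a _ => ?_
      rw [Finset.sum_div, ← Finset.sum_sub_distrib]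
      refine Finset.sum_le_sum fun b _ => ?_
      rw [abs_sub_comm]
      exact le_abs_self _
    linarith
  -- the error term
  have hsq : Real.sqrt K * Real.sqrt K = K := Real.mul_self_sqrt hKpos.le
  have hs50 : (2 * Mr * mr) ^ 50 ≤ Real.sqrt K := by
    apply Real.le_sqrt_of_sq_le
    rw [← pow_mul]
    exact hK1
  have hs : 16384 * Mr ^ 4 * mr ^ 6 ≤ Real.sqrt K := by
    refine le_trans ?_ hs50
    have h1 : (1:ℝ) ≤ Mr := hMr1
    have h2 : (1:ℝ) ≤ mr := by linarith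
    calc (16384:ℝ) * Mr ^ 4 * mr ^ 6 = 2 ^ 14 * Mr ^ 4 * mr ^ 6 := by norm_num
      _ ≤ 2 ^ 50 * Mr ^ 50 * mr ^ 50 := by
          gcongr <;> norm_num
      _ = _ := by ring
  have herr : 4 * mr * K ^ 3 * Real.sqrt K ≤ K * d ^ 3 / (64 * Mr * mr ^ 2) := by
    have h1 : K * d ^ 3 / (64 * Mr * mr ^ 2) = K ^ 4 / (4096 * Mr ^ 4 * mr ^ 5) := by
      rw [hd]; field_simp; ring
    rw [h1, le_div_iff₀ (by positivity)]
    calc 4 * mr * K ^ 3 * Real.sqrt K * (4096 * Mr ^ 4 * mr ^ 5)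
        = K ^ 3 * (Real.sqrt K * (16384 * Mr ^ 4 * mr ^ 6)) := by ring
      _ ≤ K ^ 3 * (Real.sqrt K * Real.sqrt K) := by gcongr
      _ = K ^ 4 := by rw [hsq]; ring
  have hWUlow : K * d ^ 3 / (64 * Mr * mr ^ 2) ≤ WU := by
    have h1 : K * d ^ 3 / (32 * Mr) / mr ^ 2 ≤ WS / mr ^ 2 := by gcongr
    have h2 : K * d ^ 3 / (32 * Mr) / mr ^ 2 = 2 * (K * d ^ 3 / (64 * Mr * mr ^ 2)) := by
      field_simp; ring
    linarith
  have h3 : K * d ^ 3 / (64 * Mr * mr ^ 2) ≤ 3 * (e * (8 * Mr * d * (8 * Mr * d))) :=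
    hWUlow.trans (hWU1.trans (by gcongr))
  have h4 : d ^ 2 ≤ 3072 * Mr ^ 2 * mr * e := by
    have h5 : K * d ^ 3 / (64 * Mr * mr ^ 2) = d ^ 2 * (d ^ 2 / (16 * mr)) := by
      rw [hKd]; field_simp; ring
    have h6 : 3 * (e * (8 * Mr * d * (8 * Mr * d))) = d ^ 2 * (192 * Mr ^ 2 * e) := by ring
    rw [h5, h6] at h3
    have h7 := le_of_mul_le_mul_left h3 (by positivity)
    rw [div_le_iff₀ (by positivity)] at h7
    linarith
  have h5 : α * β ≤ 16 * Mr ^ 2 * d ^ 2 := by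
    have h6 : α * β ≤ (8 * Mr * d) ^ 2 / 4 := by
      have h7 : α * β ≤ u ^ 2 / 4 := by rw [← hsum]; nlinarith [sq_nonneg (α - β)]
      refine h7.trans ?_
      gcongr
    calc α * β ≤ (8 * Mr * d) ^ 2 / 4 := h6
      _ = _ := by ring
  calc α * β ≤ 16 * Mr ^ 2 * d ^ 2 := h5
    _ ≤ 16 * Mr ^ 2 * (3072 * Mr ^ 2 * mr * e) := by gcongr
    _ = 2 ^ 14 * Mr ^ 4 * (3 * mr) * e := by ring
    _ ≤ 2 ^ 14 * Mr ^ 4 * mr ^ 5 * e := by
        gcongr
        calc 3 * mr ≤ 6 ^ 4 * mr := by nlinarith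
          _ ≤ mr ^ 4 * mr := by gcongr
          _ = mr ^ 5 := by ring

/-- (C1) DETERMINISTIC PART.  Notation `k = |S|`, `d0 = k/(4Mm)` (real), `e(A,B) = eb E A B`.
Let `A ⊆ U`, `B = U \ A`; want `|A||B| ≤ M1 e(A,B)` with `M1 = 2^14 M^4 m^5`; by symmetry (`eb E A B = eb E B A`) assume
`|A| ≤ |B|`, `A` nonempty.  `|U| ≤ 2k/m`.  For `x ∈ S` write `deg_A(x) = dgIn E A x`; `deg_A + deg_B = deg_U ≥ d0`.
 * `2|A| < d0`: every `a ∈ A` has `≥ d0 - |A| ≥ d0/2` neighbours in `B`: `e(A,B) ≥ |A| d0/2`, and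
   `|A||B| ≤ |A| 2k/m = 16 M |A| d0/2`.
 * `2|A| ≥ d0`.  `A* = {x ∈ S : deg_A(x) ≥ deg_B(x)}` (so `deg_A(x) ≥ d0/2` there), `B* = S \ A*` (`deg_B(x) ≥ d0/2`).
   If `2|A ∩ B*| ≥ |A|`: `e(A,B) ≥ (|A|/2)(d0/2)` and `|A||B| ≤ |A| 2k/m = 32 M |A| d0/4`.
   If `2|B ∩ A*| ≥ |B|`: `e(A,B) ≥ (|B|/2)(d0/2) ≥ |A|d0/4`, same.
   Otherwise `|A*| ≥ |A ∩ A*| ≥ |A|/2 ≥ d0/4` and `|B*| ≥ |B|/2 ≥ d0/4`; `|A*| + |B*| = k` so `|A*||B*| ≥ (d0/4)(k/2)`, and
   `CD` gives `eb E A* B* ≥ d0 k/(8M)`.  Every pair `(x,y) ∈ A* × B*` with `xy ∈ E` gives `≥ (d0/2)^2` pairs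
   `(a,b) ∈ A × B` with `a ~ x ~ y ~ b`, so `∑_{a∈A,b∈B} walk3 E S a b ≥ d0^3 k/(32 M)`, and by `hw`
   `∑_{a∈A,b∈B} walk3 E U a b ≥ d0^3 k/(32 M m^2) - 4 m k^{7/2} ≥ d0^3 k/(64 M m^2)`
   (because `d0^3 k/(64Mm^2) = k^4/(2^12 M^4 m^5)` and `k^{1/2} ≥ (2Mm)^50 ≥ 2^14 M^4 m^6`).
   But each walk `a x y b` inside `U` from `A` to `B` has one of the steps `(a,x)`, `(x,y)`, `(y,b)` in `A × B`, the
   other two vertices have at most `|U|^2 ≤ k^2` possibilities (in each of the three cases), so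
   `∑ walk3 E U a b ≤ 3 e(A,B) k^2`.  Hence `e(A,B) ≥ d0^3/(192 M m^2 k)`, `|A||B| ≤ |U|^2/4 ≤ k^2/m^2`,
   `|A||B| ≤ 192 M k^3/d0^3 e(A,B) = 192·64 M^4 m^3 e(A,B) ≤ 2^14 M^4 m^5 e(A,B)`. -/
theorem splitDet (M m : ℕ) (hM : 1 ≤ M) (hm : 6 ≤ m) (E : Finset (Sym2 V)) (S U : Finset V)
    (hS : Supp E S) (hCD : CD M E S) (hk : (2 * M * m) ^ 100 ≤ S.card) (hU : U ⊆ S)
    (hUc : m * U.card ≤ 2 * S.card) (hdeg : ∀ v ∈ S, S.card ≤ 4 * M * m * dgIn E U v)
    (hw : ∑ a ∈ S, ∑ b ∈ S, |(walk3 E U a b : ℝ) - (walk3 E S a b : ℝ) / m ^ 2| ≤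
      4 * m * (S.card : ℝ) ^ 3 * Real.sqrt S.card) :
    CD (2 ^ 14 * M ^ 4 * m ^ 5) E U := by
  intro A hA
  rcases le_total A.card (U \ A).card with h | h
  · exact sp_half M m hM hm E S U hCD hk hU hUc hdeg hw A hA h
  · have h1 : U \ (U \ A) = A := Finset.sdiff_sdiff_eq_self hA
    have h2 := sp_half M m hM hm E S U hCD hk hU hUc hdeg hw (U \ A) Finset.sdiff_subset
      (by rw [h1]; exact h)
    rw [h1, sp_eb_comm] at h2
    rw [mul_comm]
    exact h2

end Crest.Agent.EG
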