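import Crest.Agent.EG.SplitDefs

set_option autoImplicit false

namespace Crest.Agent.EG
open Finset

private theorem sv_gen (X : Type) [Fintype X] [DecidableEq X] (m : ℕ) (A : Finset X)
    (g : Fin m → ℝ) (c : ℝ) (hg : ∑ j, g j = m * c) :
    ∑ φ : X → Fin m, ∏ x ∈ A, g (φ x) = (m : ℝ) ^ (Fintype.card X) * c ^ A.card := by
  classical
  have h1 : ∀ φ : X → Fin m, ∏ x ∈ A, g (φ x) = ∏ x : X, (if x ∈ A then g (φ x) else 1) := by
    intro φ
    rw [Finset.prod_ite_mem, Finset.univ_inter]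
  have h2 : ∑ φ : X → Fin m, ∏ x : X, (if x ∈ A then g (φ x) else 1)
      = ∏ x : X, ∑ j : Fin m, (if x ∈ A then g j else 1) := by
    have := Finset.prod_univ_sum (fun _ : X => (Finset.univ : Finset (Fin m)))
      (fun x j => if x ∈ A then g j else (1 : ℝ))
    rw [this, Fintype.piFinset_univ]
  have h3 : ∀ x : X, ∑ j : Fin m, (if x ∈ A then g j else 1) = (m : ℝ) * (if x ∈ A then c else 1) := by
    intro x
    by_cases hx : x ∈ A
    · simp [hx, hg]
    · simp [hx]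
  rw [Finset.sum_congr rfl (fun φ _ => h1 φ), h2, Finset.prod_congr rfl (fun x _ => h3 x),
    Finset.prod_mul_distrib, Finset.prod_const, Finset.prod_ite_mem, Finset.univ_inter, Finset.prod_const,
    Finset.card_univ]

private theorem sv_cyl (X : Type) [Fintype X] [DecidableEq X] (m : ℕ) (hm : 1 ≤ m) (i : Fin m) (T : Finset X) :
    ∑ φ : X → Fin m, (if ∀ x ∈ T, φ x = i then (1 : ℝ) else 0) =
      (m : ℝ) ^ (Fintype.card X) * (1 / m) ^ T.card := by
  classical
  have hm0 : (m : ℝ) ≠ 0 := by positivity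
  rw [← sv_gen X m T (fun j => if j = i then 1 else 0) (1 / m) (by simp [hm0])]
  refine Finset.sum_congr rfl (fun φ _ => ?_)
  rw [Finset.prod_boole]
  simp

private theorem sv_share (X : Type) [Fintype X] [DecidableEq X] (P : Finset (X × X)) :
    (((P ×ˢ P).filter (fun q => q.1.1 = q.2.1 ∨ q.1.1 = q.2.2 ∨ q.1.2 = q.2.1 ∨ q.1.2 = q.2.2)).card : ℝ)
      ≤ 4 * (Fintype.card X : ℝ) ^ 3 := by
  classical
  have hsub : (P ×ˢ P).filter (fun q => q.1.1 = q.2.1 ∨ q.1.1 = q.2.2 ∨ q.1.2 = q.2.1 ∨ q.1.2 = q.2.2)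
      ⊆ (Finset.univ : Finset (Fin 4 × (X × X × X))).image (fun r =>
        if r.1 = 0 then ((r.2.1, r.2.2.1), (r.2.1, r.2.2.2))
        else if r.1 = 1 then ((r.2.1, r.2.2.1), (r.2.2.2, r.2.1))
        else if r.1 = 2 then ((r.2.2.1, r.2.1), (r.2.1, r.2.2.2))
        else ((r.2.2.1, r.2.1), (r.2.2.2, r.2.1))) := by
    intro q hq
    rw [Finset.mem_filter] at hq
    obtain ⟨⟨a, b⟩, ⟨c, d⟩⟩ := q
    rw [Finset.mem_image]
    rcases hq.2 with h | h | h | h
    · simp only at h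
      subst h
      exact ⟨(0, (a, b, d)), Finset.mem_univ _, by simp⟩
    · simp only at h
      subst h
      exact ⟨(1, (a, b, c)), Finset.mem_univ _, by simp⟩
    · simp only at h
      subst h
      exact ⟨(2, (b, a, d)), Finset.mem_univ _, by simp⟩
    · simp only at h
      subst h
      exact ⟨(3, (b, a, c)), Finset.mem_univ _, by simp⟩
  have hc := (Finset.card_le_card hsub).trans Finset.card_image_le
  have hc2 : (Finset.univ : Finset (Fin 4 × (X × X × X))).card = 4 * (Fintype.card X) ^ 3 := by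
    rw [Finset.card_univ, Fintype.card_prod, Fintype.card_prod, Fintype.card_prod, Fintype.card_fin]
    ring
  rw [hc2] at hc
  exact_mod_cast hc

/-- (C2a) SECOND MOMENT.  `X` a finite type (the ground set), `P ⊆ X × X` a set of pairs with `x ≠ y`, colouring
`φ : X → Fin m` uniform.  `N(φ) = #{(x,y) ∈ P : φ x = i, φ y = i}`.  Then `∑_φ (N(φ) - |P|/m^2)^2 ≤ m^|X| * 4 |X|^3`.
PROOF.  `∑_φ N(φ) = m^{|X|-2} |P|` and `∑_φ N(φ)^2 = ∑_{(p,p') ∈ P×P} #{φ : φ = i on p ∪ p'}`, which is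
`m^{|X|-4}` if `p, p'` are disjoint and `≤ m^{|X|}` otherwise; so
`∑_φ (N - |P|/m^2)^2 = m^{|X|} ∑_{(p,p')} (Pr(p,p') - m^{-4}) ≤ m^{|X|} #{(p,p') : p, p' share an element}` and
the number of quadruples `(x,y,x',y')` with `x = x'` or `x = y'` or `y = x'` or `y = y'` is `≤ 4|X|^3`. -/
theorem secondMoment (X : Type) [Fintype X] [DecidableEq X] (m : ℕ) (hm : 1 ≤ m) (i : Fin m)
    (P : Finset (X × X)) (hP : ∀ p ∈ P, p.1 ≠ p.2) :
    ∑ φ : X → Fin m, (((P.filter (fun p => φ p.1 = i ∧ φ p.2 = i)).card : ℝ) - (P.card : ℝ) / m ^ 2) ^ 2 ≤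
      (m : ℝ) ^ (Fintype.card X) * (4 * (Fintype.card X : ℝ) ^ 3) := by
  classical
  have hm0 : (0 : ℝ) < m := by exact_mod_cast hm
  have hm1 : (1 : ℝ) ≤ m := by exact_mod_cast hm
  set I : (X → Fin m) → (X × X) → ℝ := fun φ p => if (φ p.1 = i ∧ φ p.2 = i) then 1 else 0 with hI
  have hN : ∀ φ : X → Fin m,
      (((P.filter (fun p => φ p.1 = i ∧ φ p.2 = i)).card : ℝ) - (P.card : ℝ) / m ^ 2) ^ 2
        = ∑ q ∈ P ×ˢ P, (I φ q.1 - 1 / m ^ 2) * (I φ q.2 - 1 / m ^ 2) := by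
    intro φ
    have h1 : (((P.filter (fun p => φ p.1 = i ∧ φ p.2 = i)).card : ℝ) - (P.card : ℝ) / m ^ 2)
        = ∑ p ∈ P, (I φ p - 1 / m ^ 2) := by
      rw [Finset.sum_sub_distrib, Finset.sum_const, nsmul_eq_mul, hI]
      simp only [Finset.sum_boole]
      ring
    rw [h1, sq, Finset.sum_mul_sum, Finset.sum_product]
  rw [Finset.sum_congr rfl (fun φ _ => hN φ), Finset.sum_comm]
  have hcard : (Finset.univ : Finset (X → Fin m)).card = m ^ Fintype.card X := by
    rw [Finset.card_univ, Fintype.card_fun, Fintype.card_fin]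
  have hbound : ∀ q ∈ P ×ˢ P, ∑ φ : X → Fin m, (I φ q.1 - 1 / m ^ 2) * (I φ q.2 - 1 / m ^ 2)
      ≤ (if (q.1.1 = q.2.1 ∨ q.1.1 = q.2.2 ∨ q.1.2 = q.2.1 ∨ q.1.2 = q.2.2) then
          (m : ℝ) ^ (Fintype.card X) else 0) := by
    intro q hq
    rw [Finset.mem_product] at hq
    obtain ⟨hq1, hq2⟩ := hq
    have e1 := hP _ hq1
    have e2 := hP _ hq2
    split_ifs with hsh
    · -- trivial bound
      have : ∀ φ : X → Fin m, (I φ q.1 - 1 / m ^ 2) * (I φ q.2 - 1 / m ^ 2) ≤ 1 := by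
        intro φ
        have hb : ∀ p, |I φ p - 1 / m ^ 2| ≤ 1 := by
          intro p
          have hm2 : (1 : ℝ) / m ^ 2 ≤ 1 := by
            rw [div_le_one (by positivity)]
            nlinarith
          have hm3 : (0 : ℝ) ≤ 1 / m ^ 2 := by positivity
          rw [abs_le, hI]
          simp only
          split_ifs
          · constructor <;> linarith
          · constructor <;> linarith
        calc (I φ q.1 - 1 / m ^ 2) * (I φ q.2 - 1 / m ^ 2)
            ≤ |(I φ q.1 - 1 / m ^ 2) * (I φ q.2 - 1 / m ^ 2)| := le_abs_self _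
          _ = |I φ q.1 - 1 / m ^ 2| * |I φ q.2 - 1 / m ^ 2| := abs_mul _ _
          _ ≤ 1 * 1 := mul_le_mul (hb _) (hb _) (abs_nonneg _) zero_le_one
          _ = 1 := one_mul 1
      calc ∑ φ : X → Fin m, (I φ q.1 - 1 / m ^ 2) * (I φ q.2 - 1 / m ^ 2)
          ≤ ∑ φ : X → Fin m, (1 : ℝ) := Finset.sum_le_sum (fun φ _ => this φ)
        _ = (m : ℝ) ^ (Fintype.card X) := by
            rw [Finset.sum_const, hcard, nsmul_eq_mul, mul_one]
            push_cast
            ring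
    · -- disjoint case
      push Not at hsh
      obtain ⟨n1, n2, n3, n4⟩ := hsh
      have hexp : ∀ φ : X → Fin m, (I φ q.1 - 1 / m ^ 2) * (I φ q.2 - 1 / m ^ 2)
          = (if ∀ x ∈ ({q.1.1, q.1.2, q.2.1, q.2.2} : Finset X), φ x = i then (1 : ℝ) else 0)
            - 1 / m ^ 2 * (if ∀ x ∈ ({q.1.1, q.1.2} : Finset X), φ x = i then (1 : ℝ) else 0)
            - 1 / m ^ 2 * (if ∀ x ∈ ({q.2.1, q.2.2} : Finset X), φ x = i then (1 : ℝ) else 0)
            + 1 / m ^ 2 * (1 / m ^ 2) * (if ∀ x ∈ (∅ : Finset X), φ x = i then (1 : ℝ) else 0) := by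
        intro φ
        simp only [hI, Finset.mem_insert, Finset.mem_singleton, forall_eq_or_imp, forall_eq,
          Finset.notMem_empty, false_imp_iff, implies_true, if_true]
        by_cases h1 : φ q.1.1 = i <;> by_cases h2 : φ q.1.2 = i <;> by_cases h3 : φ q.2.1 = i <;>
          by_cases h4 : φ q.2.2 = i <;> simp [h1, h2, h3, h4] <;> ring
      rw [Finset.sum_congr rfl (fun φ _ => hexp φ), Finset.sum_add_distrib, Finset.sum_sub_distrib,
        Finset.sum_sub_distrib, ← Finset.mul_sum, ← Finset.mul_sum, ← Finset.mul_sum,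
        sv_cyl X m hm i, sv_cyl X m hm i, sv_cyl X m hm i, sv_cyl X m hm i]
      have c4 : ({q.1.1, q.1.2, q.2.1, q.2.2} : Finset X).card = 4 := by
        rw [Finset.card_insert_of_notMem, Finset.card_insert_of_notMem, Finset.card_insert_of_notMem,
          Finset.card_singleton]
        · simpa using e2
        · simp [n3, n4]
        · simp [n1, n2, e1]
      have c2 : ({q.1.1, q.1.2} : Finset X).card = 2 := Finset.card_pair e1
      have c2' : ({q.2.1, q.2.2} : Finset X).card = 2 := Finset.card_pair e2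
      rw [c4, c2, c2', Finset.card_empty]
      apply le_of_eq
      field_simp
      ring
  calc ∑ q ∈ P ×ˢ P, ∑ φ : X → Fin m, (I φ q.1 - 1 / m ^ 2) * (I φ q.2 - 1 / m ^ 2)
      ≤ ∑ q ∈ P ×ˢ P, (if (q.1.1 = q.2.1 ∨ q.1.1 = q.2.2 ∨ q.1.2 = q.2.1 ∨ q.1.2 = q.2.2) then
          (m : ℝ) ^ (Fintype.card X) else 0) := Finset.sum_le_sum hbound
    _ = (((P ×ˢ P).filter (fun q => q.1.1 = q.2.1 ∨ q.1.1 = q.2.2 ∨ q.1.2 = q.2.1 ∨ q.1.2 = q.2.2)).card : ℝ)
          * (m : ℝ) ^ (Fintype.card X) := by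
        rw [← Finset.sum_filter, Finset.sum_const, nsmul_eq_mul]
    _ ≤ (4 * (Fintype.card X : ℝ) ^ 3) * (m : ℝ) ^ (Fintype.card X) :=
        mul_le_mul_of_nonneg_right (sv_share X P) (by positivity)
    _ = (m : ℝ) ^ (Fintype.card X) * (4 * (Fintype.card X : ℝ) ^ 3) := mul_comm _ _

/-- (C2b) L1 BOUND by Cauchy–Schwarz: `∑_φ |Y| ≤ √(#φ) √(∑ Y^2) ≤ m^|X| * 2 |X|^{3/2}`. -/
theorem firstMoment (X : Type) [Fintype X] [DecidableEq X] (m : ℕ) (hm : 1 ≤ m) (i : Fin m)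
    (P : Finset (X × X)) (hP : ∀ p ∈ P, p.1 ≠ p.2) :
    ∑ φ : X → Fin m, |((P.filter (fun p => φ p.1 = i ∧ φ p.2 = i)).card : ℝ) - (P.card : ℝ) / m ^ 2| ≤
      (m : ℝ) ^ (Fintype.card X) * (2 * (Fintype.card X : ℝ) * Real.sqrt (Fintype.card X)) := by
  classical
  set Y : (X → Fin m) → ℝ := fun φ =>
    ((P.filter (fun p => φ p.1 = i ∧ φ p.2 = i)).card : ℝ) - (P.card : ℝ) / m ^ 2 with hY
  have h2 := secondMoment X m hm i P hP
  have hcard : (Finset.univ : Finset (X → Fin m)).card = m ^ Fintype.card X := by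
    rw [Finset.card_univ, Fintype.card_fun, Fintype.card_fin]
  have hcs : (∑ φ : X → Fin m, |Y φ|) ^ 2 ≤ (m : ℝ) ^ (Fintype.card X) * ∑ φ : X → Fin m, (Y φ) ^ 2 := by
    have := sq_sum_le_card_mul_sum_sq (s := (Finset.univ : Finset (X → Fin m))) (f := fun φ => |Y φ|)
    rw [hcard] at this
    simp only [sq_abs] at this
    push_cast at this
    exact this
  have hsq : (∑ φ : X → Fin m, |Y φ|) ^ 2 ≤
      ((m : ℝ) ^ (Fintype.card X) * (2 * (Fintype.card X : ℝ) * Real.sqrt (Fintype.card X))) ^ 2 := by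
    have hs : Real.sqrt (Fintype.card X) ^ 2 = (Fintype.card X : ℝ) := Real.sq_sqrt (by positivity)
    calc (∑ φ : X → Fin m, |Y φ|) ^ 2 ≤ (m : ℝ) ^ (Fintype.card X) * ∑ φ : X → Fin m, (Y φ) ^ 2 := hcs
      _ ≤ (m : ℝ) ^ (Fintype.card X) * ((m : ℝ) ^ (Fintype.card X) * (4 * (Fintype.card X : ℝ) ^ 3)) :=
          mul_le_mul_of_nonneg_left h2 (by positivity)
      _ = ((m : ℝ) ^ (Fintype.card X) * (2 * (Fintype.card X : ℝ) * Real.sqrt (Fintype.card X))) ^ 2 := by
          rw [mul_pow, mul_pow, hs]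
          ring
  exact (pow_le_pow_iff_left₀ (Finset.sum_nonneg (fun _ _ => abs_nonneg _)) (by positivity) two_ne_zero).mp hsq

/-- (C2c) EXPONENTIAL MOMENT: `∑_φ 2^{-#{x ∈ A : φ x = i}} = m^|X| (1 - 1/(2m))^|A|`.
PROOF.  `Finset.prod_univ_sum` / `Fintype.piFinset_univ`: the sum over `φ` of a product over `x` is the product of sums;
a factor `x ∈ A` gives `(m - 1) + 1/2 = m (1 - 1/(2m))`, others give `m`. -/
theorem expMoment (X : Type) [Fintype X] [DecidableEq X] (m : ℕ) (hm : 1 ≤ m) (i : Fin m) (A : Finset X) :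
    ∑ φ : X → Fin m, ((1 : ℝ) / 2) ^ ((A.filter (fun x => φ x = i)).card) =
      (m : ℝ) ^ (Fintype.card X) * (1 - 1 / (2 * m)) ^ A.card := by
  classical
  have hm0 : (m : ℝ) ≠ 0 := by positivity
  rw [← sv_gen X m A (fun j => if j = i then 1 / 2 else 1) (1 - 1 / (2 * m)) ?_]
  · refine Finset.sum_congr rfl (fun φ _ => ?_)
    rw [Finset.prod_ite, Finset.prod_const, Finset.prod_const_one, mul_one]
  · rw [Finset.sum_ite, Finset.sum_const, Finset.sum_const, Finset.filter_eq', Finset.filter_ne']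
    simp only [Finset.mem_univ, if_true, Finset.card_singleton, Finset.card_erase_of_mem, Finset.card_univ,
      Fintype.card_fin, nsmul_eq_mul]
    rw [Nat.cast_sub hm]
    field_simp
    push_cast
    ring

end Crest.Agent.EG
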