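import Crest.Agent.EG.CoreHubs
import Crest.Agent.EG.LongCyc

set_option autoImplicit false

namespace Crest.Agent.EG
open Finset

variable {V : Type} [DecidableEq V]

/-- (G) STAGE LEMMA.  PROOF.  `longCyc` gives `Ec`, `c`.  `peel` applied to `E \ Ec` gives `S0`.  `coreHubs` applied to
`E'' = (E \ Ec) ∩ S0.sym2` on `S0` gives `E1'`, `H`.  Put `a = |S0|`, `E1 = ((E \ Ec) \ S0.sym2) ∪ E1'`.
`|E1| ≤ d|S| + d|S0|/50 ≤ 2 d |S|`, `|E \ Ec| = |(E\Ec) \ S0.sym2| + |E''| ≤ d |S| + 3 l |S0|`.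
(`HubSys M k S0 H` implies `HubSys M k S H`.) -/
theorem stage (E : Finset (Sym2 V)) (S : Finset V) (hS : Supp E S) (l d k M : ℕ)
    (hl : 3 ≤ l) (hd : 1 ≤ d) (hk : 1 ≤ k) (hM : 1 ≤ M) (hMd : 300 * l ≤ M * d)
    (hkd : 100 * k ≤ d) :
    ∃ (Ec E1 : Finset (Sym2 V)) (c a : ℕ) (H : List (Hub V)),
      Dec Ec c ∧ c * l ≤ E.card ∧ HubSys M k S H ∧
      E = Ec ∪ E1 ∪ hubE H ∧ Disjoint Ec E1 ∧ Disjoint Ec (hubE H) ∧ Disjoint E1 (hubE H) ∧
      E1.card ≤ 2 * d * S.card ∧ a ≤ S.card ∧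
      (H.map (fun h => h.1.card)).sum ≤ 2 * a ∧ 24 * a ≤ 25 * (hubV H).card ∧
      (E \ Ec).card ≤ d * S.card + 3 * l * a := by
  obtain ⟨Ec, c, hEc, hDec, hcl, hno⟩ := longCyc E l (by omega)
  have hS' : Supp (E \ Ec) S :=
    ⟨fun e he => hS.1 (Finset.mem_sdiff.mp he).1, fun e he => hS.2 e (Finset.mem_sdiff.mp he).1⟩
  obtain ⟨S0, hS0, hdeg, hpeel⟩ := peel (E \ Ec) S hS' d
  have hSupp : Supp ((E \ Ec) ∩ S0.sym2) S0 :=
    ⟨Finset.inter_subset_right, fun e he => hS'.2 e (Finset.mem_inter.mp he).1⟩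
  obtain ⟨E1', H, hH, hE, hdis, hE1c, hsum, hcov, hcard⟩ :=
    coreHubs ((E \ Ec) ∩ S0.sym2) S0 hSupp l d k M hl hd hk hM hMd hkd hdeg
      (fun C hC hcyc => hno C (hC.trans Finset.inter_subset_left) hcyc)
  have hS0c : S0.card ≤ S.card := Finset.card_le_card hS0
  have hE1' : E1' ⊆ (E \ Ec) ∩ S0.sym2 := by rw [hE]; exact Finset.subset_union_left
  have hHE : hubE H ⊆ (E \ Ec) ∩ S0.sym2 := by rw [hE]; exact Finset.subset_union_right
  refine ⟨Ec, ((E \ Ec) \ S0.sym2) ∪ E1', c, S0.card, H, hDec, hcl.trans (Finset.card_le_card hEc), ?_, ?_,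
    ?_, ?_, ?_, ?_, hS0c, hsum, hcov, ?_⟩
  · exact ⟨fun h hh => ⟨(hH.1 h hh).1, (hH.1 h hh).2.1.trans hS0, (hH.1 h hh).2.2⟩, hH.2⟩
  · ext e
    have h1 : e ∈ (E \ Ec) ∩ S0.sym2 ↔ e ∈ E1' ∪ hubE H := by rw [← hE]
    simp only [Finset.mem_inter, Finset.mem_sdiff, Finset.mem_union] at h1 ⊢
    constructor
    · intro he
      by_cases h2 : e ∈ Ec
      · tauto
      · by_cases h3 : e ∈ S0.sym2
        · have := h1.mp ⟨⟨he, h2⟩, h3⟩; tauto
        · tauto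
    · rintro ((h2 | h2 | h2) | h2)
      · exact hEc h2
      · exact h2.1.1
      · exact (h1.mpr (Or.inl h2)).1.1
      · exact (h1.mpr (Or.inr h2)).1.1
  · rw [Finset.disjoint_left]
    intro e he he'
    rw [Finset.mem_union, Finset.mem_sdiff, Finset.mem_sdiff] at he'
    rcases he' with h | h
    · exact h.1.2 he
    · exact (Finset.mem_sdiff.mp (Finset.mem_inter.mp (hE1' h)).1).2 he
  · rw [Finset.disjoint_left]
    intro e he he'
    exact (Finset.mem_sdiff.mp (Finset.mem_inter.mp (hHE he')).1).2 he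
  · rw [Finset.disjoint_left]
    intro e he he'
    rw [Finset.mem_union] at he
    rcases he with h | h
    · exact (Finset.mem_sdiff.mp h).2 (Finset.mem_inter.mp (hHE he')).2
    · exact (Finset.disjoint_left.mp hdis) h he'
  · have h1 := Finset.card_union_le ((E \ Ec) \ S0.sym2) E1'
    have h2 : d * S0.card ≤ d * S.card := Nat.mul_le_mul_left d hS0c
    have h3 : 2 * d * S.card = d * S.card + d * S.card := by ring
    rw [h3]
    omega
  · have h1 : (E \ Ec).card = ((E \ Ec) \ S0.sym2).card + ((E \ Ec) ∩ S0.sym2).card := by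
      rw [Finset.card_sdiff_add_card_inter]
    omega

end Crest.Agent.EG
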