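import Crest.Agent.EG.LiftPath

set_option autoImplicit false

namespace Crest.Agent.EG
open Finset

variable {V : Type} [DecidableEq V]

omit [DecidableEq V] in
private theorem sl_pE_append (p : List V) (a b : V) :
    pE (p ++ [a, b]) = pE (p ++ [a]) ++ [s(a, b)] := by
  induction p with
  | nil => rfl
  | cons c p ih =>
    cases p with
    | nil => rfl
    | cons d p =>
      have h1 : pE (c :: d :: p ++ [a, b]) = s(c, d) :: pE (d :: p ++ [a, b]) := rfl
      have h2 : pE (c :: d :: p ++ [a]) = s(c, d) :: pE (d :: p ++ [a]) := rfl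
      rw [h1, h2, ih]
      rfl

private theorem sl_pE_close (x : V) (t : List V) (y : V) (hy : (x :: t).getLast? = some y) :
    (pE (x :: (t ++ [x]))).toFinset = insert s(y, x) (pE (x :: t)).toFinset := by
  obtain ⟨q, hq⟩ : ∃ q, x :: t = q ++ [y] := by
    rw [List.getLast?_eq_some_iff] at hy
    exact hy
  have h1 : x :: (t ++ [x]) = q ++ [y, x] := by
    rw [← List.cons_append, hq, List.append_assoc]
    rfl
  rw [h1, sl_pE_append, hq]
  ext e
  simp only [List.toFinset_append, Finset.mem_union, Finset.mem_insert, List.mem_toFinset,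
    List.mem_singleton]
  tauto

private theorem sl_dg_union_le (A B : Finset (Sym2 V)) (z : V) : dg (A ∪ B) z ≤ dg A z + dg B z := by
  unfold dg
  rw [Finset.filter_union]
  exact Finset.card_union_le _ _

private theorem sl_dg_sdiff (A K : Finset (Sym2 V)) (hK : K ⊆ A) (z : V) :
    dg (A \ K) z + dg K z = dg A z := by
  unfold dg
  rw [← Finset.card_union_of_disjoint, ← Finset.filter_union, Finset.sdiff_union_of_subset hK]
  exact Finset.disjoint_filter_filter Finset.sdiff_disjoint

/-- (H2) CLOSING A ROUTE BY AN `F`-EDGE AND UPDATING THE INVARIANT.  `K` = removed `F`-edges (contains the `F`-edges of the route and the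
closing edge `s(endV x R, x)`).
PROOF.  `liftPath` gives `P`, `X`.  `C = (pE (P ++ [x])).toFinset = X ∪ FE ∪ {s(endV x R, x)}`.  `IsCyc`: `P = x :: t`, need `2 ≤ t.length`:
if `2 ≤ R.length` clear.  If `R = [(some h, y)]` and `P` had only two vertices `x, y` then `pE P = {s(x,y)} ⊆ X ⊆ hubE H`, but
`s(y, x) ∈ Fc` and `Fc`, `hubE H` are disjoint.
`Inv`: `cnt`: `|(U ∪ X) ∩ h.2| ≤ |U ∩ h.2| + 8M countP(label h) ≤ |U ∩ h.2| + 8M ∑_{z∈L h} dg K z`, and
`dg (Fc \ K) z + dg K z = dg Fc z`.
`use` for `z ∈ h.1`: `z` on the route: `dg (X ∩ h.2) z ≤ countP(label h, end z) ≤ [z∈L h] dg K z + [z∉Sat]` by `h2`; if `z ∈ Sat` the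
`dg K z` cancels against `dg (Fc \ K) z`; if `z ∉ Sat` the old usage is `≤ sg M h - 1` and `dg Fc z ≤ dg F0 z`.
`z` not on the route: `0` if `z ∈ Sat`, else old usage `≤ sg M h - 1`, plus `2`. -/
theorem stepLem {M k T : ℕ} {S : Finset V} {F0 : Finset (Sym2 V)} {H : List (Hub V)}
    {L : Hub V → Finset V} {π : V → V} (cs : CS M k T S F0 H L π) {Fc U : Finset (Sym2 V)}
    (inv : Inv M F0 H L Fc U) (N : ℕ) (hN : 400 * M ^ 2 * (N + 1) ≤ k)
    (x : V) (R : Rt V) (hnd : (rtV x R).Nodup) (hv : ∀ st ∈ steps x R, VR Fc H st)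
    (hc : ∀ h, (∃ st ∈ steps x R, st.2.1 = some h) →
      (steps x R).countP (fun st => decide (¬ Disjoint (reach M U st) (h.1 \ Sat M U h))) ≤ N)
    (hlen : 2 ≤ R.length ∨ ∃ h y, R = [(some h, y)])
    (K : Finset (Sym2 V)) (hK : K ⊆ Fc) (hKR : insert s(endV x R, x) (FE (steps x R)) ⊆ K)
    (h1 : ∀ h ∈ H, (steps x R).countP (fun st => decide (st.2.1 = some h)) ≤ ∑ z ∈ L h, dg K z)
    (h2 : ∀ h ∈ H, ∀ z ∈ h.1, (steps x R).countP (fun st => decide (st.2.1 = some h ∧ (st.1 = z ∨ st.2.2 = z))) ≤
      (if z ∈ L h then dg K z else 0) + (if z ∈ Sat M U h then 0 else 1)) :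
    ∃ X : Finset (Sym2 V), X ⊆ hubE H \ U ∧ IsCyc (X ∪ insert s(endV x R, x) (FE (steps x R))) ∧
      Inv M F0 H L (Fc \ K) (U ∪ X) := by
  obtain ⟨P, X, hP1, hP2, hP3, hP4, hX, hPX, hA, hB, hC⟩ := liftPath cs inv N hN x R hnd hv hc
  refine ⟨X, hX, ?_, ?_⟩
  · obtain ⟨t, rfl⟩ : ∃ t, P = x :: t := by
      cases P with
      | nil => simp at hP1
      | cons a t =>
        simp only [List.head?_cons, Option.some.injEq] at hP1
        exact ⟨t, by rw [hP1]⟩
    refine ⟨x, t, ?_, hP3, ?_⟩
    · simp only [List.length_cons] at hP4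
      rcases hlen with hlen | ⟨h, y, hR⟩
      · omega
      · by_contra hcon
        subst hR
        simp only [List.length_cons, List.length_nil] at hP4
        have ht1 : t.length = 1 := by omega
        obtain ⟨w, rfl⟩ := List.length_eq_one_iff.1 ht1
        have hw : w = y := by
          simpa [endV] using hP2
        subst hw
        have h3 : s(x, w) ∈ X := by
          have h4 : s(x, w) ∈ (pE [x, w]).toFinset := by
            simp [pE]
          rw [hPX] at h4
          simpa [FE, steps] using h4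
        have h5 : s(x, w) ∈ hubE H := (Finset.mem_sdiff.1 (hX h3)).1
        have h6 : s(w, x) ∈ F0 := inv.sub (hK (hKR (Finset.mem_insert_self _ _)))
        rw [Sym2.eq_swap] at h6
        exact (Finset.disjoint_left.1 cs.disj h6) h5
    · rw [sl_pE_close x t _ hP2, hPX]
      ext e
      simp only [Finset.mem_union, Finset.mem_insert]
      tauto
  · have hdK : ∀ z, dg (Fc \ K) z + dg K z = dg Fc z := sl_dg_sdiff Fc K hK
    refine ⟨Finset.sdiff_subset.trans inv.sub, ?_, ?_, ?_⟩
    · exact Finset.union_subset inv.usub (hX.trans Finset.sdiff_subset)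
    · intro h hh
      have e1 : ((U ∪ X) ∩ h.2).card ≤ (U ∩ h.2).card + (X ∩ h.2).card := by
        rw [Finset.union_inter_distrib_right]
        exact Finset.card_union_le _ _
      have e2 := hA h hh
      have e3 := h1 h hh
      have e4 := inv.cnt h hh
      have e5 : ∑ z ∈ L h, dg (Fc \ K) z + ∑ z ∈ L h, dg K z = ∑ z ∈ L h, dg Fc z := by
        rw [← Finset.sum_add_distrib]
        exact Finset.sum_congr rfl fun z _ => hdK z
      have e6 : 8 * M * (steps x R).countP (fun st => decide (st.2.1 = some h)) ≤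
          8 * M * ∑ z ∈ L h, dg K z := Nat.mul_le_mul_left _ e3
      have e7 : 8 * M * ∑ z ∈ L h, dg (Fc \ K) z + 8 * M * ∑ z ∈ L h, dg K z =
          8 * M * ∑ z ∈ L h, dg Fc z := by
        rw [← Nat.mul_add, e5]
      omega
    · intro h hh z hz
      have e1 : dg ((U ∪ X) ∩ h.2) z ≤ dg (U ∩ h.2) z + dg (X ∩ h.2) z := by
        rw [Finset.union_inter_distrib_right]
        exact sl_dg_union_le _ _ _
      have e2 := inv.use h hh z hz
      have e3 := hdK z
      have e4 : dg Fc z ≤ dg F0 z := Finset.card_le_card (Finset.filter_subset_filter _ inv.sub)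
      have e5 : z ∉ Sat M U h → dg (U ∩ h.2) z < sg M h := by
        intro hns
        by_contra hcon
        push Not at hcon
        exact hns (Finset.mem_filter.2 ⟨hz, hcon⟩)
      by_cases hzr : z ∈ rtV x R
      · have e6 := hB h hh z hzr
        have e7 := h2 h hh z hz
        by_cases hs : z ∈ Sat M U h
        · rw [if_pos hs] at e7
          split_ifs at e2 e7 ⊢ <;> omega
        · rw [if_neg hs] at e7
          have e8 := e5 hs
          split_ifs at e2 e7 ⊢ <;> omega
      · have e6 := hC h hh z hzr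
        by_cases hs : z ∈ Sat M U h
        · rw [if_pos hs] at e6
          split_ifs at e2 ⊢ <;> omega
        · rw [if_neg hs] at e6
          have e8 := e5 hs
          split_ifs at e2 ⊢ <;> omega

end Crest.Agent.EG
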